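import Vale.Agent.P249.Core.Line

/-!
The part of a coordinate selected by a function of the gate.
-/

namespace Vale.Agent.P249.Core.Line

/-- The sum of the increments weighted by a function of the gate. -/
noncomputable def part (L : Line) (P : Scale) (Φ : ℝ → ℝ) : ℝ :=
  ∑ l ∈ Finset.Icc 1 P.N, Φ (L.F P l) * L.δ l

end Vale.Agent.P249.Core.Line
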