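import Vale.Agent.P249.Core.Pair
import Vale.Agent.P249.Core.Part

/-!
The part of a coordinate selected by a function vanishing at the top of the gate is Lipschitz.
-/

namespace Vale.Agent.P249.Core

open Finset

namespace AmplitudeAux

/-- Two near lines with few slow levels, whose smoothed values move little over short windows. -/
structure Hyp (P : Scale) (a b : Line) (J : ℕ) (d κ : ℝ) (T : ℕ) (ε : ℝ) : Prop where
  near : Near P a b J d κ fun l => P.r l * |a.E l - b.E l| / d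
  oa : a.Ok P.N
  ob : b.Ok P.N
  ca : ((Finset.Icc 1 P.N).filter fun l => a.g l ≠ 1 / 2).card ≤ T
  cb : ((Finset.Icc 1 P.N).filter fun l => b.g l ≠ 1 / 2).card ≤ T
  hε : 0 < ε
  hε1 : ε ≤ 1
  wa : ∀ u ∈ Finset.Icc (J + (T + 2)) P.N, ∀ i ∈ Finset.Icc (u - (T + 2)) u,
    ∀ j ∈ Finset.Icc (u - (T + 2)) u,
      |a.m i - a.m j| ≤ P.r u * a.E u / ε ∧ P.r j * a.A j ≤ P.r u * a.E u / ε
  wb : ∀ u ∈ Finset.Icc (J + (T + 2)) P.N, ∀ i ∈ Finset.Icc (u - (T + 2)) u,
    ∀ j ∈ Finset.Icc (u - (T + 2)) u,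
      |b.m i - b.m j| ≤ P.r u * b.E u / ε ∧ P.r j * b.A j ≤ P.r u * b.E u / ε
  dE : ∀ u ∈ Finset.Icc (J + (T + 2)) P.N,
    P.r u * |a.E u - b.E u| ≤ κ * 2 ^ (T + 2) * d * min (a.E u) (b.E u)

variable {P : Scale} {a b : Line} {J T : ℕ} {d κ ε : ℝ}

lemma Hyp.symm (H : Hyp P a b J d κ T ε) : Hyp P b a J d κ T ε where
  near := by
    convert H.near.symm using 1
    funext l
    rw [abs_sub_comm]
  oa := H.ob
  ob := H.oa
  ca := H.cb
  cb := H.ca
  hε := H.hε
  hε1 := H.hε1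
  wa := H.wb
  wb := H.wa
  dE u hu := by rw [abs_sub_comm, min_comm]; exact H.dE u hu

/-- The growth factor of the differences. -/
noncomputable def lipc (κ : ℝ) (T : ℕ) (ε : ℝ) : ℝ := 18 * ((T : ℝ) + 3) * κ * 2 ^ (T + 2) / ε

/-- The error added at one level of the memory. -/
noncomputable def stepc (P : Scale) (d κ : ℝ) (T : ℕ) (ε : ℝ) : ℝ :=
  2 * (2 * lipc κ T ε + 4 * κ) * d * (2 ^ T * P.cap) + 2 * (κ * d) * (2 ^ T * P.cap)

/-- The bound on the relative difference of the memories. -/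
noncomputable def memc (P : Scale) (J : ℕ) (d κ : ℝ) (T : ℕ) (ε : ℝ) : ℝ :=
  P.r (J + 2 * (T + 3)) * (2 ^ T * P.cap) + 2 * stepc P d κ T ε * ((T : ℝ) + 1)

/-- The bound on the relative difference of the gates. -/
noncomputable def gatec (P : Scale) (J : ℕ) (d κ : ℝ) (T : ℕ) (ε : ℝ) : ℝ :=
  (2 * lipc κ T ε + 4 * κ) * d * (2 ^ T * P.cap) + memc P J d κ T ε +
    2 * (κ * d) * (2 ^ T * P.cap)

lemma κ_pos (H : Hyp P a b J d κ T ε) : 0 < κ := one_pos.trans_le H.near.hκ

lemma lipc_nonneg (H : Hyp P a b J d κ T ε) : 0 ≤ lipc κ T ε := by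
  have := κ_pos H
  have := H.hε
  rw [lipc]
  positivity

lemma stepc_nonneg (H : Hyp P a b J d κ T ε) : 0 ≤ stepc P d κ T ε := by
  have := κ_pos H
  have := lipc_nonneg H
  have := H.near.hd
  have := P.cap_pos
  rw [stepc]
  positivity

/-- The difference of the chains just below a level. -/
lemma abs_dq_window (H : Hyp P a b J d κ T ε) {u : ℕ}
    (hu : u ∈ Finset.Icc (J + (T + 2)) P.N) :
    |a.q (u - 1) - b.q (u - 1)| ≤ 6 * ((T : ℝ) + 3) * (κ * d) * (2 ^ (T + 2) * (a.E u / ε)) := by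
  obtain ⟨hu1, hu2⟩ := mem_Icc.1 hu
  have hJ := H.near.hJ
  have hκd := H.near.κd_pos
  set M := 2 ^ (T + 2) * (a.E u / ε) with hM
  have hM0 : 0 ≤ M := mul_nonneg (by positivity) (div_nonneg (H.oa.hE u) H.hε.le)
  set w := Finset.Icc (u - (T + 2)) u with hw
  have hrj : ∀ j ∈ w, P.r u * a.E u / ε ≤ P.r j * M := by
    intro j hj
    obtain ⟨h1, -⟩ := mem_Icc.1 hj
    have h2 : P.r u ≤ 2 ^ (T + 2) * P.r j := by
      rw [← P.r_add]
      exact P.r_mono (by omega)
    rw [mul_div_assoc]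
    refine (mul_le_mul_of_nonneg_right h2 (div_nonneg (H.oa.hE u) H.hε.le)).trans (le_of_eq ?_)
    rw [hM]
    ring
  -- a slow level among the preceding ones
  obtain ⟨c, hc, hcg⟩ : ∃ c ∈ Finset.Ico (u - (T + 2)) u, a.g c < 1 := by
    by_contra hcon
    push Not at hcon
    have hsub : Finset.Ico (u - (T + 2)) u ⊆ (Finset.Icc 1 P.N).filter fun l => a.g l ≠ 1 / 2 := by
      intro j hj
      have h1 := hcon j hj
      obtain ⟨h2, h3⟩ := mem_Ico.1 hj
      exact mem_filter.2 ⟨mem_Icc.2 ⟨by omega, by omega⟩, fun e => by rw [e] at h1; linarith⟩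
    have := (card_le_card hsub).trans H.ca
    rw [Nat.card_Ico] at this
    omega
  obtain ⟨hc1, hc2⟩ := mem_Ico.1 hc
  have hcJ : c ∈ Finset.Icc J P.N := mem_Icc.2 ⟨by omega, by omega⟩
  have hcw : c ∈ w := mem_Icc.2 ⟨hc1, hc2.le⟩
  have hcpos : 1 ≤ c := by omega
  have hqc : a.q c = a.m c := a.q_eq_m hcpos (H.oa.hgχ c hcg)
  -- the chain stays near the smoothed values of the window
  have hcomb : ∀ i, c ≤ i → i < u → ∀ y ∈ w, |a.q i - a.m y| ≤ P.r u * a.E u / ε := by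
    intro i hci
    induction i, hci using Nat.le_induction with
    | base =>
      intro _ y hy
      rw [hqc]
      exact (H.wa u hu c hcw y hy).1
    | succ i hci ih =>
      intro hiu y hy
      have h1 := ih (by omega) y hy
      have h2 := (H.wa u hu (i + 1) (mem_Icc.2 ⟨by omega, hiu.le⟩) y hy).1
      rw [a.q_succ, show a.q i + a.χ (i + 1) * (a.m (i + 1) - a.q i) - a.m y =
        (1 - a.χ (i + 1)) * (a.q i - a.m y) + a.χ (i + 1) * (a.m (i + 1) - a.m y) by ring]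
      refine (abs_add_le _ _).trans ?_
      have h0 := H.oa.hχ0 (i + 1)
      have h3 : 0 ≤ 1 - a.χ (i + 1) := by linarith [H.oa.hχ1 (i + 1)]
      rw [abs_mul, abs_mul, abs_of_nonneg h3, abs_of_nonneg h0]
      have h4 := mul_le_mul_of_nonneg_left h1 h3
      have h5 := mul_le_mul_of_nonneg_left h2 h0
      linarith
  have hA : ∀ j ∈ w, a.A j ≤ M := fun j hj =>
    le_of_mul_le_mul_left (((H.wa u hu j hj j hj).2).trans (hrj j hj)) (P.r_pos j)
  have hind : ∀ j, c ≤ j → j < u →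
      |a.q j - b.q j| ≤ κ * d * M + ((j - c : ℕ) : ℝ) * (6 * (κ * d) * M) := by
    intro j hcj
    induction j, hcj using Nat.le_induction with
    | base =>
      intro _
      rw [Nat.sub_self, Nat.cast_zero, zero_mul, add_zero, hqc,
        b.q_eq_m hcpos ((H.near.hgχ c hcJ).1 hcg)]
      exact (H.near.hm c hcJ).trans
        (mul_le_mul_of_nonneg_left ((min_le_left _ _).trans (hA c hcw)) hκd.le)
    | succ j hcj ih =>
      intro hju
      have hjw : j + 1 ∈ w := mem_Icc.2 ⟨by omega, hju.le⟩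
      have hjJ : j + 1 ∈ Finset.Icc J P.N := mem_Icc.2 ⟨by omega, by omega⟩
      have h1 := H.near.abs_dq_succ_le H.oa H.ob hjJ
      rw [Nat.add_sub_cancel] at h1
      have h2 := mul_le_of_le_one_left (abs_nonneg (a.q j - b.q j))
        (Line.θ_bounds H.oa (j + 1)).2.1
      have hZ : a.Z P (j + 1) ≤ M := by
        rw [Line.Z, Nat.add_sub_cancel, div_le_iff₀ (P.r_pos _), mul_comm M]
        exact (hcomb j hcj (by omega) (j + 1) hjw).trans (hrj _ hjw)
      have hB : a.χ (j + 1) * a.B P (j + 1) ≤ 2 * M :=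
        (mul_le_of_le_one_left (Line.B_nonneg H.oa _) (H.oa.hχ1 _)).trans (by
          rw [Line.B]; linarith [hA _ hjw])
      have h3 := mul_le_mul_of_nonneg_left hB (by linarith : (0 : ℝ) ≤ 3 * (κ * d))
      rw [Nat.succ_sub hcj, Nat.cast_succ, add_mul, one_mul]
      have h4 := ih (by omega)
      linarith
  refine (hind (u - 1) (by omega) (by omega)).trans ?_
  have h1 : ((u - 1 - c : ℕ) : ℝ) ≤ (T : ℝ) + 2 := by
    exact_mod_cast (show u - 1 - c ≤ T + 2 by omega)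
  have h2 := mul_le_mul_of_nonneg_right h1
    (mul_nonneg (by linarith : (0 : ℝ) ≤ 6 * (κ * d)) hM0)
  have h3 : 0 ≤ κ * d * M := mul_nonneg hκd.le hM0
  linarith

lemma lipc_le (H : Hyp P a b J d κ T ε) {u : ℕ} {x : ℝ} (hx : a.E u ≤ x) {α β : ℝ} (hα : 0 ≤ α)
    (hβ : 0 ≤ β) (hαβ : α + β ≤ 6) :
    2 * (6 * ((T : ℝ) + 3) * (κ * d) * (2 ^ (T + 2) * (a.E u / ε))) +
      α * (κ * d) * x + β * (κ * 2 ^ (T + 2) * d) * x ≤ lipc κ T ε * d * x := by
  have hκ := κ_pos H
  have hd := H.near.hd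
  have hε := H.hε
  set S := κ * 2 ^ (T + 2) * d / ε with hS
  have hS0 : 0 ≤ S := by positivity
  have hT : (0 : ℝ) ≤ T := Nat.cast_nonneg T
  have hx0 : 0 ≤ x := (H.oa.hE u).trans hx
  have h1 : κ * d ≤ S := by
    rw [hS, le_div_iff₀ hε]
    calc κ * d * ε ≤ κ * d := mul_le_of_le_one_right (mul_pos hκ hd).le H.hε1
      _ = κ * 1 * d := by ring
      _ ≤ _ := by gcongr; exact one_le_pow₀ one_le_two
  have h2 : κ * 2 ^ (T + 2) * d ≤ S := by
    rw [hS, le_div_iff₀ hε]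
    exact mul_le_of_le_one_right (by positivity) H.hε1
  have e1 : 2 * (6 * ((T : ℝ) + 3) * (κ * d) * (2 ^ (T + 2) * (a.E u / ε))) =
      12 * ((T : ℝ) + 3) * S * a.E u := by
    rw [hS]; field_simp; ring
  have e2 : lipc κ T ε * d * x = 18 * ((T : ℝ) + 3) * S * x := by
    rw [lipc, hS]; field_simp
  rw [e1, e2]
  have h3 : 12 * ((T : ℝ) + 3) * S * a.E u ≤ 12 * ((T : ℝ) + 3) * S * x :=
    mul_le_mul_of_nonneg_left hx (by positivity)
  have h4 : α * (κ * d) * x ≤ α * S * x := by gcongr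
  have h5 : β * (κ * 2 ^ (T + 2) * d) * x ≤ β * S * x := by gcongr
  have h6 : (α + β) * (S * x) ≤ 6 * ((T : ℝ) + 3) * (S * x) :=
    mul_le_mul_of_nonneg_right (by linarith) (mul_nonneg hS0 hx0)
  linarith

/-- The sizes move by a bounded multiple of themselves. -/
lemma r_mul_abs_dX (H : Hyp P a b J d κ T ε) {u : ℕ} (hu : u ∈ Finset.Icc (J + (T + 2)) P.N) :
    P.r u * |b.X P u - a.X P u| ≤ lipc κ T ε * d * a.X P u := by
  obtain ⟨hu1, hu2⟩ := mem_Icc.1 hu
  have hκ := κ_pos H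
  have hd := H.near.hd
  have h1 := H.near.r_mul_abs_dX_le H.oa H.ob (l := u) (mem_Icc.2 ⟨by omega, hu2⟩)
  rw [mul_div_cancel₀ _ hd.ne'] at h1
  have h2 : a.χ u * |a.q (u - 1) - b.q (u - 1)| ≤
      6 * ((T : ℝ) + 3) * (κ * d) * (2 ^ (T + 2) * (a.E u / ε)) :=
    (mul_le_of_le_one_left (abs_nonneg _) (H.oa.hχ1 u)).trans (abs_dq_window H hu)
  have h3 := mul_le_mul_of_nonneg_left (Line.chiB_le_X (P := P) H.oa u)
    (by positivity : (0 : ℝ) ≤ 5 * (κ * d))
  have hEX : a.E u ≤ a.X P u := le_add_of_nonneg_left (Line.chiB_nonneg H.oa u)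
  have h4 := (H.dE u hu).trans (mul_le_mul_of_nonneg_left ((min_le_left _ _).trans hEX)
    (by positivity))
  have h5 := lipc_le H hEX (α := 5) (β := 1) (by norm_num) (by norm_num) (by norm_num)
  linarith

/-- The increments move by a bounded multiple of the sizes. -/
lemma abs_dδ (H : Hyp P a b J d κ T ε) {u : ℕ} (hu : u ∈ Finset.Icc (J + (T + 2)) P.N) :
    |a.δ u - b.δ u| ≤ lipc κ T ε * d * a.X P u := by
  obtain ⟨hu1, hu2⟩ := mem_Icc.1 hu
  have huJ : u ∈ Finset.Icc J P.N := mem_Icc.2 ⟨by omega, hu2⟩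
  have h1u : 1 ≤ u := by have := H.near.hJ; omega
  have hκd := H.near.κd_pos
  rw [a.δ_eq h1u, b.δ_eq h1u,
    show a.χ u * (a.q (u - 1) - a.m u) - b.χ u * (b.q (u - 1) - b.m u) =
      b.χ u * ((a.q (u - 1) - b.q (u - 1)) + (b.m u - a.m u)) +
        (a.χ u - b.χ u) * (a.q (u - 1) - a.m u) by ring]
  refine (abs_add_le _ _).trans ?_
  rw [abs_mul, abs_mul, abs_of_nonneg (H.ob.hχ0 u)]
  have hm := (H.near.hm u huJ).trans (mul_le_mul_of_nonneg_left (min_le_left _ _) hκd.le)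
  rw [abs_sub_comm] at hm
  have h2 : b.χ u * |(a.q (u - 1) - b.q (u - 1)) + (b.m u - a.m u)| ≤
      2 * a.χ u * (6 * ((T : ℝ) + 3) * (κ * d) * (2 ^ (T + 2) * (a.E u / ε)) + κ * d * a.A u) :=
    mul_le_mul (H.near.chi_le_two H.oa huJ)
      ((abs_add_le _ _).trans (add_le_add (abs_dq_window H hu) hm))
      (abs_nonneg _) (by linarith [H.oa.hχ0 u])
  have h3 : |a.χ u - b.χ u| * |a.q (u - 1) - a.m u| ≤ κ * d * (a.χ u * a.Z P u) := by
    have e : |a.q (u - 1) - a.m u| = P.r u * a.Z P u := by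
      rw [Line.Z, mul_div_cancel₀ _ (P.r_pos u).ne']
    rw [e, ← mul_assoc, mul_comm |a.χ u - b.χ u|, ← mul_assoc]
    exact mul_le_mul_of_nonneg_right
      ((H.near.hχ u huJ).trans (mul_le_mul_of_nonneg_left (min_le_left _ _) hκd.le))
      (Line.Z_nonneg u)
  have hEX : a.E u ≤ a.X P u := le_add_of_nonneg_left (Line.chiB_nonneg H.oa u)
  have hD0 : 0 ≤ 6 * ((T : ℝ) + 3) * (κ * d) * (2 ^ (T + 2) * (a.E u / ε)) :=
    (abs_nonneg _).trans (abs_dq_window H hu)
  have h4 : 2 * a.χ u * (6 * ((T : ℝ) + 3) * (κ * d) * (2 ^ (T + 2) * (a.E u / ε))) ≤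
      2 * (6 * ((T : ℝ) + 3) * (κ * d) * (2 ^ (T + 2) * (a.E u / ε))) :=
    mul_le_mul_of_nonneg_right (by linarith [H.oa.hχ1 u]) hD0
  have hA2 : a.χ u * a.A u + a.χ u * a.Z P u ≤ a.X P u := by
    rw [← mul_add]
    exact Line.chiB_le_X H.oa u
  have h5 := mul_le_mul_of_nonneg_left hA2 (by linarith : (0 : ℝ) ≤ 2 * (κ * d))
  have h6 := mul_nonneg hκd.le (mul_nonneg (H.oa.hχ0 u) (Line.Z_nonneg (L := a) (P := P) u))
  have h7 := lipc_le H hEX (α := 2) (β := 0) (by norm_num) le_rfl (by norm_num)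
  linarith

/-- The compressed sizes move by a bounded multiple of the sizes. -/
lemma r_mul_abs_dXs (H : Hyp P a b J d κ T ε) {u : ℕ} (hu : u ∈ Finset.Icc (J + (T + 2)) P.N) :
    P.r u * |a.Xs P u - b.Xs P u| ≤ a.w P u * ((2 * lipc κ T ε + 4 * κ) * d * a.X P u) := by
  obtain ⟨hu1, hu2⟩ := mem_Icc.1 hu
  have hr := P.r_pos u
  have hwa := Line.w_pos (P := P) H.oa u
  rw [Line.Xs, Line.Xs, show a.w P u * a.X P u - b.w P u * b.X P u =
    b.w P u * (a.X P u - b.X P u) + (a.w P u - b.w P u) * a.X P u by ring]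
  have h1 := mul_le_mul_of_nonneg_left (abs_add_le (b.w P u * (a.X P u - b.X P u))
    ((a.w P u - b.w P u) * a.X P u)) hr.le
  rw [abs_mul, abs_mul, abs_of_pos (Line.w_pos H.ob u),
    abs_of_nonneg (Line.X_nonneg H.oa u), abs_sub_comm (a.X P u), abs_sub_comm (a.w P u)] at h1
  have h2 : b.w P u * (P.r u * |b.X P u - a.X P u|) ≤
      2 * a.w P u * (lipc κ T ε * d * a.X P u) :=
    mul_le_mul (H.near.w_le_two H.oa H.ob (by omega)) (r_mul_abs_dX H hu) (by positivity)
      (by linarith)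
  have h3 : P.r u * |b.w P u - a.w P u| ≤ 4 * (κ * d) * a.w P u := by
    refine (mul_le_mul_of_nonneg_left (H.near.abs_dw_le H.oa H.ob (by omega)) hr.le).trans
      (le_of_eq ?_)
    field_simp
  have h4 := mul_le_mul_of_nonneg_right h3 (Line.X_nonneg (P := P) H.oa u)
  linarith

/-- The uncompressed tail at a level below the top of the gate. -/
lemma tail_le_cap (H : Hyp P a b J d κ T ε) {l : ℕ} (hl : a.U P l ≤ P.cap) :
    tail (a.X P) P.N l ≤ 2 ^ T * P.cap :=
  (Line.tail_le_pow_mul_U H.oa H.ca l).trans (mul_le_mul_of_nonneg_left hl (by positivity))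

/-- The tails move little below the top of the gate. -/
lemma r_mul_abs_dU (H : Hyp P a b J d κ T ε) {l : ℕ} (hl : l ∈ Finset.Icc (J + (T + 2)) P.N)
    (hU : a.U P l ≤ P.cap) :
    P.r l * |a.U P l - b.U P l| ≤
      a.w P l * ((2 * lipc κ T ε + 4 * κ) * d * (2 ^ T * P.cap)) := by
  obtain ⟨hl1, hl2⟩ := mem_Icc.1 hl
  have hc : 0 ≤ (2 * lipc κ T ε + 4 * κ) * d :=
    mul_nonneg (by linarith [lipc_nonneg H, κ_pos H]) H.near.hd.le
  rw [Line.U, Line.U, tail, tail, ← sum_sub_distrib]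
  refine (mul_le_mul_of_nonneg_left (abs_sum_le_sum_abs _ _) (P.r_pos l).le).trans ?_
  rw [mul_sum]
  calc _ ≤ ∑ u ∈ Finset.Icc l P.N, a.w P l * ((2 * lipc κ T ε + 4 * κ) * d * a.X P u) := by
        refine sum_le_sum fun u hu => ?_
        obtain ⟨h1, h2⟩ := mem_Icc.1 hu
        refine le_of_mul_le_mul_left ?_ (P.r_pos u)
        have h3 := mul_le_mul_of_nonneg_left
          (r_mul_abs_dXs H (mem_Icc.2 ⟨hl1.trans h1, h2⟩)) (P.r_pos l).le
        refine le_trans (le_of_eq (by ring)) (h3.trans ?_)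
        rw [← mul_assoc, Line.r_mul_w H.oa l u]
        have h4 := mul_le_of_le_one_left (P.r_pos u).le (Line.Q_le_one (P := P) H.oa h1)
        have h5 := mul_le_mul_of_nonneg_left h4 (Line.w_pos (P := P) H.oa l).le
        refine (mul_le_mul_of_nonneg_right h5 (mul_nonneg hc (Line.X_nonneg H.oa u))).trans
          (le_of_eq ?_)
        ring
    _ = a.w P l * ((2 * lipc κ T ε + 4 * κ) * d * tail (a.X P) P.N l) := by
        rw [tail, mul_sum, mul_sum]
    _ ≤ _ := mul_le_mul_of_nonneg_left (mul_le_mul_of_nonneg_left (tail_le_cap H hU) hc)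
        (Line.w_pos H.oa l).le

/-- One step of the difference of the memories before the top is applied. -/
lemma r_mul_abs_dgmem (H : Hyp P a b J d κ T ε) {t : ℕ} (ht1 : J < t) (ht2 : t ≤ P.N) {e : ℝ}
    (he : P.r (t - 1) * |a.mem P (t - 1) - b.mem P (t - 1)| ≤ a.w P (t - 1) * e) :
    P.r t * |a.g t ^ 2 * a.mem P (t - 1) - b.g t ^ 2 * b.mem P (t - 1)| ≤
      a.w P t * (a.g t * e + 2 * (κ * d) * (2 ^ T * P.cap)) := by
  have hga := Line.g_pos H.oa t
  have hgb := Line.g_pos H.ob t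
  obtain ⟨j, rfl⟩ := Nat.exists_eq_add_of_le' (show 1 ≤ t by omega)
  rw [Nat.add_sub_cancel] at he ⊢
  rw [show a.g (j + 1) ^ 2 * a.mem P j - b.g (j + 1) ^ 2 * b.mem P j =
    a.g (j + 1) ^ 2 * (a.mem P j - b.mem P j) +
      (a.g (j + 1) ^ 2 - b.g (j + 1) ^ 2) * b.mem P j by ring]
  refine (mul_le_mul_of_nonneg_left (abs_add_le _ _) (P.r_pos _).le).trans ?_
  rw [abs_mul, abs_mul, abs_of_nonneg (sq_nonneg (a.g (j + 1))),
    abs_of_nonneg (Line.mem_nonneg H.ob j), mul_add, mul_add]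
  refine add_le_add ?_ ?_
  · rw [P.r_succ, ← Line.w_succ H.oa (show j < P.N by omega)]
    have := mul_le_mul_of_nonneg_left he (by positivity : (0 : ℝ) ≤ 2 * a.g (j + 1) ^ 2)
    linarith
  · have h1 : |a.g (j + 1) ^ 2 - b.g (j + 1) ^ 2| ≤ 2 * |a.g (j + 1) - b.g (j + 1)| := by
      rw [sq_sub_sq, abs_mul]
      exact mul_le_mul_of_nonneg_right
        (by rw [abs_of_pos (by linarith)]; linarith [H.oa.hg1 (j + 1), H.ob.hg1 (j + 1)])
        (abs_nonneg _)
    have h2 : 1 ≤ a.w P (j + 1) * 2 ^ T := by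
      have := Line.w_ge_pow H.oa H.ca (j + 1)
      rwa [div_le_iff₀ (by positivity)] at this
    have h3 := H.near.hg (j + 1) (mem_Icc.2 ⟨by omega, ht2⟩)
    have h4 : 0 ≤ 2 * (κ * d) * P.cap :=
      mul_nonneg (mul_nonneg zero_le_two H.near.κd_pos.le) P.cap_pos.le
    calc P.r (j + 1) * (|a.g (j + 1) ^ 2 - b.g (j + 1) ^ 2| * b.mem P j)
        ≤ P.r (j + 1) * (2 * |a.g (j + 1) - b.g (j + 1)| * P.cap) := by
          refine mul_le_mul_of_nonneg_left ?_ (P.r_pos _).le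
          exact mul_le_mul h1 (Line.mem_le_cap j) (Line.mem_nonneg H.ob j) (by positivity)
      _ = 2 * P.cap * (P.r (j + 1) * |a.g (j + 1) - b.g (j + 1)|) := by ring
      _ ≤ 2 * P.cap * (κ * d) := mul_le_mul_of_nonneg_left h3 (by linarith [P.cap_pos])
      _ = 2 * (κ * d) * P.cap := by ring
      _ ≤ 2 * (κ * d) * P.cap * (a.w P (j + 1) * 2 ^ T) := le_mul_of_one_le_right h4 h2
      _ = _ := by ring

/-- One step of the difference of the memories. -/
lemma r_mul_abs_dmem_step (H : Hyp P a b J d κ T ε) {t : ℕ} (ht1 : J + (T + 2) ≤ t)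
    (ht2 : t ≤ P.N) {e : ℝ} (he0 : 0 ≤ e)
    (he : P.r (t - 1) * |a.mem P (t - 1) - b.mem P (t - 1)| ≤ a.w P (t - 1) * e) :
    P.r t * |a.mem P t - b.mem P t| ≤ a.w P t * (a.g t * e + stepc P d κ T ε) := by
  have ht : t ∈ Finset.Icc (J + (T + 2)) P.N := mem_Icc.2 ⟨ht1, ht2⟩
  have h1t : 1 ≤ t := by omega
  have hwa := Line.w_pos (P := P) H.oa t
  set za := a.Xs P t + a.g t ^ 2 * a.mem P (t - 1) with hza
  set zb := b.Xs P t + b.g t ^ 2 * b.mem P (t - 1) with hzb
  rw [Line.mem_of_pos h1t, Line.mem_of_pos h1t, ← hza, ← hzb]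
  have hrhs : 0 ≤ a.w P t * (a.g t * e + stepc P d κ T ε) :=
    mul_nonneg hwa.le (add_nonneg (mul_nonneg (Line.g_pos H.oa t).le he0) (stepc_nonneg H))
  rcases le_or_gt P.cap za with hza' | hza' <;> rcases le_or_gt P.cap zb with hzb' | hzb'
  · rw [min_eq_left hza', min_eq_left hzb', sub_self, abs_zero, mul_zero]
    exact hrhs
  all_goals
    refine le_trans (mul_le_mul_of_nonneg_left ((abs_min_sub_min_le_max _ _ _ _).trans
      (max_le (by rw [sub_self, abs_zero]; exact abs_nonneg (za - zb)) le_rfl)) (P.r_pos t).le) ?_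
    have hsplit : |za - zb| ≤ |a.Xs P t - b.Xs P t| +
        |a.g t ^ 2 * a.mem P (t - 1) - b.g t ^ 2 * b.mem P (t - 1)| := by
      rw [hza, hzb, add_sub_add_comm]
      exact abs_add_le _ _
    have hg := r_mul_abs_dgmem H (by omega) ht2 he
    have hX : P.r t * |a.Xs P t - b.Xs P t| ≤
        a.w P t * (2 * (2 * lipc κ T ε + 4 * κ) * d * (2 ^ T * P.cap)) := by
      have hc : 0 ≤ (2 * lipc κ T ε + 4 * κ) * d :=
        mul_nonneg (by linarith [lipc_nonneg H, κ_pos H]) H.near.hd.le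
      have hsmallX : ∀ (z : Line), z.Ok P.N →
          ((Finset.Icc 1 P.N).filter fun l => z.g l ≠ 1 / 2).card ≤ T →
          z.Xs P t + z.g t ^ 2 * z.mem P (t - 1) < P.cap → z.X P t ≤ 2 ^ T * P.cap := by
        intro z oz cz hz
        have h1 := Line.w_ge_pow oz cz t
        rw [div_le_iff₀ (by positivity)] at h1
        have h2 := Line.Xs_add_nonneg (P := P) oz t
        calc z.X P t ≤ z.w P t * 2 ^ T * z.X P t :=
              le_mul_of_one_le_left (Line.X_nonneg oz t) h1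
          _ = 2 ^ T * z.Xs P t := by rw [Line.Xs]; ring
          _ ≤ _ := mul_le_mul_of_nonneg_left (by linarith) (by positivity)
      have hA0 : 0 ≤ (2 * lipc κ T ε + 4 * κ) * d * (2 ^ T * P.cap) :=
        mul_nonneg hc (mul_nonneg (by positivity) P.cap_pos.le)
      by_cases hsel : za < P.cap
      · refine (r_mul_abs_dXs H ht).trans (mul_le_mul_of_nonneg_left ?_ hwa.le)
        have := mul_le_mul_of_nonneg_left (hsmallX a H.oa H.ca hsel) hc
        linarith
      · have hzb'' : zb < P.cap := by linarith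
        rw [abs_sub_comm]
        refine (r_mul_abs_dXs H.symm ht).trans ?_
        refine (mul_le_mul (H.near.w_le_two H.oa H.ob (by omega))
          (mul_le_mul_of_nonneg_left (hsmallX b H.ob H.cb hzb'') hc)
          (mul_nonneg hc (Line.X_nonneg H.ob t)) (by linarith)).trans (le_of_eq ?_)
        ring
    refine (mul_le_mul_of_nonneg_left hsplit (P.r_pos t).le).trans ?_
    rw [mul_add, stepc]
    linarith

/-- The memories differ by a bounded amount at all high levels. -/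
lemma r_mul_abs_dmem (H : Hyp P a b J d κ T ε) {t : ℕ} (ht1 : J + 2 * (T + 3) ≤ t)
    (ht2 : t ≤ P.N) :
    P.r t * |a.mem P t - b.mem P t| ≤ a.w P t * memc P J d κ T ε := by
  set J₂ := J + 2 * (T + 3) with hJ₂
  set e₀ := P.r J₂ * (2 ^ T * P.cap) with he₀
  set Φ₀ := stepc P d κ T ε with hΦ₀
  have hΦ0 : 0 ≤ Φ₀ := stepc_nonneg H
  have he00 : 0 ≤ e₀ := mul_nonneg (P.r_pos _).le (mul_nonneg (by positivity) P.cap_pos.le)
  set bad : ℕ → ℕ := fun t => ((Finset.Icc (J₂ + 1) t).filter fun l => a.g l ≠ 1 / 2).card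
    with hbad
  have key : P.r t * |a.mem P t - b.mem P t| ≤
      a.w P t * (e₀ + 2 * Φ₀ * ((bad t : ℝ) + 1)) := by
    induction t, ht1 using Nat.le_induction with
    | base =>
      have h1 : |a.mem P J₂ - b.mem P J₂| ≤ P.cap := by
        rw [abs_le]
        constructor <;>
          linarith [Line.mem_nonneg (P := P) H.oa J₂, Line.mem_nonneg (P := P) H.ob J₂,
            Line.mem_le_cap (L := a) (P := P) J₂, Line.mem_le_cap (L := b) (P := P) J₂]
      have h2 : 1 ≤ a.w P J₂ * 2 ^ T := by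
        have := Line.w_ge_pow H.oa H.ca J₂
        rwa [div_le_iff₀ (by positivity)] at this
      have h3 : P.r J₂ * P.cap ≤ a.w P J₂ * e₀ := by
        refine (le_mul_of_one_le_left (mul_pos (P.r_pos _) P.cap_pos).le h2).trans (le_of_eq ?_)
        rw [he₀]; ring
      refine ((mul_le_mul_of_nonneg_left h1 (P.r_pos _).le).trans h3).trans
        (mul_le_mul_of_nonneg_left (le_add_of_nonneg_right ?_) (Line.w_pos H.oa _).le)
      positivity
    | succ t ht1 ih =>
      have h1 := ih (by omega)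
      have h2 := r_mul_abs_dmem_step H (t := t + 1) (e := e₀ + 2 * Φ₀ * ((bad t : ℝ) + 1))
        (by omega) ht2 (by positivity) (by rw [Nat.add_sub_cancel]; exact h1)
      refine h2.trans (mul_le_mul_of_nonneg_left ?_ (Line.w_pos H.oa _).le)
      rw [← hΦ₀]
      have hins : Finset.Icc (J₂ + 1) (t + 1) = insert (t + 1) (Finset.Icc (J₂ + 1) t) := by
        ext u; simp only [mem_Icc, mem_insert]; omega
      by_cases hg : a.g (t + 1) = 1 / 2
      · have hb : bad (t + 1) = bad t := by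
          simp only [hbad]
          rw [hins, filter_insert, if_neg (by simp [hg])]
        rw [hb, hg]
        have : 0 ≤ (bad t : ℝ) * Φ₀ := by positivity
        linarith
      · have hb : bad (t + 1) = bad t + 1 := by
          simp only [hbad]
          rw [hins, filter_insert, if_pos hg, card_insert_of_notMem (by simp)]
        rw [hb]
        push_cast
        have := mul_le_of_le_one_left
          (show 0 ≤ e₀ + 2 * Φ₀ * ((bad t : ℝ) + 1) by positivity) (H.oa.hg1 (t + 1))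
        linarith
  refine key.trans (mul_le_mul_of_nonneg_left ?_ (Line.w_pos H.oa _).le)
  rw [memc, ← hJ₂, ← he₀, ← hΦ₀]
  have h1 : (bad t : ℝ) ≤ T := by
    refine Nat.cast_le.2 (le_trans (card_le_card ?_) H.ca)
    intro l hl
    obtain ⟨h2, h3⟩ := mem_filter.1 hl
    obtain ⟨h4, h5⟩ := mem_Icc.1 h2
    exact mem_filter.2 ⟨mem_Icc.2 ⟨by omega, by omega⟩, h3⟩
  have := mul_le_mul_of_nonneg_left h1 (by linarith : (0 : ℝ) ≤ 2 * Φ₀)
  linarith

/-- The gate quantity moves little at high levels below its top. -/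
lemma r_mul_abs_dV (H : Hyp P a b J d κ T ε) {l : ℕ} (hl1 : J + 2 * (T + 3) < l) (hl2 : l ≤ P.N)
    (hU : a.U P l ≤ P.cap) :
    P.r l * |a.V P l - b.V P l| ≤ a.w P l * gatec P J d κ T ε := by
  have he : 0 ≤ memc P J d κ T ε := by
    have h1 := stepc_nonneg H
    have h2 := P.r_pos (J + 2 * (T + 3))
    have h3 := P.cap_pos
    rw [memc]; positivity
  have h1 := r_mul_abs_dU H (mem_Icc.2 ⟨by omega, hl2⟩) hU
  have h2 := r_mul_abs_dgmem H (by omega) hl2
    (r_mul_abs_dmem H (t := l - 1) (by omega) (by omega))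
  have h3 : |a.V P l - b.V P l| ≤ |a.U P l - b.U P l| +
      |a.g l ^ 2 * a.mem P (l - 1) - b.g l ^ 2 * b.mem P (l - 1)| := by
    rw [Line.V, Line.V]
    refine ((abs_min_sub_min_le_max _ _ _ _).trans
      (max_le (by rw [sub_self, abs_zero]; exact abs_nonneg _) le_rfl)).trans ?_
    rw [add_sub_add_comm, ← mul_sub]
    refine (abs_add_le _ _).trans (add_le_add le_rfl ?_)
    rw [abs_mul, abs_of_pos P.hσ]
    exact mul_le_of_le_one_left (abs_nonneg _) P.hσ1
  refine (mul_le_mul_of_nonneg_left h3 (P.r_pos l).le).trans ?_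
  have h4 := mul_le_mul_of_nonneg_left
    (mul_le_of_le_one_left he (H.oa.hg1 l)) (Line.w_pos (P := P) H.oa l).le
  rw [mul_add, gatec]
  linarith

lemma log_max_lip {x y f : ℝ} (hf : 0 < f) :
    |Real.log (max x f) - Real.log (max y f)| ≤ |x - y| / f := by
  have key : ∀ p q : ℝ, f ≤ p → p ≤ q → Real.log q - Real.log p ≤ (q - p) / f := by
    intro p q hp hpq
    have hp0 : 0 < p := hf.trans_le hp
    rw [← Real.log_div (hp0.trans_le hpq).ne' hp0.ne']
    refine (Real.log_le_sub_one_of_pos (div_pos (hp0.trans_le hpq) hp0)).trans ?_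
    rw [div_sub_one hp0.ne']
    exact div_le_div_of_nonneg_left (sub_nonneg.2 hpq) hf hp
  have h0 : |max x f - max y f| ≤ |x - y| :=
    (abs_max_sub_max_le_max x f y f).trans (max_le le_rfl (by simp))
  rcases le_total (max x f) (max y f) with h | h
  · have h1 := key _ _ (le_max_right x f) h
    have h2 := Real.log_le_log (hf.trans_le (le_max_right x f)) h
    rw [abs_of_nonpos (by linarith), neg_sub]
    refine h1.trans ((div_le_div_iff_of_pos_right hf).2 ?_)
    rw [abs_sub_comm] at h0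
    exact (le_abs_self _).trans h0
  · have h1 := key _ _ (le_max_right y f) h
    have h2 := Real.log_le_log (hf.trans_le (le_max_right y f)) h
    rw [abs_of_nonneg (by linarith)]
    exact h1.trans ((div_le_div_iff_of_pos_right hf).2 ((le_abs_self _).trans h0))

/-- A level where the function is alive lies below the top of the gate. -/
lemma U_lt_cap {L : Line} {P : Scale} (ok : L.Ok P.N) {Φ : ℝ → ℝ}
    (hΦ : ∀ x, P.h ≤ x → Φ x = 0) {l : ℕ} (h : Φ (L.F P l) ≠ 0) : L.U P l < P.cap := by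
  by_contra hc
  push Not at hc
  refine h (hΦ _ ?_)
  have hV : L.V P l = P.cap :=
    le_antisymm (Line.V_le_cap l) (by simpa [min_eq_left hc] using Line.min_U_le_V ok l)
  rw [Line.F, hV, max_eq_left P.fl_le_cap, P.log_cap]
  linarith

/-- One high level. -/
lemma term_le (H : Hyp P a b J d κ T ε) {Φ : ℝ → ℝ} {Lp : ℝ} (hLp : 0 ≤ Lp)
    (h1 : ∀ x, |Φ x| ≤ 1) (hL : ∀ x y, |Φ x - Φ y| ≤ Lp * |x - y|) {l : ℕ}
    (hl1 : J + 2 * (T + 3) < l) (hl2 : l ≤ P.N) (hU : a.U P l ≤ P.cap) :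
    |Φ (a.F P l) * a.δ l - Φ (b.F P l) * b.δ l| ≤
      lipc κ T ε * d * a.X P l + Lp * (gatec P J d κ T ε / P.fl) * a.Xs P l := by
  rw [show Φ (a.F P l) * a.δ l - Φ (b.F P l) * b.δ l =
    Φ (b.F P l) * (a.δ l - b.δ l) + (Φ (a.F P l) - Φ (b.F P l)) * a.δ l by ring]
  refine (abs_add_le _ _).trans (add_le_add ?_ ?_)
  · rw [abs_mul]
    exact (mul_le_of_le_one_left (abs_nonneg _) (h1 _)).trans
      (abs_dδ H (mem_Icc.2 ⟨by omega, hl2⟩))
  · rw [abs_mul, mul_assoc]
    have hF : |a.F P l - b.F P l| ≤ |a.V P l - b.V P l| / P.fl := by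
      rw [Line.F, Line.F, sub_sub_sub_cancel_right]
      exact log_max_lip P.hfl
    refine (mul_le_mul ((hL _ _).trans (mul_le_mul_of_nonneg_left hF hLp))
      (Line.abs_δ_le (P := P) H.oa (by omega)) (abs_nonneg _)
      (mul_nonneg hLp (div_nonneg (abs_nonneg _) P.hfl.le))).trans ?_
    have h2 := mul_le_mul_of_nonneg_right (r_mul_abs_dV H hl1 hl2 hU)
      (Line.X_nonneg (P := P) H.oa l)
    rw [mul_assoc]
    refine mul_le_mul_of_nonneg_left ?_ hLp
    rw [Line.Xs, div_mul_eq_mul_div, div_mul_eq_mul_div, div_le_div_iff_of_pos_right P.hfl]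
    linarith

/-- The sum of the sizes over the levels below the top of the gate. -/
lemma sum_below_cap {L : Line} {P : Scale} (ok : L.Ok P.N) {T : ℕ}
    (hT : ((Finset.Icc 1 P.N).filter fun l => L.g l ≠ 1 / 2).card ≤ T) (s : Finset ℕ)
    (hs : s ⊆ Finset.Icc 1 P.N) :
    ∑ l ∈ s.filter (fun l => L.U P l < P.cap), L.X P l ≤ 2 ^ T * P.cap ∧
      ∑ l ∈ s.filter (fun l => L.U P l < P.cap), L.Xs P l ≤ P.cap := by
  classical
  rcases (s.filter (fun l => L.U P l < P.cap)).eq_empty_or_nonempty with h | h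
  · rw [h, sum_empty, sum_empty]
    exact ⟨mul_nonneg (by positivity) P.cap_pos.le, P.cap_pos.le⟩
  set c := (s.filter (fun l => L.U P l < P.cap)).min' h with hc
  obtain ⟨-, hc2⟩ := mem_filter.1 (min'_mem _ h)
  have hsub : s.filter (fun l => L.U P l < P.cap) ⊆ Finset.Icc c P.N := fun l hl =>
    mem_Icc.2 ⟨min'_le _ l hl, (mem_Icc.1 (hs (mem_filter.1 hl).1)).2⟩
  exact ⟨(sum_le_sum_of_subset_of_nonneg hsub fun l _ _ => Line.X_nonneg ok l).trans
      ((Line.tail_le_pow_mul_U ok hT c).trans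
        (mul_le_mul_of_nonneg_left hc2.le (by positivity))),
    (sum_le_sum_of_subset_of_nonneg hsub fun l _ _ => Line.Xs_nonneg ok l).trans hc2.le⟩

/-- The low levels contribute little. -/
lemma low_le {L : Line} {P : Scale} (ok : L.Ok P.N) {Φ : ℝ → ℝ} (h1 : ∀ x, |Φ x| ≤ 1)
    (hΦ : ∀ x, P.h ≤ x → Φ x = 0) {T : ℕ}
    (hT : ((Finset.Icc 1 P.N).filter fun l => L.g l ≠ 1 / 2).card ≤ T) (J₂ : ℕ) :
    ∑ l ∈ (Finset.Icc 1 P.N).filter (fun l => l ≤ J₂), |Φ (L.F P l) * L.δ l| ≤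
      P.r (J₂ + 1) * (2 ^ T * P.cap) := by
  calc _ ≤ ∑ l ∈ (Finset.Icc 1 P.N).filter (fun l => l ≤ J₂), P.r l * (2 ^ T * P.cap) := by
        refine sum_le_sum fun l hl => ?_
        obtain ⟨h2, h3⟩ := mem_filter.1 hl
        obtain ⟨h4, h5⟩ := mem_Icc.1 h2
        by_cases h : Φ (L.F P l) = 0
        · rw [h, zero_mul, abs_zero]
          exact mul_nonneg (P.r_pos l).le (mul_nonneg (by positivity) P.cap_pos.le)
        · rw [abs_mul]
          refine (mul_le_of_le_one_left (abs_nonneg _) (h1 _)).trans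
            ((Line.abs_δ_le (P := P) ok h4).trans (mul_le_mul_of_nonneg_left ?_ (P.r_pos l).le))
          exact (le_tail (Line.X_nonneg ok) le_rfl h5).trans
            ((Line.tail_le_pow_mul_U ok hT l).trans
              (mul_le_mul_of_nonneg_left (U_lt_cap ok hΦ h).le (by positivity)))
    _ ≤ ∑ l ∈ Finset.Icc 1 J₂, P.r l * (2 ^ T * P.cap) := by
        refine sum_le_sum_of_subset_of_nonneg (fun l hl => ?_) fun l _ _ =>
          mul_nonneg (P.r_pos l).le (mul_nonneg (by positivity) P.cap_pos.le)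
        obtain ⟨h2, h3⟩ := mem_filter.1 hl
        exact mem_Icc.2 ⟨(mem_Icc.1 h2).1, h3⟩
    _ ≤ _ := by
        rw [← sum_mul]
        exact mul_le_mul_of_nonneg_right (Line.sum_r_le P J₂)
          (mul_nonneg (by positivity) P.cap_pos.le)

/-- The bound in terms of the constants of this file. -/
lemma part_le (H : Hyp P a b J d κ T ε) {Φ : ℝ → ℝ} {Lp : ℝ} (hLp : 0 ≤ Lp)
    (h1 : ∀ x, |Φ x| ≤ 1) (hL : ∀ x y, |Φ x - Φ y| ≤ Lp * |x - y|)
    (hΦ : ∀ x, P.h ≤ x → Φ x = 0) :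
    |a.part P Φ - b.part P Φ| ≤ 2 * (P.r (J + 2 * (T + 3) + 1) * (2 ^ T * P.cap)) +
      2 * (lipc κ T ε * d * (2 ^ T * P.cap) + Lp * (gatec P J d κ T ε / P.fl) * P.cap) := by
  classical
  set J₂ := J + 2 * (T + 3) with hJ₂
  set A := fun l => Φ (a.F P l) * a.δ l with hA
  set B := fun l => Φ (b.F P l) * b.δ l with hB
  rw [Line.part, Line.part, ← sum_sub_distrib,
    ← sum_filter_add_sum_filter_not (Finset.Icc 1 P.N) (fun l => l ≤ J₂)]
  refine (abs_add_le _ _).trans (add_le_add ?_ ?_)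
  · refine (abs_sum_le_sum_abs _ _).trans ?_
    calc _ ≤ ∑ l ∈ (Finset.Icc 1 P.N).filter (fun l => l ≤ J₂), (|A l| + |B l|) :=
          sum_le_sum fun l _ => abs_sub (A l) (B l)
      _ ≤ _ := by
          rw [sum_add_distrib, two_mul]
          exact add_le_add (low_le H.oa h1 hΦ H.ca J₂) (low_le H.ob h1 hΦ H.cb J₂)
  · set s := (Finset.Icc 1 P.N).filter (fun l => ¬ l ≤ J₂) with hs
    set c1 := lipc κ T ε * d with hc1
    set c2 := Lp * (gatec P J d κ T ε / P.fl) with hc2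
    have hc10 : 0 ≤ c1 := mul_nonneg (lipc_nonneg H) H.near.hd.le
    have hc20 : 0 ≤ c2 := by
      have := stepc_nonneg H
      have := lipc_nonneg H
      have := κ_pos H
      have := H.near.hd
      have := P.cap_pos
      have := P.hfl
      have := P.r_pos J₂
      simp only [hc2, gatec, memc, ← hJ₂]
      positivity
    set fa := fun l => if a.U P l < P.cap then c1 * a.X P l + c2 * a.Xs P l else 0 with hfa
    set fb := fun l => if b.U P l < P.cap then c1 * b.X P l + c2 * b.Xs P l else 0 with hfb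
    have hfa0 : ∀ l, 0 ≤ fa l := fun l => by
      simp only [hfa]; split_ifs
      · exact add_nonneg (mul_nonneg hc10 (Line.X_nonneg H.oa l))
          (mul_nonneg hc20 (Line.Xs_nonneg H.oa l))
      · exact le_rfl
    have hfb0 : ∀ l, 0 ≤ fb l := fun l => by
      simp only [hfb]; split_ifs
      · exact add_nonneg (mul_nonneg hc10 (Line.X_nonneg H.ob l))
          (mul_nonneg hc20 (Line.Xs_nonneg H.ob l))
      · exact le_rfl
    have hterm : ∀ l ∈ s, |A l - B l| ≤ fa l + fb l := by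
      intro l hl
      obtain ⟨h2, h3⟩ := mem_filter.1 hl
      obtain ⟨h4, h5⟩ := mem_Icc.1 h2
      push Not at h3
      by_cases ha : a.U P l < P.cap
      · have := term_le H hLp h1 hL h3 h5 ha.le
        have hb0 := hfb0 l
        simp only [hfa, if_pos ha, hA, hB]
        linarith
      by_cases hb : b.U P l < P.cap
      · have := term_le H.symm hLp h1 hL h3 h5 hb.le
        rw [abs_sub_comm] at this
        have ha0 := hfa0 l
        simp only [hfb, if_pos hb, hA, hB]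
        linarith
      have ea : Φ (a.F P l) = 0 := by
        by_contra h
        exact ha (U_lt_cap H.oa hΦ h)
      have eb : Φ (b.F P l) = 0 := by
        by_contra h
        exact hb (U_lt_cap H.ob hΦ h)
      simp only [hA, hB, ea, eb, zero_mul, sub_self, abs_zero]
      exact add_nonneg (hfa0 l) (hfb0 l)
    have hsub : s ⊆ Finset.Icc 1 P.N := filter_subset _ _
    have hsum : ∀ (z : Line), z.Ok P.N →
        ((Finset.Icc 1 P.N).filter fun l => z.g l ≠ 1 / 2).card ≤ T →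
        ∑ l ∈ s, (if z.U P l < P.cap then c1 * z.X P l + c2 * z.Xs P l else 0) ≤
          c1 * (2 ^ T * P.cap) + c2 * P.cap := by
      intro z oz cz
      obtain ⟨e1, e2⟩ := sum_below_cap oz cz s hsub
      rw [← sum_filter, sum_add_distrib, ← mul_sum, ← mul_sum]
      exact add_le_add (mul_le_mul_of_nonneg_left e1 hc10) (mul_le_mul_of_nonneg_left e2 hc20)
    refine (abs_sum_le_sum_abs _ _).trans ((sum_le_sum hterm).trans ?_)
    rw [sum_add_distrib, two_mul]
    exact add_le_add (hsum a H.oa H.ca) (hsum b H.ob H.cb)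

/-- The constants of this file are small multiples of one of them. -/
lemma consts_le (H : Hyp P a b J d κ T ε) :
    P.r (J + 2 * (T + 3) + 1) * (2 ^ T * P.cap) ≤
      16384 * (κ * ((T : ℝ) + 4) ^ 2 * 2 ^ (3 * T) / ε * d * P.cap) ∧
    lipc κ T ε * d * (2 ^ T * P.cap) ≤
      72 * (κ * ((T : ℝ) + 4) ^ 2 * 2 ^ (3 * T) / ε * d * P.cap) ∧
    gatec P J d κ T ε ≤
      10000 * (κ * ((T : ℝ) + 4) ^ 2 * 2 ^ (3 * T) / ε * d * P.cap) := by
  have hκ := κ_pos H
  have hd := H.near.hd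
  have hcap := P.cap_pos
  have hε := H.hε
  have hε1 := H.hε1
  set t : ℝ := 2 ^ T with ht
  have ht1 : 1 ≤ t := one_le_pow₀ one_le_two
  set n : ℝ := (T : ℝ) + 4 with hn
  have hn4 : 4 ≤ n := by simp [hn]
  have e3 : (2 : ℝ) ^ (3 * T) = t ^ 3 := by rw [ht, ← pow_mul, mul_comm]
  set G := κ * n ^ 2 * 2 ^ (3 * T) / ε * d * P.cap with hG
  set K := κ * d * P.cap / ε with hK
  have hK0 : 0 ≤ K := by positivity
  have eG : G = n ^ 2 * t ^ 3 * K := by rw [hG, hK, e3]; field_simp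
  have hκdc : κ * d * P.cap ≤ K := by
    rw [hK, le_div_iff₀ hε]
    exact mul_le_of_le_one_right (by positivity) hε1
  have n1 : t ^ 3 * K ≤ G := by
    rw [eG, mul_assoc]
    exact le_mul_of_one_le_left (by positivity) (one_le_pow₀ (by linarith))
  have n2 : n ^ 2 * t ^ 2 * K ≤ G := by
    rw [eG]
    gcongr
    linarith
  have n3 : n * t ^ 2 * K ≤ n ^ 2 * t ^ 2 * K := by
    gcongr
    exact le_self_pow₀ (by linarith) two_ne_zero
  have n4 : t * (κ * d * P.cap) ≤ t ^ 2 * K :=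
    mul_le_mul (le_self_pow₀ ht1 two_ne_zero) hκdc (by positivity) (by positivity)
  have n5 : t ^ 2 * K ≤ n * t ^ 2 * K := by
    rw [mul_assoc]
    exact le_mul_of_one_le_left (by positivity) (by linarith)
  have hlip : lipc κ T ε * d * (t * P.cap) ≤ 72 * (n * t ^ 2 * K) := by
    have e : lipc κ T ε * d * (t * P.cap) = 72 * (((T : ℝ) + 3) * t ^ 2 * K) := by
      rw [lipc, hK, pow_add, ← ht]; field_simp; ring
    rw [e]
    gcongr
    linarith
  have hr : P.r (J + 2 * (T + 3) + 1) ≤ 16384 * (t ^ 2 * (κ * d)) := by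
    rw [show J + 2 * (T + 3) + 1 = J + (2 * T + 7) by ring, P.r_add]
    refine (mul_le_mul_of_nonneg_left H.near.hrd (by positivity)).trans (le_of_eq ?_)
    rw [pow_add, mul_comm 2 T, pow_mul, ← ht]
    ring
  have hlow : P.r (J + 2 * (T + 3) + 1) * (t * P.cap) ≤ 16384 * G := by
    refine (mul_le_mul_of_nonneg_right hr (by positivity)).trans ?_
    refine le_trans (le_of_eq (by ring)) (mul_le_mul_of_nonneg_left
      ((mul_le_mul_of_nonneg_left hκdc (pow_nonneg (by linarith) 3)).trans n1)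
      (by norm_num : (0:ℝ) ≤ 16384))
  refine ⟨hlow, hlip.trans (by linarith), ?_⟩
  have he0 : P.r (J + 2 * (T + 3)) * (t * P.cap) ≤ 8192 * G := by
    rw [P.r_succ] at hlow
    linarith
  have hstep : stepc P d κ T ε ≤ 298 * (n * t ^ 2 * K) := by
    rw [stepc, ← ht]
    linarith
  have hmem : stepc P d κ T ε * ((T : ℝ) + 1) ≤ 298 * (n ^ 2 * t ^ 2 * K) := by
    refine (mul_le_mul hstep (show (T : ℝ) + 1 ≤ n by rw [hn]; linarith) (by positivity)
      (by positivity)).trans (le_of_eq ?_)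
    ring
  have hlipk : (2 * lipc κ T ε + 4 * κ) * d * (t * P.cap) ≤ 148 * (n ^ 2 * t ^ 2 * K) := by
    have h1 : (2 * lipc κ T ε + 4 * κ) * d * (t * P.cap) =
        2 * (lipc κ T ε * d * (t * P.cap)) + 4 * (t * (κ * d * P.cap)) := by ring
    rw [h1]
    linarith
  have hkd : 2 * (κ * d) * (t * P.cap) ≤ 2 * (n ^ 2 * t ^ 2 * K) := by
    have h1 : 2 * (κ * d) * (t * P.cap) = 2 * (t * (κ * d * P.cap)) := by ring
    rw [h1]
    linarith
  have hG0 : 0 ≤ G := by rw [eG]; positivity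
  rw [gatec, memc, ← ht]
  linarith

end AmplitudeAux

open AmplitudeAux in
/-- The part of a coordinate selected by a function vanishing at the top of the gate is
Lipschitz, with a constant exponential in the number of slow levels and in the height. -/
theorem exists_amplitude_const : ∃ (C : ℝ) (e1 e2 : ℕ),
    ∀ {P : Scale} {a b : Line} {J : ℕ} {d κ : ℝ} {η : ℕ → ℝ}, Near P a b J d κ η →
      a.Ok P.N → b.Ok P.N → ∀ (Φ : ℝ → ℝ) (Lp : ℝ), 0 ≤ Lp → (∀ x, |Φ x| ≤ 1) →
      (∀ x y, |Φ x - Φ y| ≤ Lp * |x - y|) → (∀ x, P.h ≤ x → Φ x = 0) →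
      ∀ T : ℕ, ((Finset.Icc 1 P.N).filter fun l => a.g l ≠ 1 / 2).card ≤ T →
      ((Finset.Icc 1 P.N).filter fun l => b.g l ≠ 1 / 2).card ≤ T →
      ∀ ε : ℝ, 0 < ε → ε ≤ 1 →
      (∀ u ∈ Finset.Icc (J + (T + 2)) P.N, ∀ i ∈ Finset.Icc (u - (T + 2)) u,
        ∀ j ∈ Finset.Icc (u - (T + 2)) u,
          |a.m i - a.m j| ≤ P.r u * a.E u / ε ∧ P.r j * a.A j ≤ P.r u * a.E u / ε) →
      (∀ u ∈ Finset.Icc (J + (T + 2)) P.N, ∀ i ∈ Finset.Icc (u - (T + 2)) u,
        ∀ j ∈ Finset.Icc (u - (T + 2)) u,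
          |b.m i - b.m j| ≤ P.r u * b.E u / ε ∧ P.r j * b.A j ≤ P.r u * b.E u / ε) →
      (∀ u ∈ Finset.Icc (J + (T + 2)) P.N,
        P.r u * |a.E u - b.E u| ≤ κ * 2 ^ (T + 2) * d * min (a.E u) (b.E u)) →
      |a.part P Φ - b.part P Φ| ≤
        C * κ ^ 4 * ((T : ℝ) + 4) ^ e1 * 2 ^ (e2 * T) * (1 + Lp) * Real.exp (2 * P.h) * P.fl * d /
          ε := by
  refine ⟨60000, 2, 3, ?_⟩
  intro P a b J d κ η N oa ob Φ Lp hLp h1 hL hΦ T ca cb ε hε hε1 wa wb dE
  have N' : Near P a b J d κ fun l => P.r l * |a.E l - b.E l| / d :=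
    { N with
      hη := fun l => div_nonneg (mul_nonneg (P.r_pos l).le (abs_nonneg _)) N.hd.le
      hE := fun l _ => le_of_eq (mul_div_cancel₀ _ N.hd.ne').symm }
  have H : Hyp P a b J d κ T ε := ⟨N', oa, ob, ca, cb, hε, hε1, wa, wb, dE⟩
  refine (part_le H hLp h1 hL hΦ).trans ?_
  obtain ⟨k1, k2, k3⟩ := consts_le H
  set G := κ * ((T : ℝ) + 4) ^ 2 * 2 ^ (3 * T) / ε * d * P.cap with hG
  have hG0 : 0 ≤ G := by
    have := N.hd
    have := P.cap_pos
    have : 0 < κ := one_pos.trans_le N.hκ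
    positivity
  set E := Real.exp P.h with hE
  have hE1 : 1 ≤ E := Real.one_le_exp P.hh.le
  have hgate : Lp * (gatec P J d κ T ε / P.fl) * P.cap ≤ Lp * (10000 * G) * E := by
    rw [Scale.cap, ← hE]
    refine le_trans (le_of_eq ?_)
      (mul_le_mul_of_nonneg_right (mul_le_mul_of_nonneg_left k3 hLp) (by linarith : 0 ≤ E))
    have := P.hfl.ne'
    field_simp
  have hfin : G * E * (1 + Lp) ≤
      κ ^ 4 * ((T : ℝ) + 4) ^ 2 * 2 ^ (3 * T) * (1 + Lp) * Real.exp (2 * P.h) * P.fl * d / ε := by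
    have hκ4 : κ ≤ κ ^ 4 := le_self_pow₀ N.hκ (by norm_num)
    have e : G * E * (1 + Lp) =
        κ * ((T : ℝ) + 4) ^ 2 * 2 ^ (3 * T) * (1 + Lp) * Real.exp (2 * P.h) * P.fl * d / ε := by
      rw [hG, Scale.cap, ← hE, two_mul P.h, Real.exp_add, ← hE]
      field_simp
    rw [e]
    have := N.hd.le
    have := P.hfl.le
    gcongr
  have hGE : G ≤ G * E := le_mul_of_one_le_right hG0 hE1
  have h5 : 0 ≤ Lp * (G * E) := mul_nonneg hLp (mul_nonneg hG0 (by linarith))
  have key : 60000 * (G * E * (1 + Lp)) ≤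
      60000 * κ ^ 4 * ((T : ℝ) + 4) ^ 2 * 2 ^ (3 * T) * (1 + Lp) * Real.exp (2 * P.h) * P.fl * d /
        ε :=
    (mul_le_mul_of_nonneg_left hfin (by norm_num)).trans_eq (by ring)
  linarith

end Vale.Agent.P249.Core
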