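import Vale.Agent.P249.Dim.Trunc

/-!
The statement of the decomposition into a sparse part and a light part.
-/

namespace Vale.Agent.P249.Core

open Finset
open Vale.Agent.P249.Dim (pw nm cnt)

/-- Every point set splits, up to `ε`, into a part with small coordinate sensitivities and a part
bounded by a small multiple of the local scale. -/
def SplitExists (p : ℝ) : Prop :=
  ∀ ε : ℝ, 0 < ε → ∀ γ : ℝ, 0 < γ → ∃ k0 : ℕ, ∀ {ι κ : Type} [Fintype ι] [Fintype κ]
    (x : ι → κ → ℝ), Function.Injective x → ∀ k M : ℕ, k0 ≤ k → Fintype.card ι < 2 ^ k →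
      2 ≤ M → M ≤ Fintype.card ι →
      ∃ (u y : ι → κ → ℝ) (ν : κ → ℝ) (G : ℝ), 1 ≤ G ∧ G ≤ (2:ℝ) ^ (γ * k) ∧
        (∀ i j, |pw p (u i - u j) + pw p (y i - y j) - pw p (x i - x j)| ≤
          ε * pw p (x i - x j)) ∧
        (∀ i j c, |u i c - u j c| ^ p ≤ G * ν c * pw p (x i - x j)) ∧
        (∀ c, 0 < ν c) ∧ ∑ c, ν c ≤ G * ((Fintype.card ι : ℝ) / M + 1) ∧
        ∀ i r, 0 ≤ r → M ≤ cnt p x i r → nm p (y i) ≤ G * r

end Vale.Agent.P249.Core
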