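import Vale.Agent.P249.Points
import Vale.Agent.P249.Sparse.Sensitivity
import Vale.Agent.P249.Core.SplitDef
import Vale.Agent.P249.Iso.LightSketch

/-!
From the decomposition to a low-dimensional embedding with distortion arbitrarily close to one.
-/

namespace Vale.Agent.P249.Core

open Finset Vale.Agent.P249.Dim Vale.Agent.P249.Sparse Vale.Agent.P249.Iso
open Vale.Agent.P249 (lpDist)

lemma rpow_sub_rpow_le {p a b : ℝ} (hp : 1 ≤ p) (hb : 0 ≤ b) (hba : b ≤ a) :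
    a ^ p - b ^ p ≤ p * a ^ (p - 1) * (a - b) := by
  rcases eq_or_lt_of_le (hb.trans hba) with h | h
  · have : b = 0 := le_antisymm (h ▸ hba) hb
    rw [this, ← h]; simp
  have h1 := one_add_mul_self_le_rpow_one_add (s := b / a - 1)
    (by have := div_nonneg hb h.le; linarith) hp
  rw [add_sub_cancel, Real.div_rpow hb h.le, le_div_iff₀ (Real.rpow_pos_of_pos h p)] at h1
  have h2 : a ^ p = a ^ (p - 1) * a := by
    rw [← Real.rpow_add_one h.ne']; ring_nf
  have h3 : (1 + p * (b / a - 1)) * a ^ p = a ^ p - p * a ^ (p - 1) * (a - b) := by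
    rw [h2]; field_simp; ring
  linarith

/-- Close norms have close powers. -/
lemma pw_close {κ κ' : Type*} [Fintype κ] [Fintype κ'] {p δ d : ℝ} (hp : 1 ≤ p)
    (hδ : δ ≤ 1) (hd : 0 ≤ d) (u : κ → ℝ) (w : κ' → ℝ) (hw : nm p w ≤ 2 * d)
    (h : |nm p u - nm p w| ≤ δ * d) : |pw p u - pw p w| ≤ p * 3 ^ p * δ * d ^ p := by
  have hp0 : 0 < p := by linarith
  have hu0 : 0 ≤ nm p u := nm_nonneg _
  have hw0 : 0 ≤ nm p w := nm_nonneg _
  have key : ∀ a b : ℝ, 0 ≤ b → b ≤ a → a ≤ 3 * d → a - b ≤ δ * d →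
      a ^ p - b ^ p ≤ p * 3 ^ p * δ * d ^ p := by
    intro a b hb hba ha hab
    refine (rpow_sub_rpow_le hp hb hba).trans ?_
    have h1 : a ^ (p - 1) ≤ (3 * d) ^ (p - 1) :=
      Real.rpow_le_rpow (hb.trans hba) ha (by linarith)
    refine (mul_le_mul (mul_le_mul_of_nonneg_left h1 hp0.le) hab (by linarith)
      (by positivity)).trans ?_
    rw [Real.mul_rpow (by norm_num) hd]
    rcases eq_or_lt_of_le hd with h | h
    · rw [← h]; simp [Real.zero_rpow hp0.ne']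
    have h2 : (3:ℝ) ^ (p - 1) ≤ 3 ^ p :=
      Real.rpow_le_rpow_of_exponent_le (by norm_num) (by linarith)
    have hδ0 : 0 ≤ δ := by nlinarith
    have e : d ^ (p - 1) * d = d ^ p := by rw [← Real.rpow_add_one h.ne']; ring_nf
    calc p * (3 ^ (p - 1) * d ^ (p - 1)) * (δ * d) = p * 3 ^ (p - 1) * δ * (d ^ (p - 1) * d) := by
          ring
      _ ≤ _ := by
          rw [e]
          exact mul_le_mul_of_nonneg_right (mul_le_mul_of_nonneg_right
            (mul_le_mul_of_nonneg_left h2 hp0.le) hδ0) (by positivity)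
  have hdd : δ * d ≤ 1 * d := mul_le_mul_of_nonneg_right hδ hd
  rw [← nm_rpow hp0 u, ← nm_rpow hp0 w]
  rw [abs_le] at h
  rcases le_total (nm p w) (nm p u) with h' | h'
  · rw [abs_of_nonneg (sub_nonneg.2 (Real.rpow_le_rpow hw0 h' hp0.le))]
    exact key _ _ hw0 h' (by linarith) (by linarith)
  · rw [abs_sub_comm, abs_of_nonneg (sub_nonneg.2 (Real.rpow_le_rpow hu0 h' hp0.le))]
    exact key _ _ hu0 h' (by linarith) (by linarith)

lemma distortion_of_pw {n m d : ℕ} {p t D : ℝ} (hp : 1 ≤ p) (hD : 1 < D) (ht : t < 1)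
    (htD : 1 + t ≤ D * (1 - t)) (X : Fin n → Fin m → ℝ) (f : Fin n → Fin d → ℝ)
    (h : ∀ i i', (1 - t) * pw p (X i - X i') ≤ pw p (f i - f i') ∧
      pw p (f i - f i') ≤ (1 + t) * pw p (X i - X i')) :
    ∃ s : ℝ, 0 < s ∧ ∀ i i', s * lpDist p (X i) (X i') ≤ lpDist p (f i) (f i') ∧
      lpDist p (f i) (f i') ≤ D * s * lpDist p (X i) (X i') := by
  have hp0 : 0 < p := by linarith
  refine ⟨(1 - t) ^ (1 / p), Real.rpow_pos_of_pos (by linarith) _, fun i i' => ?_⟩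
  obtain ⟨hlo, hhi⟩ := h i i'
  have hdist : lpDist p (X i) (X i') = nm p (X i - X i') := rfl
  have hF : lpDist p (f i) (f i') = nm p (f i - f i') := rfl
  have h0 := nm_nonneg (p := p) (X i - X i')
  have hs0 : 0 ≤ (1 - t) ^ (1 / p) := Real.rpow_nonneg (by linarith) _
  have hse : ((1 - t) ^ (1 / p)) ^ p = 1 - t := by
    rw [← Real.rpow_mul (by linarith), one_div, inv_mul_cancel₀ hp0.ne', Real.rpow_one]
  rw [hdist, hF]
  have hD0 : 0 ≤ D := by linarith
  refine ⟨le_nm hp0 (mul_nonneg hs0 h0) ?_, nm_le hp0 (by positivity) (hhi.trans ?_)⟩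
  · rw [Real.mul_rpow hs0 h0, hse, nm_rpow hp0]
    exact hlo
  · rw [Real.mul_rpow (by positivity) h0, Real.mul_rpow hD0 hs0, hse, nm_rpow hp0]
    refine mul_le_mul_of_nonneg_right ?_ (pw_nonneg _)
    have h1 : D ≤ D ^ p := Real.self_le_rpow_of_one_le hD.le hp
    nlinarith

/-- Boundedly many points need boundedly many coordinates. -/
lemma small_case {p t : ℝ} (hp : 1 ≤ p) (ht : 0 < t) (ht1 : t ≤ 1) (N0 : ℕ) :
    ∃ Cd : ℝ, 0 ≤ Cd ∧ ∀ (n m : ℕ) (X : Fin n → Fin m → ℝ), Function.Injective X → 2 ≤ n →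
      n ≤ N0 → ∃ (d : ℕ) (f : Fin n → Fin d → ℝ), (d : ℝ) ≤ Cd ∧
        ∀ i i', (1 - t) * pw p (X i - X i') ≤ pw p (f i - f i') ∧
          pw p (f i - f i') ≤ (1 + t) * pw p (X i - X i') := by
  have hp0 : 0 < p := by linarith
  set K : ℝ := (2 * ((N0:ℝ) + 1)) ^ p with hK
  set S0 : ℝ := (N0 * (2 * N0) * (N0 + 1) : ℕ) + 1 with hS0
  refine ⟨12 * (N0:ℝ) * (K * S0) / t ^ 2 + 1, by positivity, fun n m X hX hn hnN => ?_⟩
  have hnk : Fintype.card (Fin n) < 2 ^ N0 := by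
    rw [Fintype.card_fin]; exact lt_of_le_of_lt hnN (Nat.lt_two_pow_self)
  have hm : 0 < m := by
    rcases Nat.eq_zero_or_pos m with rfl | h
    · have := hX (a₁ := (⟨0, by omega⟩ : Fin n)) (a₂ := ⟨1, by omega⟩) (funext fun i => i.elim0)
      simp at this
    · exact h
  obtain ⟨μ, hμ0, hμsum, hpair⟩ := exists_sensitivity hp X (show 1 ≤ N0 by omega) hnk
  rw [Fintype.card_fin] at hμsum
  have hm' : (0:ℝ) < m := by exact_mod_cast hm
  set ν : Fin m → ℝ := fun c => μ c + 1 / m with hν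
  have hν0 : ∀ c, 0 < ν c := fun c => add_pos_of_nonneg_of_pos (hμ0 c) (by positivity)
  set S := ∑ c, ν c with hS
  have hS2 : S ≤ S0 := by
    have h1 : ((n * (2 * N0) * (N0 + 1) : ℕ) : ℝ) ≤ (N0 * (2 * N0) * (N0 + 1) : ℕ) :=
      Nat.cast_le.2 (Nat.mul_le_mul_right _ (Nat.mul_le_mul_right _ hnN))
    rw [hS, hν, sum_add_distrib, sum_const, card_univ, Fintype.card_fin, nsmul_eq_mul, hS0,
      mul_one_div_cancel hm'.ne']
    linarith
  have hS0' : 0 < S := sum_pos (fun c _ => hν0 c) ⟨⟨0, hm⟩, mem_univ _⟩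
  have hN0 : (0:ℝ) < N0 := by exact_mod_cast (show 0 < N0 by omega)
  have hK0 : 0 < K := Real.rpow_pos_of_pos (by positivity) p
  obtain ⟨d, hd⟩ : ∃ d, d = ⌈12 * (N0:ℝ) * (K * S) / t ^ 2⌉₊ := ⟨_, rfl⟩
  have hd1 : 12 * (N0:ℝ) * (K * S) / t ^ 2 ≤ d := hd ▸ Nat.le_ceil _
  have hd2 : (d:ℝ) < 12 * (N0:ℝ) * (K * S) / t ^ 2 + 1 := hd ▸ Nat.ceil_lt_add_one (by positivity)
  obtain ⟨c, a, hca⟩ := exists_coord_sample hp0 X hX ν hν0 hK0
    (fun x y c => (hpair x y c).trans (mul_le_mul_of_nonneg_right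
      (mul_le_mul_of_nonneg_left (le_add_of_nonneg_right (by positivity)) hK0.le) (pw_nonneg _)))
    ht ht1 hS.symm hS0' (d := d) (hd ▸ Nat.ceil_pos.2 (by positivity)) hnk
    (by rwa [← div_le_iff₀ (by positivity)])
  refine ⟨d, fun i j => a j * X i (c j), hd2.le.trans ?_, hca⟩
  gcongr

/-- The two parts side by side, sampled coordinatewise. -/
lemma glue {n m N k : ℕ} {p t G : ℝ} (hp : 1 ≤ p) (ht : 0 < t) (ht1 : t ≤ 1 / 2) (hn : 2 ≤ n)
    (hk : Fintype.card (Fin n) < 2 ^ k) (hk1 : 1 ≤ k) (hG : 1 ≤ G) (X : Fin n → Fin m → ℝ)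
    (hX : Function.Injective X)
    (u y : Fin n → Fin m → ℝ) (ν : Fin m → ℝ) (Φ : Fin n → Fin N → ℝ)
    (hsplit : ∀ i j, |pw p (u i - u j) + pw p (y i - y j) - pw p (X i - X j)| ≤
      t / 8 * pw p (X i - X j))
    (hu : ∀ i j c, |u i c - u j c| ^ p ≤ G * ν c * pw p (X i - X j))
    (hν : ∀ c, 0 < ν c)
    (hΦ : ∀ i j, |pw p (Φ i - Φ j) - pw p (y i - y j)| ≤ t / 8 * pw p (X i - X j)) :
    ∃ (d : ℕ) (f : Fin n → Fin d → ℝ),
      (d : ℝ) ≤ 12 * k * (2 * G * (∑ c, ν c + N)) / (t / 4) ^ 2 + 1 ∧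
      ∀ i i', (1 - t) * pw p (X i - X i') ≤ pw p (f i - f i') ∧
        pw p (f i - f i') ≤ (1 + t) * pw p (X i - X i') := by
  have hp0 : 0 < p := by linarith
  set z : Fin n → Fin m ⊕ Fin N → ℝ := fun i => Sum.elim (u i) (Φ i) with hz
  have hzs : ∀ i j, pw p (z i - z j) = pw p (u i - u j) + pw p (Φ i - Φ j) := fun i j => by
    rw [pw, Fintype.sum_sum_type]; rfl
  have hclose : ∀ i j, |pw p (z i - z j) - pw p (X i - X j)| ≤ t / 4 * pw p (X i - X j) := by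
    intro i j
    have h1 := abs_le.1 (hsplit i j)
    have h2 := abs_le.1 (hΦ i j)
    rw [hzs, abs_le]
    constructor <;> linarith
  have hhalf : ∀ i j, pw p (X i - X j) ≤ 2 * pw p (z i - z j) := fun i j => by
    have := (abs_le.1 (hclose i j)).1
    have := pw_nonneg (p := p) (X i - X j)
    nlinarith
  have hzinj : Function.Injective z := by
    intro i j hij
    by_contra hne
    have h1 := hhalf i j
    rw [hij, sub_self, show pw p (0 : Fin m ⊕ Fin N → ℝ) = 0 by simp [pw, Real.zero_rpow hp0.ne'],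
      mul_zero] at h1
    refine hne (hX (funext fun c => ?_))
    have h2 := (sum_eq_zero_iff_of_nonneg fun c _ => Real.rpow_nonneg (abs_nonneg _) p).1
      (le_antisymm h1 (pw_nonneg _)) c (mem_univ c)
    rwa [Real.rpow_eq_zero (abs_nonneg _) hp0.ne', abs_eq_zero, Pi.sub_apply, sub_eq_zero] at h2
  set w : Fin m ⊕ Fin N → ℝ := Sum.elim ν fun _ => 1 with hw
  have hw0 : ∀ c, 0 < w c := by rintro (c | c) <;> simp [hw, hν]
  have hpair : ∀ i j c, |z i c - z j c| ^ p ≤ 2 * G * w c * pw p (z i - z j) := by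
    rintro i j (c | c)
    · refine (hu i j c).trans ?_
      have := mul_le_mul_of_nonneg_left (hhalf i j) (mul_nonneg (by linarith : 0 ≤ G) (hν c).le)
      simp only [hw, Sum.elim_inl]
      linarith
    · simp only [hw, Sum.elim_inr, hz, mul_one]
      refine le_trans ?_ (le_mul_of_one_le_left (pw_nonneg _) (by linarith : 1 ≤ 2 * G))
      exact single_le_sum (f := fun q => |(z i - z j) q| ^ p)
        (fun q _ => Real.rpow_nonneg (abs_nonneg _) p) (mem_univ (Sum.inr c : Fin m ⊕ Fin N))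
  have hne : (univ : Finset (Fin m ⊕ Fin N)).Nonempty := by
    by_contra h
    rw [not_nonempty_iff_eq_empty, univ_eq_empty_iff] at h
    have := hzinj (a₁ := (⟨0, by omega⟩ : Fin n)) (a₂ := ⟨1, by omega⟩) (funext fun c => isEmptyElim c)
    simp at this
  have hS : ∑ c, w c = ∑ c, ν c + N := by simp [hw, Fintype.sum_sum_type]
  have hS0 : 0 < ∑ c, ν c + (N:ℝ) := hS ▸ sum_pos (fun c _ => hw0 c) hne
  have hk0 : (0:ℝ) < k := by exact_mod_cast hk1
  obtain ⟨d, hd⟩ : ∃ d, d = ⌈12 * (k:ℝ) * (2 * G * (∑ c, ν c + N)) / (t / 4) ^ 2⌉₊ := ⟨_, rfl⟩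
  have hd1 : 12 * (k:ℝ) * (2 * G * (∑ c, ν c + N)) / (t / 4) ^ 2 ≤ d := hd ▸ Nat.le_ceil _
  obtain ⟨c, a, hca⟩ := exists_coord_sample hp0 z hzinj w hw0 (by positivity : 0 < 2 * G) hpair
    (by positivity : 0 < t / 4) (by linarith) hS hS0 (d := d)
    (hd ▸ Nat.ceil_pos.2 (by positivity)) hk (by rwa [← div_le_iff₀ (by positivity)])
  refine ⟨d, fun i j => a j * z i (c j), (hd ▸ Nat.ceil_lt_add_one (by positivity) :).le,
    fun i i' => ?_⟩
  obtain ⟨h1, h2⟩ := hca i i'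
  have h3 := abs_le.1 (hclose i i')
  have h0 := pw_nonneg (p := p) (X i - X i')
  constructor
  · refine le_trans ?_ h1
    refine le_trans ?_ (mul_le_mul_of_nonneg_left
      (show (1 - t / 4) * pw p (X i - X i') ≤ _ by linarith [h3.1]) (by linarith))
    have := mul_nonneg (sq_nonneg (t / 4)) h0
    nlinarith
  · refine h2.trans ?_
    refine (mul_le_mul_of_nonneg_left
      (show _ ≤ (1 + t / 4) * pw p (X i - X i') by linarith [h3.2]) (by linarith)).trans ?_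
    have h4 : (t / 4) ^ 2 ≤ t / 2 := by nlinarith
    have := mul_le_mul_of_nonneg_right h4 h0
    linarith

lemma bits_le {a : ℝ} (ha : 0 < a) {n : ℕ} (hn : 1 ≤ n) :
    ((Nat.log 2 n + 1 : ℕ) : ℝ) ≤ (1 + 2 / a) * (n:ℝ) ^ a := by
  have hn' : (1:ℝ) ≤ n := by exact_mod_cast hn
  have h1 : (1:ℝ) ≤ (n:ℝ) ^ a := Real.one_le_rpow hn' ha.le
  have h2 : Real.log n ≤ (n:ℝ) ^ a / a := Real.log_le_rpow_div (by linarith) ha
  have h3 : (Nat.log 2 n : ℝ) * Real.log 2 ≤ Real.log n := by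
    rw [← Real.log_pow]
    exact Real.log_le_log (by positivity)
      (by exact_mod_cast Nat.pow_log_le_self 2 (show n ≠ 0 by omega))
  have h4 : (Nat.log 2 n : ℝ) ≤ 2 * ((n:ℝ) ^ a / a) := by
    nlinarith [Real.log_two_gt_d9, Nat.cast_nonneg (α := ℝ) (Nat.log 2 n)]
  push_cast
  rw [add_mul, one_mul, show 2 / a * (n:ℝ) ^ a = 2 * ((n:ℝ) ^ a / a) by ring]
  linarith

lemma dim_exponent {nn G G' k N S C0 Ca T g γ a σ : ℝ} {E : ℕ} (hn : 1 ≤ nn)
    (hC0 : 0 ≤ C0) (hCa : 1 ≤ Ca) (hT : 0 ≤ T) (hk : 1 ≤ k) (hk' : k ≤ Ca * nn ^ a)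
    (hG1 : 1 ≤ G) (hG : G ≤ 2 * nn ^ γ) (hG' : 1 ≤ G') (hG'le : G' ≤ 2 * nn ^ g)
    (hN : N ≤ C0 * (k * G') ^ E) (hS : S ≤ G * (2 * nn ^ (1 - g)) + N)
    (hE : (a + g) * E ≤ 1 - g + γ) (hexp : a + γ + (1 - g + γ) ≤ 1 - σ) (hσ : σ ≤ 1) :
    T * k * (2 * G * S) + 1 ≤ (T * Ca * 4 * (4 + C0 * (Ca * 2) ^ E) + 1) * nn ^ (1 - σ) := by
  have hn0 : 0 < nn := by linarith
  set P := nn ^ (1 - g + γ) with hP
  have hP0 : 0 ≤ P := by positivity
  have h1 : (k * G') ^ E ≤ (Ca * 2) ^ E * P := by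
    calc (k * G') ^ E ≤ (Ca * nn ^ a * (2 * nn ^ g)) ^ E :=
          pow_le_pow_left₀ (by positivity) (mul_le_mul hk' hG'le (by linarith) (by positivity)) E
      _ = (Ca * 2) ^ E * nn ^ ((a + g) * E) := by
          rw [Real.rpow_mul_natCast hn0.le, Real.rpow_add hn0, ← mul_pow]; ring
      _ ≤ _ := mul_le_mul_of_nonneg_left (Real.rpow_le_rpow_of_exponent_le hn hE) (by positivity)
  have h2 : G * (2 * nn ^ (1 - g)) ≤ 4 * P := by
    calc G * (2 * nn ^ (1 - g)) ≤ 2 * nn ^ γ * (2 * nn ^ (1 - g)) :=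
          mul_le_mul_of_nonneg_right hG (by positivity)
      _ = 4 * P := by rw [hP, Real.rpow_add hn0]; ring
  have h3 : S ≤ (4 + C0 * (Ca * 2) ^ E) * P := by
    have := mul_le_mul_of_nonneg_left h1 hC0
    linarith
  have h4 : k * (2 * G * S) ≤ Ca * 4 * (4 + C0 * (Ca * 2) ^ E) * nn ^ (1 - σ) := by
    calc k * (2 * G * S) ≤ k * (2 * G * ((4 + C0 * (Ca * 2) ^ E) * P)) :=
          mul_le_mul_of_nonneg_left (mul_le_mul_of_nonneg_left h3 (by linarith)) (by linarith)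
      _ ≤ Ca * nn ^ a * (2 * (2 * nn ^ γ) * ((4 + C0 * (Ca * 2) ^ E) * P)) := by
          refine mul_le_mul hk' (mul_le_mul_of_nonneg_right ?_ (by positivity)) (by positivity)
            (by positivity)
          linarith
      _ = Ca * 4 * (4 + C0 * (Ca * 2) ^ E) * nn ^ (a + γ + (1 - g + γ)) := by
          rw [hP, Real.rpow_add hn0 (a + γ), Real.rpow_add hn0 a γ, Real.rpow_add hn0 (1 - g) γ]; ring
      _ ≤ _ := mul_le_mul_of_nonneg_left (Real.rpow_le_rpow_of_exponent_le hn hexp) (by positivity)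
  have h5 : 1 ≤ nn ^ (1 - σ) := Real.one_le_rpow hn (by linarith)
  have h6 := mul_le_mul_of_nonneg_left h4 hT
  linarith

/-- The decomposition gives embeddings into `n ^ (1 - σ)` dimensions at every distortion above
one. -/
theorem embedding_of_split {p : ℝ} (hp : 1 < p) (hS : SplitExists p) {D : ℝ} (hD : 1 < D) :
    ∃ σ C : ℝ, 0 < σ ∧ ∀ (n m : ℕ) (X : Fin n → Fin m → ℝ), Function.Injective X →
      ∃ (d : ℕ) (f : Fin n → Fin d → ℝ) (s : ℝ), 0 < s ∧ (d : ℝ) ≤ C * (n:ℝ) ^ (1 - σ) ∧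
        ∀ i i', s * lpDist p (X i) (X i') ≤ lpDist p (f i) (f i') ∧
          lpDist p (f i) (f i') ≤ D * s * lpDist p (X i) (X i') := by
  have hp1 : 1 ≤ p := hp.le
  have hp0 : 0 < p := by linarith
  set t := min ((D - 1) / (D + 1)) (1 / 2) with ht
  have ht0 : 0 < t := lt_min (div_pos (by linarith) (by linarith)) (by norm_num)
  have ht1 : t ≤ 1 / 2 := min_le_right _ _
  have htD : 1 + t ≤ D * (1 - t) := by
    have := min_le_left ((D - 1) / (D + 1)) (1 / 2)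
    rw [← ht, le_div_iff₀ (by linarith)] at this
    linarith
  set δ := t / (8 * (p * 3 ^ p)) with hδ
  have hδ0 : 0 < δ := by positivity
  have h3p : 1 ≤ p * 3 ^ p :=
    one_le_mul_of_one_le_of_one_le hp1 (Real.one_le_rpow (by norm_num) hp0.le)
  have hδ1 : δ ≤ 1 := by
    rw [hδ, div_le_one (by positivity)]; linarith
  obtain ⟨C0, E, hC0, hsk⟩ := exists_light_sketch hp1 hδ0
  set g : ℝ := 1 / (8 * (E + 1)) with hg
  have hg0 : 0 < g := by positivity
  have hgE : g * E ≤ 1 / 8 := by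
    rw [hg, div_mul_eq_mul_div, div_le_iff₀ (by positivity)]; linarith
  have hg8 : g ≤ 1 / 8 := by
    rw [hg]
    exact div_le_div_of_nonneg_left zero_le_one (by norm_num)
      (by linarith [Nat.cast_nonneg (α := ℝ) E])
  obtain ⟨k0, hk0⟩ := hS (t / 8) (by positivity) (g / 4) (by positivity)
  set N0 := 2 ^ k0 + 5 with hN0
  obtain ⟨Cd, hCd, hsmall⟩ := small_case hp1 ht0 (by linarith : t ≤ 1) N0
  set Ca : ℝ := 1 + 2 / (g / 4) with hCa
  set C1 : ℝ := 12 / (t / 4) ^ 2 * Ca * 4 * (4 + C0 * (Ca * 2) ^ E) + 1 with hC1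
  refine ⟨g / 4, Cd + C1, by positivity, fun n m X hX => ?_⟩
  have hC10 : 0 ≤ C1 := by positivity
  rcases Nat.lt_or_ge n 2 with hn | hn
  · have : Subsingleton (Fin n) := Fin.subsingleton_iff_le_one.2 (by omega)
    refine ⟨0, fun _ => Fin.elim0, 1, one_pos, by push_cast; positivity, fun i i' => ?_⟩
    obtain rfl := Subsingleton.elim i i'
    simp [lpDist, Real.zero_rpow hp0.ne', Real.zero_rpow (inv_ne_zero hp0.ne')]
  have hn1 : (1:ℝ) ≤ n := by exact_mod_cast (by omega : 1 ≤ n)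
  have hn0 : (0:ℝ) < n := by linarith
  suffices h : ∃ (d : ℕ) (f : Fin n → Fin d → ℝ), (d:ℝ) ≤ (Cd + C1) * (n:ℝ) ^ (1 - g / 4) ∧
      ∀ i i', (1 - t) * pw p (X i - X i') ≤ pw p (f i - f i') ∧
        pw p (f i - f i') ≤ (1 + t) * pw p (X i - X i') by
    obtain ⟨d, f, hd, hf⟩ := h
    obtain ⟨s, hs, hs'⟩ := distortion_of_pw hp1 hD (by linarith) htD X f hf
    exact ⟨d, f, s, hs, hd, hs'⟩
  have hpow : 1 ≤ (n:ℝ) ^ (1 - g / 4) := Real.one_le_rpow hn1 (by linarith)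
  rcases le_or_gt n N0 with hnN | hnN
  · obtain ⟨d, f, hd, hf⟩ := hsmall n m X hX hn hnN
    refine ⟨d, f, hd.trans ?_, hf⟩
    nlinarith [mul_le_mul_of_nonneg_left hpow (by linarith : 0 ≤ Cd + C1)]
  set k := Nat.log 2 n + 1 with hk
  have hnk : Fintype.card (Fin n) < 2 ^ k := by
    rw [Fintype.card_fin]; exact Nat.lt_pow_succ_log_self one_lt_two n
  have hk0k : k0 ≤ k := (Nat.le_log_of_pow_le one_lt_two (by omega)).trans (Nat.le_succ _)
  set M := ⌈(n:ℝ) ^ g⌉₊ with hM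
  have hng1 : 1 < (n:ℝ) ^ g :=
    Real.one_lt_rpow (by exact_mod_cast (by omega : 1 < n)) hg0
  have hM2 : 2 ≤ M := by
    have := Nat.le_ceil ((n:ℝ) ^ g)
    rw [← hM] at this
    have : (1:ℝ) < M := by linarith
    exact_mod_cast this
  have hMle : (M:ℝ) ≤ 2 * (n:ℝ) ^ g := by
    have := Nat.ceil_lt_add_one (show 0 ≤ (n:ℝ) ^ g by positivity)
    rw [← hM] at this
    linarith
  have hroot : 2 * (n:ℝ) ^ g < n := by
    have h5 : (5:ℝ) ≤ n := by
      have h6 : 1 ≤ 2 ^ k0 := Nat.one_le_two_pow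
      exact_mod_cast (show 5 ≤ n by omega)
    have h1 : (n:ℝ) ^ g ≤ (n:ℝ) ^ (1 / 2 : ℝ) :=
      Real.rpow_le_rpow_of_exponent_le hn1 (by linarith)
    rw [← Real.sqrt_eq_rpow] at h1
    nlinarith [Real.sq_sqrt hn0.le, Real.sqrt_nonneg (n:ℝ)]
  have hMn : M ≤ n := by exact_mod_cast (show (M:ℝ) ≤ n by linarith)
  obtain ⟨u, y, ν, G, hG1, hG, hsplit, hu, hν, hνsum, hlight⟩ :=
    hk0 X hX k M hk0k hnk hM2 (by rwa [Fintype.card_fin])
  rw [Fintype.card_fin] at hνsum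
  have hGn : G ≤ 2 * (n:ℝ) ^ (g / 4) := by
    refine hG.trans ?_
    rw [mul_comm (g / 4), Real.rpow_natCast_mul (by norm_num)]
    have h1 : (2:ℝ) ^ k ≤ 2 * n := by
      have := Nat.pow_log_le_self 2 (show n ≠ 0 by omega)
      rw [hk, pow_succ, mul_comm]
      exact mul_le_mul_of_nonneg_left (by exact_mod_cast this) zero_le_two
    refine (Real.rpow_le_rpow (by positivity) h1 (by positivity)).trans ?_
    rw [Real.mul_rpow zero_le_two hn0.le]
    refine mul_le_mul_of_nonneg_right ?_ (by positivity)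
    simpa using Real.rpow_le_rpow_of_exponent_le one_le_two (show g / 4 ≤ 1 by linarith)
  set G' := max G M with hG'
  have hG'2 : 2 ≤ G' := le_trans (by exact_mod_cast hM2) (le_max_right _ _)
  have hG'le : G' ≤ 2 * (n:ℝ) ^ g := max_le (hGn.trans (mul_le_mul_of_nonneg_left
    (Real.rpow_le_rpow_of_exponent_le hn1 (by linarith)) zero_le_two)) hMle
  have hyL : ∀ a b, nm p (y a - y b) ≤ 2 * nm p (X a - X b) := by
    intro a b
    refine nm_le hp0 (mul_nonneg zero_le_two (nm_nonneg _)) ?_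
    rw [Real.mul_rpow zero_le_two (nm_nonneg _), nm_rpow hp0]
    have h1 := (abs_le.1 (hsplit a b)).2
    have h2 := pw_nonneg (p := p) (u a - u b)
    have h3 := pw_nonneg (p := p) (X a - X b)
    have h4 : 1 + t / 8 ≤ (2:ℝ) ^ p := by
      have : (2:ℝ) ≤ 2 ^ p := by simpa using Real.rpow_le_rpow_of_exponent_le one_le_two hp1
      linarith
    have := mul_le_mul_of_nonneg_right h4 h3
    linarith
  have hex : ∀ a, ∃ r, 0 ≤ r ∧ G' < (cnt p X a r : ℝ) := by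
    intro a
    refine ⟨∑ b, nm p (X a - X b), sum_nonneg fun b _ => nm_nonneg _, ?_⟩
    have : cnt p X a (∑ b, nm p (X a - X b)) = n := by
      rw [cnt, filter_true_of_mem, card_univ, Fintype.card_fin]
      exact fun b _ => single_le_sum (f := fun b => nm p (X a - X b)) (fun b _ => nm_nonneg _)
        (mem_univ b)
    rw [this]
    exact lt_of_le_of_lt hG'le hroot
  obtain ⟨N, Φ, hN, hΦ⟩ := hsk X y k G' hX (by omega) hnk hG'2 hyL
    (fun a r hr h => (hlight a r hr (Nat.cast_le.1 ((le_max_right G _).trans h.le))).trans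
      (mul_le_mul_of_nonneg_right (le_max_left _ _) hr)) hex
  obtain ⟨d, f, hd, hf⟩ := glue hp1 ht0 ht1 hn hnk (by omega) hG1 X hX u y ν Φ hsplit hu hν
    fun i j => by
      refine (pw_close hp1 hδ1 (nm_nonneg _) _ _ (hyL i j) (hΦ i j)).trans (le_of_eq ?_)
      rw [nm_rpow hp0, hδ]
      field_simp
  refine ⟨d, f, hd.trans ?_, hf⟩
  have hS2 : ∑ c, ν c + (N:ℝ) ≤ G * (2 * (n:ℝ) ^ (1 - g)) + N := by
    have h1 : (n:ℝ) / M ≤ (n:ℝ) ^ (1 - g) := by
      rw [Real.rpow_sub hn0, Real.rpow_one]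
      exact div_le_div_of_nonneg_left hn0.le (by positivity) (Nat.le_ceil _)
    have h2 : 1 ≤ (n:ℝ) ^ (1 - g) := Real.one_le_rpow hn1 (by linarith)
    have := mul_le_mul_of_nonneg_left
      (show (n:ℝ) / M + 1 ≤ 2 * (n:ℝ) ^ (1 - g) by linarith) (by linarith : 0 ≤ G)
    linarith
  have hmain := dim_exponent (nn := (n:ℝ)) (k := (k:ℝ)) (G := G) (G' := G') (N := (N:ℝ))
    (S := ∑ c, ν c + (N:ℝ)) (T := 12 / (t / 4) ^ 2) (g := g) (γ := g / 4) (a := g / 4)
    (σ := g / 4) (E := E) (Ca := Ca) hn1 hC0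
    (by rw [hCa]; linarith [show 0 ≤ 2 / (g / 4) by positivity]) (by positivity)
    (by exact_mod_cast (show 1 ≤ k by omega)) (bits_le (by positivity) (by omega))
    hG1 hGn (by linarith) hG'le hN hS2 (by linarith) (by linarith) (by linarith)
  rw [← hC1] at hmain
  have hC : C1 * (n:ℝ) ^ (1 - g / 4) ≤ (Cd + C1) * (n:ℝ) ^ (1 - g / 4) :=
    mul_le_mul_of_nonneg_right (by linarith) (by positivity)
  refine le_trans (le_of_eq ?_) (hmain.trans hC)
  ring

end Vale.Agent.P249.Core
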