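import Vale.Agent.P249.Core.Defs
import Vale.Agent.P249.Sparse.Sensitivity

/-!
Centres with local scales, and coordinate weights calibrated on the centres.
-/

namespace Vale.Agent.P249.Core

open Finset Vale.Agent.P249.Dim

variable {ι κ : Type*} [Fintype ι] [Fintype κ]

omit [Fintype ι] in
/-- Disjoint balls such that every ball meets a chosen ball of no larger radius. -/
lemma exists_disjoint_balls (d : ι → ι → ℝ) (hself : ∀ i, d i i = 0)
    (hsymm : ∀ i j, d i j = d j i) (htri : ∀ i j l, d i l ≤ d i j + d j l)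
    (r : ι → ℝ) (hr : ∀ i, 0 ≤ r i) (T : Finset ι) :
    ∃ Z : Finset ι, Z ⊆ T ∧
      (∀ z ∈ Z, ∀ z' ∈ Z, z ≠ z' → ∀ w, d z w ≤ r z → ¬ d z' w ≤ r z') ∧
      ∀ i ∈ T, ∃ z ∈ Z, d i z ≤ 2 * r i := by
  classical
  induction T using Finset.strongInduction with
  | H T ih =>
    rcases T.eq_empty_or_nonempty with rfl | hT
    · exact ⟨∅, Finset.Subset.refl _, by simp, by simp⟩
    obtain ⟨i0, hi0, hmin⟩ := T.exists_min_image r hT
    have hss : T.filter (fun i => r i + r i0 < d i i0) ⊂ T := by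
      refine filter_ssubset.2 ⟨i0, hi0, ?_⟩
      rw [hself]
      linarith [hr i0]
    obtain ⟨Z, hZ, hdisj, hcov⟩ := ih _ hss
    have hfar : ∀ z ∈ Z, ∀ w, d z w ≤ r z → ¬ d i0 w ≤ r i0 := by
      intro z hz w h1 h2
      have h3 := (mem_filter.1 (hZ hz)).2
      have h4 := htri z w i0
      rw [hsymm w i0] at h4
      linarith
    refine ⟨insert i0 Z, insert_subset hi0 (hZ.trans (filter_subset _ _)), ?_, fun i hi => ?_⟩
    · intro z hz z' hz' hne w hw hw'
      rcases mem_insert.1 hz with e | hz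
      · rcases mem_insert.1 hz' with e' | hz'
        · exact hne (e.trans e'.symm)
        · rw [e] at hw
          exact hfar z' hz' w hw' hw
      · rcases mem_insert.1 hz' with e' | hz'
        · rw [e'] at hw'
          exact hfar z hz w hw hw'
        · exact hdisj z hz z' hz' hne w hw hw'
    · by_cases h : r i + r i0 < d i i0
      · obtain ⟨z, hz, hzd⟩ := hcov i (mem_filter.2 ⟨hi, h⟩)
        exact ⟨z, mem_insert_of_mem hz, hzd⟩
      · exact ⟨i0, mem_insert_self _ _, by linarith [hmin i hi]⟩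

/-- Local scales, centres and coordinate weights of small total. -/
theorem exists_centres {p : ℝ} (hp : 1 ≤ p) (x : ι → κ → ℝ) (_hx : Function.Injective x) {k : ℕ}
    (hk : 1 ≤ k) (hn : Fintype.card ι < 2 ^ k) {M : ℕ} (hM : 2 ≤ M) (hMn : M ≤ Fintype.card ι) :
    ∃ (rM : ι → ℝ) (ctr : ι → ι) (tau : κ → ℝ),
      (∀ i, 0 ≤ rM i) ∧ (∀ i j, rM i ≤ rM j + nm p (x i - x j)) ∧
      (∀ z, nm p (x z - x (ctr z)) ≤ 2 * rM z) ∧ (∀ i, M ≤ cnt p x i (rM i)) ∧
      (∀ i r, r < rM i → cnt p x i r < M) ∧ (∀ c, 0 < tau c) ∧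
      (∀ c z w, |x (ctr z) c - x (ctr w) c| ≤ tau c * nm p (x (ctr z) - x (ctr w))) ∧
      (∀ c z w, |x z c - x w c| ≤ (Fintype.card ι : ℝ) ^ 2 * tau c * nm p (x z - x w)) ∧
      ∑ c, tau c ^ p ≤
        6 * (2 * ((k:ℝ) + 1)) ^ p * (k:ℝ) ^ 2 * ((Fintype.card ι : ℝ) / M) + 1 := by
  classical
  have hp0 : 0 < p := by linarith
  -- local scales
  set rad : ι → Finset ℝ := fun i =>
    (univ.image fun z => nm p (x i - x z)).filter fun r => M ≤ cnt p x i r with hrad
  have hne : ∀ i, (rad i).Nonempty := by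
    intro i
    obtain ⟨z, -, hz⟩ := (univ : Finset ι).exists_max_image (fun z => nm p (x i - x z))
      ⟨i, mem_univ i⟩
    refine ⟨_, mem_filter.2 ⟨mem_image_of_mem _ (mem_univ z), hMn.trans (le_of_eq ?_)⟩⟩
    rw [cnt, filter_true_of_mem hz, card_univ]
  set rM : ι → ℝ := fun i => (rad i).min' (hne i) with hrM
  have hrM0 : ∀ i, 0 ≤ rM i := by
    intro i
    obtain ⟨z, -, hz⟩ := mem_image.1 (mem_filter.1 ((rad i).min'_mem (hne i))).1
    exact (nm_nonneg _).trans_eq hz
  have hcnt : ∀ i, M ≤ cnt p x i (rM i) := fun i => (mem_filter.1 ((rad i).min'_mem (hne i))).2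
  have hlt : ∀ i r, r < rM i → cnt p x i r < M := by
    intro i r hr
    by_contra hcon
    push Not at hcon
    obtain ⟨z, hz, hzmax⟩ := (univ.filter fun z => nm p (x i - x z) ≤ r).exists_max_image
      (fun z => nm p (x i - x z)) (card_pos.1 (lt_of_lt_of_le (by omega) hcon))
    have hmem : nm p (x i - x z) ∈ rad i := mem_filter.2 ⟨mem_image_of_mem _ (mem_univ z),
      hcon.trans (card_le_card fun w hw => mem_filter.2 ⟨mem_univ w, hzmax w hw⟩)⟩
    exact absurd (((rad i).min'_le _ hmem).trans (mem_filter.1 hz).2) (not_le.2 hr)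
  have hlip : ∀ i j, rM i ≤ rM j + nm p (x i - x j) := by
    intro i j
    by_contra hcon
    push Not at hcon
    refine absurd ((hcnt j).trans (card_le_card fun w hw => ?_)) (not_le.2 (hlt i _ hcon))
    simp only [mem_filter] at hw ⊢
    exact ⟨hw.1, by linarith [nm_sub_le hp (x i) (x j) (x w), hw.2]⟩
  -- centres
  obtain ⟨Z, -, hdisj, hcov⟩ := exists_disjoint_balls (fun i j => nm p (x i - x j))
    (fun i => by rw [sub_self]; exact nm_zero hp0) (fun i j => nm_sub_comm _ _)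
    (fun i j l => nm_sub_le hp _ _ _) rM hrM0 univ
  have hZM : Z.card * M ≤ Fintype.card ι := by
    calc Z.card * M = ∑ _z ∈ Z, M := by simp
      _ ≤ ∑ z ∈ Z, (univ.filter fun w => nm p (x z - x w) ≤ rM z).card :=
          sum_le_sum fun z _ => hcnt z
      _ = (Z.biUnion fun z => univ.filter fun w => nm p (x z - x w) ≤ rM z).card :=
          (card_biUnion fun z hz z' hz' h => disjoint_left.2 fun w hw hw' =>
            hdisj z hz z' hz' h w (mem_filter.1 hw).2 (mem_filter.1 hw').2).symm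
      _ ≤ _ := card_le_univ _
  choose ctr hctrZ hctr using fun i => hcov i (mem_univ i)
  -- weights
  have hnZ : Fintype.card Z < 2 ^ k := by
    rw [Fintype.card_coe]
    exact lt_of_le_of_lt (card_le_univ Z) hn
  obtain ⟨μ, hμ0, hμsum, hμ⟩ := Sparse.exists_sensitivity hp (fun z : Z => x z) hk hnZ
  set n : ℝ := (Fintype.card ι : ℝ) with hndef
  set A : ℝ := (2 * ((k:ℝ) + 1)) ^ p with hA
  have hk1 : (1:ℝ) ≤ k := by exact_mod_cast hk
  have hA1 : 1 ≤ A := Real.one_le_rpow (by linarith) hp0.le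
  have hM0 : (0:ℝ) < M := by exact_mod_cast (by omega : 0 < M)
  have hn0 : 0 < n := by
    rw [hndef]; exact_mod_cast (by omega : 0 < Fintype.card ι)
  have hn1 : 1 ≤ n := by
    rw [hndef]; exact_mod_cast (by omega : 1 ≤ Fintype.card ι)
  set F : κ → ℝ := fun c => ∑ q : ι × ι, |x q.1 c - x q.2 c| ^ p / pw p (x q.1 - x q.2) with hF
  have hterm : ∀ (c : κ) (q : ι × ι), 0 ≤ |x q.1 c - x q.2 c| ^ p / pw p (x q.1 - x q.2) :=
    fun c q => div_nonneg (Real.rpow_nonneg (abs_nonneg _) _) (pw_nonneg _)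
  have hF0 : ∀ c, 0 ≤ F c := fun c => sum_nonneg fun q _ => hterm c q
  set T : κ → ℝ := fun c => A * μ c + 1 / (n * M) * F c + 1 / (Fintype.card κ : ℝ) with hT
  have hT0 : ∀ c, 0 < T c := by
    intro c
    have h1 : (0:ℝ) < Fintype.card κ := by exact_mod_cast Fintype.card_pos_iff.2 ⟨c⟩
    have h2 : 0 ≤ A * μ c := mul_nonneg (by linarith) (hμ0 c)
    have h3 : 0 ≤ 1 / (n * M) * F c := mul_nonneg (by positivity) (hF0 c)
    have h4 : 0 < 1 / (Fintype.card κ : ℝ) := by positivity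
    simp only [hT]
    linarith
  set tau : κ → ℝ := fun c => T c ^ (1 / p) with htau
  have htau0 : ∀ c, 0 < tau c := fun c => Real.rpow_pos_of_pos (hT0 c) _
  have htaup : ∀ c, tau c ^ p = T c := fun c => by
    simp only [htau]
    rw [← Real.rpow_mul (hT0 c).le, one_div, inv_mul_cancel₀ hp0.ne', Real.rpow_one]
  have hroot : ∀ (c : κ) (v : κ → ℝ) (a b : ℝ), 0 ≤ b → |a| ^ p ≤ b ^ p * T c * pw p v →
      |a| ≤ b * tau c * nm p v := by
    intro c v a b hb h
    have h1 : 0 ≤ b * tau c := mul_nonneg hb (htau0 c).le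
    refine (Real.rpow_le_rpow_iff (abs_nonneg _) (mul_nonneg h1 (nm_nonneg _)) hp0).1 ?_
    rwa [Real.mul_rpow h1 (nm_nonneg _), Real.mul_rpow hb (htau0 c).le, htaup, nm_rpow hp0]
  refine ⟨rM, ctr, tau, hrM0, hlip, hctr, hcnt, hlt, htau0, fun c z w => ?_, fun c z w => ?_, ?_⟩
  · refine (hroot c _ _ 1 zero_le_one ?_).trans_eq (by rw [one_mul])
    rw [Real.one_rpow, one_mul]
    refine (hμ ⟨ctr z, hctrZ z⟩ ⟨ctr w, hctrZ w⟩ c).trans
      (mul_le_mul_of_nonneg_right ?_ (pw_nonneg _))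
    have h3 : 0 ≤ 1 / (n * M) * F c := mul_nonneg (by positivity) (hF0 c)
    have h4 : 0 ≤ 1 / (Fintype.card κ : ℝ) := by positivity
    simp only [hT, hA]
    linarith
  · refine hroot c _ _ (n ^ 2) (by positivity) ?_
    rcases eq_or_lt_of_le (pw_nonneg (p := p) (x z - x w)) with h | h
    · rw [← h, mul_zero, h]
      exact single_le_sum (f := fun c => |(x z - x w) c| ^ p)
        (fun c _ => Real.rpow_nonneg (abs_nonneg _) _) (mem_univ c)
    rw [← div_le_iff₀ h]
    have h1 : |x z c - x w c| ^ p / pw p (x z - x w) ≤ F c :=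
      single_le_sum (f := fun q : ι × ι => |x q.1 c - x q.2 c| ^ p / pw p (x q.1 - x q.2))
        (fun q _ => hterm c q) (mem_univ (z, w))
    have h2 : F c ≤ n * M * T c := by
      have h3 : 1 / (n * M) * F c ≤ T c := by
        have h4 : 0 ≤ A * μ c := mul_nonneg (by linarith) (hμ0 c)
        have h5 : 0 ≤ 1 / (Fintype.card κ : ℝ) := by positivity
        simp only [hT]
        linarith
      rwa [one_div, inv_mul_le_iff₀ (by positivity)] at h3
    have h6 : n * M ≤ (n ^ 2) ^ p := by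
      have h7 : (M:ℝ) ≤ n := by rw [hndef]; exact_mod_cast hMn
      calc n * M ≤ n ^ 2 := by rw [sq]; exact mul_le_mul_of_nonneg_left h7 hn0.le
        _ = (n ^ 2) ^ (1:ℝ) := (Real.rpow_one _).symm
        _ ≤ _ := Real.rpow_le_rpow_of_exponent_le (one_le_pow₀ hn1) hp
    exact h1.trans (h2.trans (mul_le_mul_of_nonneg_right h6 (hT0 c).le))
  · simp only [htaup, hT, sum_add_distrib, ← mul_sum]
    have h1 : ∑ _c : κ, (1 / (Fintype.card κ : ℝ)) ≤ 1 := by
      rw [sum_const, card_univ, nsmul_eq_mul, mul_one_div]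
      exact div_self_le_one _
    have h2 : ∑ c, F c ≤ n * n := by
      simp only [hF]
      rw [sum_comm]
      calc _ ≤ ∑ _q : ι × ι, (1:ℝ) := by
            refine sum_le_sum fun q _ => ?_
            rw [← sum_div]
            exact div_le_one_of_le₀ le_rfl (pw_nonneg _)
        _ = n * n := by simp [hndef]
    have h3 : 1 / (n * M) * ∑ c, F c ≤ n / M := by
      refine (mul_le_mul_of_nonneg_left h2 (by positivity)).trans (le_of_eq ?_)
      field_simp
    have h4 : ∑ c, μ c ≤ n / M * (4 * (k:ℝ) ^ 2) := by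
      refine hμsum.trans ?_
      rw [Fintype.card_coe]
      push_cast
      have h5 : (Z.card : ℝ) ≤ n / M := by
        rw [le_div_iff₀ hM0, hndef]; exact_mod_cast hZM
      rw [mul_assoc (Z.card : ℝ)]
      exact mul_le_mul h5 (by nlinarith) (by positivity) (by positivity)
    have h6 : A * ∑ c, μ c ≤ A * (n / M * (4 * (k:ℝ) ^ 2)) :=
      mul_le_mul_of_nonneg_left h4 (by linarith)
    have h7 : 1 ≤ A * (k:ℝ) ^ 2 := one_le_mul_of_one_le_of_one_le hA1 (one_le_pow₀ hk1)
    have h8 : n / M ≤ A * (k:ℝ) ^ 2 * (n / M) := le_mul_of_one_le_left (by positivity) h7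
    have h9 : (0:ℝ) ≤ n / M := by positivity
    have h10 : A * (n / M * (4 * (k:ℝ) ^ 2)) = 4 * (A * (k:ℝ) ^ 2 * (n / M)) := by ring
    have h11 : 6 * A * (k:ℝ) ^ 2 * (n / M) = 6 * (A * (k:ℝ) ^ 2 * (n / M)) := by ring
    linarith

end Vale.Agent.P249.Core
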