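import Vale.Agent.P249.Core.Main

/-!
The error from the telescoping weights and from the levels below the distance.
-/

namespace Vale.Agent.P249.Core

open Finset

/-- The gate of the higher of two points. -/
noncomputable def topF (P : Scale) (a b : Line) (l : ℕ) : ℝ := max (a.F P l) (b.F P l)

lemma topF_comm (P : Scale) (a b : Line) (l : ℕ) : topF P a b l = topF P b a l := max_comm _ _

namespace Near

variable {P : Scale} {a b : Line} {J : ℕ} {d κ : ℝ} {η : ℕ → ℝ} (N : Near P a b J d κ η)
  (oa : a.Ok P.N) (ob : b.Ok P.N)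
include N oa ob

omit N in
lemma topF_anti {l l' : ℕ} (h1 : 1 ≤ l) (h : l ≤ l') (h2 : l' ≤ P.N) :
    topF P a b l' ≤ topF P a b l :=
  max_le_max (Line.F_anti oa h1 h h2) (Line.F_anti ob h1 h h2)

lemma topF_block {c e : ℕ} (hc : J ≤ c) (hce : c ≤ e) (he : e ≤ P.N)
    (hg : ∀ m ∈ Finset.Ico c e, a.g m = 1) :
    topF P a b c - topF P a b e ≤ Real.log (16 / P.σ) := by
  have hJ := N.hJ
  have ha : a.F P c - a.F P e ≤ Real.log (16 / P.σ) := by
    refine Line.F_block oa (by omega) hce he ?_
    rw [sum_eq_zero fun m hm => by rw [hg m hm, sub_self]]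
    norm_num
  have hb : b.F P c - b.F P e ≤ Real.log (16 / P.σ) := by
    refine Line.F_block ob (by omega) hce he ?_
    rcases eq_or_lt_of_le hce with h | h
    · rw [h, Ico_self, sum_empty]; norm_num
    obtain ⟨c', rfl⟩ := Nat.exists_eq_add_of_le' (show 1 ≤ c by omega)
    obtain ⟨e', rfl⟩ := Nat.exists_eq_add_of_le' (show 1 ≤ e by omega)
    rw [show Finset.Ico (c' + 1) (e' + 1) = Finset.Icc (c' + 1) e' by ext u; simp]
    refine le_trans ?_ ((N.sum_abs_dg_le (l := c') hc e' (by omega)).trans ?_)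
    · refine sum_le_sum fun m hm => ?_
      rw [hg m (mem_Ico.2 ⟨(mem_Icc.1 hm).1, by have := (mem_Icc.1 hm).2; omega⟩)]
      exact le_abs_self _
    · rw [div_le_iff₀ (P.r_pos c')]
      have := (P.r_mono hc).trans (P.r_succ c').le
      have := N.hdr
      have := P.r_pos c'
      linarith
  rw [topF, topF, sub_le_iff_le_add]
  refine max_le ?_ ?_
  · linarith [le_max_left (a.F P e) (b.F P e)]
  · linarith [le_max_right (a.F P e) (b.F P e)]

lemma F_sig {p W K Λ : ℝ} {w0 : ℕ} (B : Budget P K Λ w0) (hba : a.Bounded P p W K) {l : ℕ}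
    (hl : J ≤ l)
    (hsig : W / K ≤ tail (a.X P) P.N l + tail (b.X P) P.N l) :
    a.F P J - topF P a b l ≤ Real.log (16 * K ^ 3) := by
  have hK := B.hK
  have hW := hba.hW
  have hJ := N.hJ
  set M := max (max (a.V P l) (b.V P l)) P.fl with hM
  have hMpos : 0 < M := lt_max_of_lt_right P.hfl
  have hC : (1:ℝ) ≤ 16 * K ^ 3 := by nlinarith [pow_nonneg (show (0:ℝ) ≤ K by linarith) 3, one_le_pow₀ (show (1:ℝ) ≤ K by linarith) (n := 3)]
  have key : a.V P J ≤ 16 * K ^ 3 * M := by
    have hVc := Line.V_le_cap (L := a) (P := P) J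
    by_cases hbig : P.cap ≤ a.U P l ∨ P.cap ≤ b.U P l
    · refine hVc.trans (le_trans ?_ (le_mul_of_one_le_left hMpos.le hC))
      rcases hbig with h | h
      · exact le_trans (by simpa [min_eq_left h] using Line.min_U_le_V oa l)
          ((le_max_left _ _).trans (le_max_left _ _))
      · exact le_trans (by simpa [min_eq_left h] using Line.min_U_le_V ob l)
          ((le_max_right _ _).trans (le_max_left _ _))
    push Not at hbig
    have hUa : a.U P l ≤ M :=
      (Line.U_le_V oa hbig.1).trans ((le_max_left _ _).trans (le_max_left _ _))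
    have hUb : b.U P l ≤ M :=
      (Line.U_le_V ob hbig.2).trans ((le_max_right _ _).trans (le_max_left _ _))
    have hwa := Line.w_pos (P := P) oa l
    -- the weight of `W` at level `l`
    have hwW : a.w P l * W ≤ 3 * K * M := by
      have h1 := Line.w_mul_tail_le (P := P) oa l
      have h2 := Line.w_mul_tail_le (P := P) ob l
      have h3 := N.symm.w_le_two ob oa (l := l) (by omega)
      have h4 := mul_le_mul_of_nonneg_left hsig hwa.le
      have h5 := mul_le_mul_of_nonneg_right h3
        (tail_nonneg (a := b.X P) (N := P.N) (l := l) fun u _ => Line.X_nonneg ob u)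
      rw [mul_div_assoc', div_le_iff₀ (by linarith : (0:ℝ) < K), mul_add] at h4
      nlinarith
    have hmem : a.g J ^ 2 * a.mem P (J - 1) ≤ a.w P l * W := by
      have hJN := N.hJN
      obtain ⟨j, rfl⟩ := Nat.exists_eq_add_of_le' (show 1 ≤ J by omega)
      rw [Nat.add_sub_cancel]
      refine le_trans ?_ (mul_le_mul_of_nonneg_right (Line.w_mono oa hl) hW.le)
      have h1 := Line.r_mul_mem_le oa (P := P) (show j ≤ P.N by omega)
      have h2 := Line.low_le oa hba (show 1 ≤ j + 1 by omega) hJN
      rw [Nat.add_sub_cancel] at h2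
      have h3 := Line.w_succ (P := P) oa (show j < P.N by omega)
      have hg := oa.hg1 (j + 1)
      have hg0 := Line.g_pos oa (j + 1)
      have hwj := Line.w_pos (P := P) oa j
      have h4 := mul_le_mul_of_nonneg_left h2 hwj.le
      have h5 := mul_le_mul_of_nonneg_left (h1.trans h4) (mul_pos hg0 hg0).le
      rw [P.r_succ] at h5
      rw [← h3]
      refine le_of_mul_le_mul_left ?_ (P.r_pos j)
      have h6 : a.g (j + 1) * (a.g (j + 1) * (a.w P j * (P.r j * W))) ≤
          a.g (j + 1) * (a.w P j * (P.r j * W)) :=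
        mul_le_of_le_one_left (mul_nonneg hg0.le (mul_nonneg hwj.le (mul_nonneg (P.r_pos j).le hW.le))) hg
      linarith
    have hU : a.U P J ≤ a.w P l * (K * W) + a.U P l := by
      rw [Line.U, Line.U, tail, tail,
        ← sum_filter_add_sum_filter_not (Finset.Icc J P.N) (fun u => u < l)]
      refine add_le_add ?_ (sum_le_sum_of_subset_of_nonneg (fun u hu => ?_)
        fun u _ _ => Line.Xs_nonneg oa u)
      · refine le_trans ?_ (mul_le_mul_of_nonneg_left hba.hU hwa.le)
        rw [tail, mul_sum]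
        refine (sum_le_sum fun u hu => ?_).trans (sum_le_sum_of_subset_of_nonneg (fun u hu => ?_)
          fun u _ _ => mul_nonneg hwa.le (Line.X_nonneg oa u))
        · exact mul_le_mul_of_nonneg_right (Line.w_mono oa (mem_filter.1 hu).2.le)
            (Line.X_nonneg oa u)
        · have := mem_Icc.1 (mem_filter.1 hu).1
          exact mem_Icc.2 ⟨by omega, this.2⟩
      · obtain ⟨h6, h7⟩ := mem_filter.1 hu
        exact mem_Icc.2 ⟨by omega, (mem_Icc.1 h6).2⟩
    have hV : a.V P J ≤ a.U P J + a.g J ^ 2 * a.mem P (J - 1) :=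
      (min_le_right _ _).trans (add_le_add le_rfl
        (mul_le_of_le_one_left (Line.Xs_add_nonneg oa J) P.hσ1))
    have h8 := mul_le_mul_of_nonneg_left hwW (by linarith : (0:ℝ) ≤ K + 1)
    have h9 : 1 + (K + 1) * (3 * K) ≤ 16 * K ^ 3 := by nlinarith
    nlinarith [mul_le_mul_of_nonneg_right h9 hMpos.le]
  have hlog : Real.log (max (a.V P J) P.fl) ≤ Real.log (16 * K ^ 3) + Real.log M := by
    rw [← Real.log_mul (by linarith) hMpos.ne']
    exact Real.log_le_log (Line.max_V_pos (L := a) (P := P) J)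
      (max_le key ((le_max_right _ _).trans (le_mul_of_one_le_left hMpos.le hC)))
  have htop : topF P a b l = Real.log M - Real.log P.fl := by
    rw [topF, Line.F, Line.F, hM, max_sub_sub_right]
    congr 1
    rcases le_total (a.V P l) (b.V P l) with h | h
    · rw [max_eq_right h, max_eq_right (Real.log_le_log (Line.max_V_pos l) (max_le_max_right _ h))]
    · rw [max_eq_left h, max_eq_left (Real.log_le_log (Line.max_V_pos l) (max_le_max_right _ h))]
  rw [htop, Line.F]
  linarith

/-- The error from the telescoping weights. -/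
lemma telescope_le {p W K Λ : ℝ} (hp : 1 ≤ p) {w0 : ℕ} (B : Budget P K Λ w0)
    (hba : a.Bounded P p W K) (hbb : b.Bounded P p W K) :
    ∑ l ∈ Finset.Ico J P.N, (topF P a b l - topF P a b (l + 1)) * |a.q l - b.q l| ≤
      Λ * |a.q (J - 1) - b.q (J - 1)| + 12 * κ * Λ * d * W := by
  classical
  have hJ := N.hJ
  have hJN := N.hJN
  have hK := B.hK
  have hW := hba.hW
  have hΛ1 := B.one_le
  set H := |a.q (J - 1) - b.q (J - 1)| with hH
  have hκd := N.κd_pos
  have hd0 := N.hd
  have hκ0 : 0 < κ := lt_of_lt_of_le one_pos N.hκ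
  set f := topF P a b with hf
  have hanti : ∀ {l l'}, J ≤ l → l ≤ l' → l' ≤ P.N → f l' ≤ f l := fun {l l'} h1 h2 h3 =>
    topF_anti oa ob (by omega) h2 h3
  have hw0 : ∀ l ∈ Finset.Ico J P.N, 0 ≤ f l - f (l + 1) := fun l hl => by
    obtain ⟨h1, h2⟩ := mem_Ico.1 hl
    linarith [hanti h1 (Nat.le_succ l) h2]
  have hlogσ : Real.log (16 / P.σ) ≤ Λ := by linarith [B.hΛσ]
  refine (sum_le_sum fun l hl => mul_le_mul_of_nonneg_left
    (N.abs_dq_le oa ob (l := l) (by have := (mem_Ico.1 hl).1; omega)
      (mem_Ico.1 hl).2.le) (hw0 l hl)).trans ?_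
  simp only [Line.dbd, ← hH, mul_add, sum_add_distrib]
  refine add_le_add ?_ ?_
  · obtain ⟨c, hc1, hc2, hc3, hc4⟩ := exists_reset oa hJN
    calc ∑ l ∈ Finset.Ico J P.N, (f l - f (l + 1)) * (H * a.surv J l)
        ≤ ∑ l ∈ Finset.Ico J c, (f l - f (l + 1)) * H := by
          rw [← sum_Ico_consecutive _ hc1 hc2,
            sum_eq_zero (s := Finset.Ico c P.N) fun l hl => by
              rw [Line.surv_eq_zero hc1 (by omega) hc3 (mem_Ico.1 hl).1, mul_zero, mul_zero],
            add_zero]
          refine sum_le_sum fun l hl => mul_le_mul_of_nonneg_left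
            (mul_le_of_le_one_right (abs_nonneg _) (Line.surv_bounds oa J l).2)
            (hw0 l (Ico_subset_Ico_right hc2 hl))
      _ = (f J - f c) * H := by rw [← sum_mul, sum_Ico_drop f hc1]
      _ ≤ Λ * H := mul_le_mul_of_nonneg_right
          ((N.topF_block oa ob le_rfl hc1 hc2 hc4).trans hlogσ) (abs_nonneg _)
  · have hgain : ∀ l ∈ Finset.Ico J P.N, a.gain P J l ≤ W := fun l hl =>
      Line.gain_le oa hp hba J (mem_Ico.1 hl).2.le
    have hP : ∃ l, J ≤ l ∧ (l = P.N ∨ tail (a.X P) P.N l + tail (b.X P) P.N l < W / K) :=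
      ⟨P.N, hJN, Or.inl rfl⟩
    set m := Nat.find hP with hm
    obtain ⟨hm1, hm2⟩ : J ≤ m ∧ (m = P.N ∨ _) := Nat.find_spec hP
    have hmN : m ≤ P.N := Nat.find_min' hP ⟨hJN, Or.inl rfl⟩
    obtain ⟨c, hc1, hc2, hc3, hc4⟩ := exists_reset oa hmN
    have hfirst : f J - f m ≤ 2 * Λ := by
      rcases eq_or_lt_of_le hm1 with h | h
      · rw [← h, sub_self]; linarith
      obtain ⟨j, hj⟩ := Nat.exists_eq_add_of_le' (show 1 ≤ m by omega)
      have hnot := Nat.find_min hP (show j < m by omega)
      push Not at hnot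
      obtain ⟨hjN, hsig⟩ := hnot (by omega)
      have h1 : f J - f j ≤ Real.log (16 * K ^ 3) := by
        rw [hf, sub_le_iff_le_add]
        refine max_le ?_ ?_
        · linarith [N.F_sig oa ob B hba (l := j) (by omega) hsig]
        · have := N.symm.F_sig ob oa B hbb (l := j) (by omega) (by linarith)
          rw [topF_comm P b a] at this
          linarith
      have h2 : f j - f m ≤ Real.log (16 / P.σ) := by
        have ea : a.F P (j + 1) ≤ topF P a b (j + 1) := le_max_left _ _
        have eb : b.F P (j + 1) ≤ topF P a b (j + 1) := le_max_right _ _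
        rw [hf, hj, sub_le_iff_le_add]
        refine max_le ?_ ?_
        · linarith [Line.F_step oa (P := P) (l := j) (by omega) (by omega)]
        · linarith [Line.F_step ob (P := P) (l := j) (by omega) (by omega)]
      linarith [B.hΛK]
    rw [← sum_Ico_consecutive _ hm1 hmN, ← sum_Ico_consecutive _ hc1 hc2]
    have e1 : ∀ s t, J ≤ s → t ≤ P.N → s ≤ t →
        ∑ l ∈ Finset.Ico s t, (f l - f (l + 1)) * (3 * κ * d * a.gain P J l) ≤
          3 * κ * d * W * (f s - f t) := by
      intro s t hs ht hst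
      rw [← sum_Ico_drop f hst, mul_sum]
      refine sum_le_sum fun l hl => ?_
      have hl' : l ∈ Finset.Ico J P.N :=
        mem_Ico.2 ⟨hs.trans (mem_Ico.1 hl).1, (mem_Ico.1 hl).2.trans_le ht⟩
      have := mul_le_mul_of_nonneg_left (hgain l hl')
        (mul_nonneg (by linarith : (0:ℝ) ≤ 3 * κ * d) (hw0 l hl'))
      linarith
    have t1 := e1 J m le_rfl hmN hm1
    have t2 := e1 m c hm1 hc2 hc1
    have t3 : ∑ l ∈ Finset.Ico c P.N, (f l - f (l + 1)) * (3 * κ * d * a.gain P J l) ≤
        3 * κ * d * W := by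
      rcases hm2 with h | h
      · rw [show c = P.N by omega, Ico_self, sum_empty]; positivity
      have hτ : ∀ l ∈ Finset.Ico c P.N, a.gain P J l ≤ W / K := fun l hl => by
        refine (Line.gain_le_tail oa (by omega) (by omega) hc3 (mem_Ico.1 hl).1
          (mem_Ico.1 hl).2.le).trans ?_
        have := tail_anti (Line.X_nonneg oa (P := P)) hc1 (N := P.N)
        have := tail_nonneg (a := b.X P) (N := P.N) (l := m) fun u _ => Line.X_nonneg ob u
        linarith
      have hdrop : f c - f P.N ≤ K := by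
        rw [hf, topF, topF]
        have := max_le (Line.F_le (L := a) (P := P) c) (Line.F_le (L := b) (P := P) c)
        have := (Line.F_nonneg (L := a) (P := P) P.N).trans (le_max_left _ (b.F P P.N))
        linarith [B.hh]
      calc _ ≤ ∑ l ∈ Finset.Ico c P.N, (f l - f (l + 1)) * (3 * κ * d * (W / K)) :=
            sum_le_sum fun l hl => mul_le_mul_of_nonneg_left
              (mul_le_mul_of_nonneg_left (hτ l hl) (by linarith))
              (hw0 l (mem_Ico.2 ⟨by have := (mem_Ico.1 hl).1; omega, (mem_Ico.1 hl).2⟩))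
        _ = (f c - f P.N) * (3 * κ * d * (W / K)) := by rw [← sum_mul, sum_Ico_drop f hc2]
        _ ≤ K * (3 * κ * d * (W / K)) := mul_le_mul_of_nonneg_right hdrop (by positivity)
        _ = _ := by field_simp
    have t4 := mul_le_mul_of_nonneg_left hfirst (by positivity : (0:ℝ) ≤ 3 * (κ * d) * W)
    have t5 := mul_le_mul_of_nonneg_left ((N.topF_block oa ob hm1 hc1 hc2 hc4).trans hlogσ)
      (by positivity : (0:ℝ) ≤ 3 * (κ * d) * W)
    have t6 := le_mul_of_one_le_left (by positivity : (0:ℝ) ≤ 3 * (κ * d) * W) hΛ1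
    simp only [← hf] at t5
    linarith

/-- The error from the levels below the distance. -/
lemma below_le {p W K Λ : ℝ} {w0 : ℕ} (B : Budget P K Λ w0)
    (hba : a.Bounded P p W K) (hbb : b.Bounded P p W K) :
    ∑ t ∈ Finset.Icc 1 (J - 1), P.r t * a.X P t * |a.F P t - topF P a b J| ≤
      16 * |a.q (J - 1) - b.q (J - 1)| + 2100 * κ * Λ * d * W +
        4 * d * ∑ u ∈ Finset.Icc 1 P.N, η u := by
  classical
  have hJ := N.hJ
  have hJN := N.hJN
  have hK := B.hK
  have hW := hba.hW
  have hΛ1 := B.one_le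
  have hκd := N.κd_pos
  have hd0 := N.hd
  have hκ0 : 0 < κ := lt_of_lt_of_le one_pos N.hκ
  set H := |a.q (J - 1) - b.q (J - 1)| with hH
  set E := ∑ u ∈ Finset.Icc 1 P.N, η u with hE
  have hE0 : 0 ≤ E := sum_nonneg fun u _ => N.hη u
  set BB := 8 * H + 38 * κ * d * (K * W) + 2 * d * E +
    P.σ * (8 * H + 430 * κ * d * (K * W) + 2 * d * E) with hBB
  have hBB0 : 0 ≤ BB := by
    have := N.hd; have := N.hκ; have := P.hσ; have := abs_nonneg (a.q (J - 1) - b.q (J - 1))
    positivity
  have hV : P.r J * |b.V P J - a.V P J| ≤ a.w P J * BB := by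
    refine (N.r_mul_abs_dV_le oa ob hba hbb (by linarith) le_rfl hJN).trans
      (mul_le_mul_of_nonneg_left ?_ (Line.w_pos oa J).le)
    rw [Line.dbd, Line.surv_lt (by omega), Line.gain_lt (by omega)]
    have h1 : ∑ u ∈ Finset.Icc J P.N, a.Q P J u * a.X P u ≤ K * W :=
      ((sum_le_sum fun u hu => mul_le_of_le_one_left (Line.X_nonneg oa u)
        (Line.Q_le_one oa (mem_Icc.1 hu).1)).trans
        (tail_anti (Line.X_nonneg oa (P := P)) (show 1 ≤ J by omega))).trans hba.hU
    have := mul_le_mul_of_nonneg_left h1 (by linarith : (0:ℝ) ≤ 38 * (κ * d))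
    rw [hBB]
    linarith
  have hlogσ := B.log_σ
  have hlog4 : Real.log 4 ≤ 2 := by
    rw [show (4:ℝ) = 2 * 2 by norm_num, Real.log_mul two_ne_zero two_ne_zero]
    linarith [Real.log_le_sub_one_of_pos (show (0:ℝ) < 2 by norm_num)]
  have hlog4' : 0 ≤ Real.log 4 := Real.log_nonneg (by norm_num)
  have hlogK : Real.log K ≤ Real.log (16 * K ^ 3) :=
    Real.log_le_log (by linarith) (by
      have := le_self_pow₀ (show (1:ℝ) ≤ K by linarith) three_ne_zero
      linarith)
  have hlogK0 : 0 ≤ Real.log K := Real.log_nonneg (by linarith)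
  have hlogσ0 : 0 ≤ Real.log (1 / P.σ) :=
    Real.log_nonneg (by rw [le_div_iff₀ P.hσ]; linarith [P.hσ1])
  have hterm : ∀ t ∈ Finset.Icc 1 (J - 1), P.r t * a.X P t * |a.F P t - topF P a b J| ≤
      6 * Λ * (((J - t : ℕ) : ℝ) * P.r t * W) + BB / K * (1 / 2) ^ (J - t) := by
    intro t ht
    obtain ⟨ht1, ht2⟩ := mem_Icc.1 ht
    set j : ℕ := J - t with hj
    have hj1 : (1:ℝ) ≤ (j:ℝ) := by exact_mod_cast (show 1 ≤ j by omega)
    have hXW : a.X P t ≤ W := hba.hX t (mem_Icc.2 ⟨ht1, by omega⟩)
    set aa := P.r t * a.X P t with haa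
    have haa0 : 0 ≤ aa := mul_nonneg (P.r_pos t).le (Line.X_nonneg oa t)
    have haW : aa ≤ P.r t * W := mul_le_mul_of_nonneg_left hXW (P.r_pos t).le
    have hsecond : aa * (topF P a b J - a.F P J) ≤
        aa * ((j:ℝ) * Real.log 4 + Real.log (1 / P.σ) + (j:ℝ) + Real.log K) +
          BB / K * (1 / 2) ^ j := by
      have hpos : 0 ≤ (j:ℝ) * Real.log 4 + Real.log (1 / P.σ) + (j:ℝ) + Real.log K := by positivity
      have hrest : 0 ≤ BB / K * (1 / 2 : ℝ) ^ j := by positivity
      rcases eq_or_lt_of_le haa0 with h0 | h0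
      · rw [← h0, zero_mul, zero_mul, zero_add]; exact hrest
      rcases le_total (b.F P J) (a.F P J) with hba' | hba'
      · rw [topF, max_eq_left hba', sub_self, mul_zero]; positivity
      rw [topF, max_eq_right hba']
      have hlow := Line.V_low (P := P) oa ht1 (show t < J by omega)
      have hmaxa := Line.max_V_pos (L := a) (P := P) J
      rcases le_total P.cap (a.Xs P t) with hc | hc
      · rw [min_eq_left hc] at hlow
        have h1 : Real.log (P.σ * (1 / 4) ^ j * P.cap) ≤ Real.log (max (a.V P J) P.fl) :=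
          Real.log_le_log (by have := P.hσ; have := P.cap_pos; positivity)
            (hlow.trans (le_max_left _ _))
        rw [Real.log_mul (by have := P.hσ; positivity) P.cap_pos.ne',
          Real.log_mul P.hσ.ne' (by positivity), Real.log_pow, one_div, Real.log_inv, P.log_cap] at h1
        have h2 := Line.F_le (L := b) (P := P) J
        have h3 : b.F P J - a.F P J ≤
            (j:ℝ) * Real.log 4 + Real.log (1 / P.σ) + (j:ℝ) + Real.log K := by
          rw [one_div, Real.log_inv]
          rw [Line.F] at h2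
          rw [Line.F, Line.F]
          linarith
        linarith [mul_le_mul_of_nonneg_left h3 haa0]
      rw [min_eq_right hc] at hlow
      have hrel : P.σ * (1 / 4) ^ j * (a.w P J * aa) ≤ P.r J * max (a.V P J) P.fl := by
        refine le_trans ?_ (mul_le_mul_of_nonneg_left (hlow.trans (le_max_left _ _)) (P.r_pos J).le)
        have h2 : a.w P J * P.r t ≤ P.r J * a.w P t := by
          have := mul_le_mul_of_nonneg_right (Line.w_le_pow (P := P) oa (show t ≤ J by omega))
            (P.r_pos t).le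
          rw [show P.r J = 2 ^ (J - t) * P.r t by rw [← P.r_add, Nat.add_sub_cancel' (by omega)]]
          linarith
        have h3 := mul_le_mul_of_nonneg_left
          (mul_le_mul_of_nonneg_right h2 (Line.X_nonneg (P := P) oa t))
          (mul_nonneg P.hσ.le (pow_nonneg (by norm_num : (0:ℝ) ≤ 1 / 4) j))
        rw [haa, Line.Xs]
        linarith
      set c := 4 ^ j / P.σ with hc'
      have hc1 : 1 ≤ c := by
        rw [hc', le_div_iff₀ P.hσ, one_mul]
        exact P.hσ1.trans (one_le_pow₀ (by norm_num))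
      have hratio : |b.V P J - a.V P J| / max (a.V P J) P.fl ≤ c * (BB / aa) := by
        have hσp := P.hσ
        have e : c * (BB / aa) = 4 ^ j * BB / (P.σ * aa) := by rw [hc']; field_simp
        rw [e, div_le_div_iff₀ hmaxa (by positivity)]
        refine le_of_mul_le_mul_left ?_ (mul_pos (P.r_pos J) (Line.w_pos (P := P) oa J))
        have hwJ := Line.w_pos (P := P) oa J
        have h4 := mul_le_mul hV hrel (by positivity)
          (mul_nonneg (Line.w_pos oa J).le hBB0)
        have e2 : (1 / 4 : ℝ) ^ j * 4 ^ j = 1 := by rw [← mul_pow]; norm_num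
        have h5 := mul_le_mul_of_nonneg_left h4 (pow_nonneg (by norm_num : (0:ℝ) ≤ 4) j)
        have e3 : (4:ℝ) ^ j * (P.r J * |b.V P J - a.V P J| * (P.σ * (1 / 4) ^ j * (a.w P J * aa))) =
            P.r J * a.w P J * (|b.V P J - a.V P J| * (P.σ * aa)) := by
          linear_combination (P.r J * a.w P J * (|b.V P J - a.V P J| * (P.σ * aa))) * e2
        linarith
      have hdiff : b.F P J - a.F P J ≤ Real.log (1 + c * (BB / aa)) := by
        rw [Line.F, Line.F, sub_sub_sub_cancel_right,
          ← Real.log_div (Line.max_V_pos J).ne' hmaxa.ne']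
        refine Real.log_le_log (div_pos (Line.max_V_pos J) hmaxa) ?_
        refine le_trans ?_ (add_le_add le_rfl hratio)
        rw [one_add_div hmaxa.ne']
        refine div_le_div_of_nonneg_right ?_ hmaxa.le
        linarith [le_abs_self (max (b.V P J) P.fl - max (a.V P J) P.fl),
          abs_max_sub_max_le_abs (b.V P J) (a.V P J) P.fl]
      set y := BB / aa with hy
      have hy0 : 0 ≤ y := div_nonneg hBB0 h0.le
      have hm0 : 0 ≤ (j:ℝ) + Real.log K := by positivity
      have h6 : Real.log (1 + c * y) ≤ Real.log c + Real.log (1 + y) := by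
        rw [← Real.log_mul (by linarith) (by linarith)]
        exact Real.log_le_log (by positivity) (by linarith)
      have h7 := log_one_add_le hy0 hm0
      have h8 : Real.exp (-((j:ℝ) + Real.log K)) ≤ (1 / 2) ^ j / K := by
        rw [neg_add, Real.exp_add, Real.exp_neg (Real.log K), Real.exp_log (by linarith),
          ← div_eq_mul_inv]
        refine div_le_div_of_nonneg_right ?_ (by linarith)
        rw [show -(j:ℝ) = (j:ℕ) * (-1:ℝ) by ring, Real.exp_nat_mul]
        refine pow_le_pow_left₀ (Real.exp_pos _).le ?_ j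
        rw [Real.exp_neg, one_div]
        exact inv_anti₀ two_pos (by linarith [Real.add_one_le_exp (1:ℝ)])
      have hlc : Real.log c = (j:ℝ) * Real.log 4 + Real.log (1 / P.σ) := by
        rw [hc', Real.log_div (by positivity) P.hσ.ne', Real.log_pow, one_div, Real.log_inv]
        ring
      have h9 : aa * (y * Real.exp (-((j:ℝ) + Real.log K))) ≤ BB / K * (1 / 2) ^ j := by
        rw [← mul_assoc, hy, mul_div_cancel₀ _ h0.ne']
        exact (mul_le_mul_of_nonneg_left h8 hBB0).trans (le_of_eq (by ring))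
      have h10 := mul_le_mul_of_nonneg_left (hdiff.trans (h6.trans (add_le_add le_rfl h7))) haa0
      rw [hlc] at h10
      linarith
    have hfirst := Line.F_sub_le_steps (P := P) oa ht1 (show t ≤ J by omega) hJN
    have hFa := Line.F_anti (P := P) oa ht1 (show t ≤ J by omega) hJN
    have htop : a.F P J ≤ topF P a b J := le_max_left _ _
    have habs : |a.F P t - topF P a b J| ≤
        (a.F P t - a.F P J) + (topF P a b J - a.F P J) := abs_le.2 ⟨by linarith, by linarith⟩
    have h1 := mul_le_mul_of_nonneg_left habs haa0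
    have h2 := mul_le_mul_of_nonneg_left hfirst haa0
    simp only [← hj] at h2
    have hcoef : (j:ℝ) * Real.log (16 / P.σ) +
        ((j:ℝ) * Real.log 4 + Real.log (1 / P.σ) + (j:ℝ) + Real.log K) ≤ 6 * Λ * (j:ℝ) := by
      have a1 : Real.log (1 / P.σ) ≤ (j:ℝ) * Λ := by
        have := le_mul_of_one_le_left (show 0 ≤ Λ by linarith) hj1
        linarith [B.hΛσ]
      have a2 : Real.log K ≤ (j:ℝ) * Λ := by
        have := le_mul_of_one_le_left (show 0 ≤ Λ by linarith) hj1
        linarith [B.hΛK]
      have a3 := mul_le_mul_of_nonneg_left (show Real.log (16 / P.σ) + 3 ≤ Λ by linarith [B.hΛσ])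
        (show (0:ℝ) ≤ (j:ℝ) by linarith)
      have a4 := mul_le_mul_of_nonneg_left hlog4 (show (0:ℝ) ≤ (j:ℝ) by linarith)
      linarith [mul_nonneg (show (0:ℝ) ≤ (j:ℝ) by linarith) (show 0 ≤ Λ by linarith)]
    have h3 := mul_le_mul_of_nonneg_left hcoef haa0
    have h4 := mul_le_mul_of_nonneg_left haW (show (0:ℝ) ≤ 6 * Λ * (j:ℝ) by positivity)
    linarith
  refine (sum_le_sum hterm).trans ?_
  rw [sum_add_distrib, ← mul_sum, ← mul_sum, ← sum_mul]
  obtain ⟨i, rfl⟩ := Nat.exists_eq_add_of_le' (show 1 ≤ J by omega)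
  simp only [Nat.add_sub_cancel]
  have h1 := mul_le_mul_of_nonneg_left
    (mul_le_mul_of_nonneg_right ((Line.sum_weighted_r_le P i).trans
      (mul_le_mul_of_nonneg_left N.hrd two_pos.le)) hW.le) (by linarith : (0:ℝ) ≤ 6 * Λ)
  have h2 : ∑ t ∈ Finset.Icc 1 i, (1 / 2 : ℝ) ^ (i + 1 - t) ≤ 1 := by
    refine le_trans (le_of_eq (sum_image (g := fun t => i + 1 - t)
      (f := fun e => (1 / 2 : ℝ) ^ e) fun u hu v hv h => ?_).symm)
      (le_trans (sum_le_sum_of_subset_of_nonneg (t := Finset.Icc (0 + 1) (i + 1)) (fun e he => ?_)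
        fun e _ _ => by positivity) ((geom_tail_le 0 (i + 1)).trans (by norm_num)))
    · simp only [coe_Icc, Set.mem_Icc] at hu hv
      simp only at h
      omega
    · obtain ⟨u, hu, rfl⟩ := mem_image.1 he
      simp only [mem_Icc] at hu
      exact mem_Icc.2 ⟨by omega, by omega⟩
  have h3 : BB / K ≤ 16 * H + 470 * κ * d * W + 4 * d * E := by
    rw [div_le_iff₀ (by linarith : (0:ℝ) < K), hBB]
    have hH0 : 0 ≤ H := abs_nonneg _
    have hdE : 0 ≤ d * E := mul_nonneg N.hd.le hE0
    have a1 := mul_le_mul_of_nonneg_left P.hσ1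
      (show (0:ℝ) ≤ 8 * H + 430 * κ * d * (K * W) + 2 * d * E by
        have := N.hd; have := N.hκ; positivity)
    have a2 := mul_le_mul_of_nonneg_left (show (1:ℝ) ≤ K by linarith)
      (show (0:ℝ) ≤ 16 * H + 4 * d * E by linarith)
    have a3 : 0 ≤ κ * d * W * K := by positivity
    linarith
  have h4 := mul_le_mul_of_nonneg_left h2 (show 0 ≤ BB / K by positivity)
  have h5 := mul_le_mul_of_nonneg_left hΛ1 (show (0:ℝ) ≤ κ * d * W by positivity)
  have h6 : 0 ≤ Λ * (κ * d * W) := by positivity
  linarith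

end Near

end Vale.Agent.P249.Core
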