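import Vale.Agent.P249.Core.Gates
import Vale.Agent.P249.Core.Drops
import Vale.Agent.P249.Core.Part

/-!
The difference of the selected parts of two nearby lines is the selected difference of the
coordinates, up to a small error.
-/

namespace Vale.Agent.P249.Core

open Finset

lemma sum_by_parts (Θ D : ℕ → ℝ) {J N : ℕ} (hJN : J ≤ N) :
    ∑ l ∈ Finset.Icc J N, Θ l * (D (l - 1) - D l) =
      Θ J * D (J - 1) + ∑ l ∈ Finset.Ico J N, (Θ (l + 1) - Θ l) * D l - Θ N * D N := by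
  induction N, hJN using Nat.le_induction with
  | base => simp; ring
  | succ N hN ih =>
    rw [sum_Icc_succ_top (show J ≤ N + 1 by omega), ih, sum_Ico_succ_top hN, Nat.add_sub_cancel]
    ring

lemma Line.x0_sub_q (L : Line) (n : ℕ) : L.x0 - L.q n = ∑ l ∈ Finset.Icc 1 n, L.δ l := by
  induction n with
  | zero => simp [Line.q]
  | succ n ih =>
    rw [sum_Icc_succ_top (show 1 ≤ n + 1 by omega), ← ih, Line.δ, Nat.add_sub_cancel]
    ring

namespace Near

variable {P : Scale} {a b : Line} {J : ℕ} {d κ : ℝ} {η : ℕ → ℝ} (N : Near P a b J d κ η)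
  (oa : a.Ok P.N) (ob : b.Ok P.N)
include N oa ob

/-- The selected parts differ by the selected difference, up to a small error. -/
theorem part_sub_le {p W K Λ : ℝ} (hp : 1 ≤ p) {w0 : ℕ} (B : Budget P K Λ w0)
    (hba : a.Bounded P p W K) (hbb : b.Bounded P p W K) {Φ : ℝ → ℝ} {Lp : ℝ} (hLp : 0 ≤ Lp)
    (h1 : ∀ x, |Φ x| ≤ 1) (hL : ∀ x y, |Φ x - Φ y| ≤ Lp * |x - y|) :
    |a.part P Φ - b.part P Φ - Φ (topF P a b J) * (a.x0 - b.x0)| ≤
      Lp * (65 * Λ * |a.x0 - b.x0| + 24000 * κ * Λ ^ 2 * d * W +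
        16 * K * d * ∑ u ∈ Finset.Icc 1 P.N, η u) + κ * d * a.A P.N := by
  classical
  have hJ := N.hJ
  have hJN := N.hJN
  set f := topF P a b with hf
  set D : ℕ → ℝ := fun l => a.q l - b.q l with hD
  set H := |D (J - 1)| with hH
  set E := ∑ u ∈ Finset.Icc 1 P.N, η u with hE
  have hd := N.hd
  have hκd := N.κd_pos
  have hW := hba.hW
  have hK := B.hK
  have hΛ1 := B.one_le
  have hE0 : 0 ≤ E := sum_nonneg fun u _ => N.hη u
  -- the levels below
  have hsplit : ∀ L : Line, L.part P Φ = ∑ l ∈ Finset.Icc 1 (J - 1), Φ (L.F P l) * L.δ l +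
      ∑ l ∈ Finset.Icc J P.N, Φ (L.F P l) * L.δ l := fun L => by
    rw [Line.part, ← sum_union (disjoint_left.2 fun u hu hu' => by
      simp only [mem_Icc] at hu hu'; omega)]
    congr 1
    ext u
    simp only [mem_union, mem_Icc]
    omega
  have hlow : ∀ L : Line, L.Ok P.N →
      |∑ l ∈ Finset.Icc 1 (J - 1), Φ (L.F P l) * L.δ l - Φ (f J) * (L.x0 - L.q (J - 1))| ≤
        Lp * ∑ l ∈ Finset.Icc 1 (J - 1), P.r l * L.X P l * |L.F P l - f J| := by
    intro L oL
    rw [L.x0_sub_q, mul_sum, ← sum_sub_distrib, mul_sum]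
    refine (abs_sum_le_sum_abs _ _).trans (sum_le_sum fun l hl => ?_)
    rw [← sub_mul, abs_mul]
    have := mul_le_mul (hL (L.F P l) (f J)) (Line.abs_δ_le (P := P) oL (mem_Icc.1 hl).1)
      (abs_nonneg _) (mul_nonneg hLp (abs_nonneg _))
    linarith
  have hga : ∀ l ∈ Finset.Icc J P.N,
      |Φ (a.F P l) * a.δ l - Φ (b.F P l) * b.δ l - Φ (f l) * (D (l - 1) - D l)| ≤
        Lp * (if a.V P l ≤ b.V P l then P.r l * a.X P l * |a.F P l - b.F P l| else 0) +
        Lp * (if b.V P l ≤ a.V P l then P.r l * b.X P l * |b.F P l - a.F P l| else 0) := by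
    intro l hl
    have hl1 : 1 ≤ l := by have := (mem_Icc.1 hl).1; omega
    have e : D (l - 1) - D l = a.δ l - b.δ l := by simp only [hD, Line.δ]; ring
    have hnn : ∀ (L L' : Line), L.Ok P.N →
        0 ≤ Lp * (if L.V P l ≤ L'.V P l then P.r l * L.X P l * |L.F P l - L'.F P l| else 0) := by
      intro L L' oL
      refine mul_nonneg hLp ?_
      split_ifs
      · exact mul_nonneg (mul_nonneg (P.r_pos l).le (Line.X_nonneg oL l)) (abs_nonneg _)
      · exact le_rfl
    rw [e]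
    rcases le_total (a.V P l) (b.V P l) with h | h
    · have hF : a.F P l ≤ b.F P l := by
        rw [Line.F, Line.F]
        linarith [Real.log_le_log (Line.max_V_pos (L := a) (P := P) l) (max_le_max_right P.fl h)]
      refine le_trans ?_ (le_add_of_nonneg_right (hnn b a ob))
      rw [hf, topF, max_eq_right hF, if_pos h,
        show Φ (a.F P l) * a.δ l - Φ (b.F P l) * b.δ l - Φ (b.F P l) * (a.δ l - b.δ l) =
          (Φ (a.F P l) - Φ (b.F P l)) * a.δ l by ring, abs_mul]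
      have := mul_le_mul (hL (a.F P l) (b.F P l)) (Line.abs_δ_le (P := P) oa hl1)
        (abs_nonneg _) (mul_nonneg hLp (abs_nonneg _))
      linarith
    · have hF : b.F P l ≤ a.F P l := by
        rw [Line.F, Line.F]
        linarith [Real.log_le_log (Line.max_V_pos (L := b) (P := P) l) (max_le_max_right P.fl h)]
      refine le_trans ?_ (le_add_of_nonneg_left (hnn a b oa))
      rw [hf, topF, max_eq_left hF, if_pos h,
        show Φ (a.F P l) * a.δ l - Φ (b.F P l) * b.δ l - Φ (a.F P l) * (a.δ l - b.δ l) =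
          (Φ (a.F P l) - Φ (b.F P l)) * b.δ l by ring, abs_mul]
      have := mul_le_mul (hL (a.F P l) (b.F P l)) (Line.abs_δ_le (P := P) ob hl1)
        (abs_nonneg _) (mul_nonneg hLp (abs_nonneg _))
      rw [abs_sub_comm (a.F P l)] at this
      linarith
  have e0 : a.part P Φ - b.part P Φ - Φ (f J) * (a.x0 - b.x0) =
      (∑ l ∈ Finset.Icc 1 (J - 1), Φ (a.F P l) * a.δ l - Φ (f J) * (a.x0 - a.q (J - 1))) -
      (∑ l ∈ Finset.Icc 1 (J - 1), Φ (b.F P l) * b.δ l - Φ (f J) * (b.x0 - b.q (J - 1))) +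
      ∑ l ∈ Finset.Icc J P.N,
        (Φ (a.F P l) * a.δ l - Φ (b.F P l) * b.δ l - Φ (f l) * (D (l - 1) - D l)) +
      (∑ l ∈ Finset.Ico J P.N, (Φ (f (l + 1)) - Φ (f l)) * D l - Φ (f P.N) * D P.N) := by
    have h := sum_by_parts (fun l => Φ (f l)) D hJN
    simp only [sum_sub_distrib]
    rw [hsplit a, hsplit b, h]
    simp only [hD]
    ring
  have hG := (N.gates_le oa ob hp B hba hbb)
  have hG' := (N.symm.gates_le ob oa hp B hbb hba)
  rw [abs_sub_comm (b.q (J - 1))] at hG'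
  have hT := N.telescope_le oa ob hp B hba hbb
  have hBl := N.below_le oa ob B hba hbb
  have hBl' := N.symm.below_le ob oa B hbb hba
  rw [abs_sub_comm (b.q (J - 1)), topF_comm P b a] at hBl'
  have hta : |D P.N| ≤ κ * d * a.A P.N := by
    have hN1 : 1 ≤ P.N := by omega
    have hN2 : P.N ∈ Finset.Icc J P.N := mem_Icc.2 ⟨hJN, le_rfl⟩
    simp only [hD]
    rw [a.q_eq_m hN1 (oa.hgχ _ oa.hgN), b.q_eq_m hN1 (ob.hgχ _ ob.hgN)]
    exact (N.hm _ hN2).trans (mul_le_mul_of_nonneg_left (min_le_left _ _) hκd.le)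
  have hH' : H ≤ |a.x0 - b.x0| + 256 * κ * d * W := by
    have ha := Line.low_le oa hba (show 1 ≤ J by omega) hJN
    have hb := Line.low_le ob hbb (show 1 ≤ J by omega) hJN
    have hr := mul_le_mul_of_nonneg_right N.hrd hW.le
    have key : ∀ L : Line, L.Ok P.N → |L.x0 - L.q (J - 1)| ≤ L.low P (J - 1) := fun L oL => by
      rw [L.x0_sub_q]
      exact (abs_sum_le_sum_abs _ _).trans
        (sum_le_sum fun l hl => Line.abs_δ_le (P := P) oL (mem_Icc.1 hl).1)
    have := key a oa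
    have := key b ob
    have e1 : D (J - 1) = (a.x0 - b.x0) - (a.x0 - a.q (J - 1)) + (b.x0 - b.q (J - 1)) := by
      simp only [hD]; ring
    have := abs_add_le ((a.x0 - b.x0) - (a.x0 - a.q (J - 1))) (b.x0 - b.q (J - 1))
    have := abs_sub (a.x0 - b.x0) (a.x0 - a.q (J - 1))
    rw [hH, e1]
    linarith
  rw [e0]
  refine (abs_add_three _ _ _).trans ?_
  refine (add_le_add (add_le_add ((abs_sub _ _).trans (add_le_add (hlow a oa) (hlow b ob)))
    ((abs_sum_le_sum_abs _ _).trans (sum_le_sum hga)))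
    ((abs_sub _ _).trans (add_le_add ((abs_sum_le_sum_abs _ _).trans
      (sum_le_sum (g := fun l => Lp * ((f l - f (l + 1)) * |D l|)) fun l hl => ?_))
      (show |Φ (f P.N) * D P.N| ≤ κ * d * a.A P.N by
        rw [abs_mul]
        exact (mul_le_of_le_one_left (abs_nonneg _) (h1 _)).trans hta)))).trans ?_
  · obtain ⟨h2, h3⟩ := mem_Ico.1 hl
    rw [abs_mul, ← mul_assoc]
    refine mul_le_mul_of_nonneg_right ((hL _ _).trans (le_of_eq ?_)) (abs_nonneg _)
    rw [abs_sub_comm, abs_of_nonneg (sub_nonneg.2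
      (topF_anti oa ob (P := P) (by omega) (Nat.le_succ l) h3))]
  rw [sum_add_distrib, ← mul_sum, ← mul_sum, ← mul_sum]
  simp only [← hE] at hG hG' hBl hBl' ⊢
  simp only [hD] at hH hH' ⊢
  rw [← hH] at hG hG' hT hBl hBl'
  have a1 := mul_le_mul_of_nonneg_left (add_le_add (add_le_add hG hG') (add_le_add hT
    (add_le_add hBl hBl'))) hLp
  have hdE : 0 ≤ d * E := mul_nonneg hd.le hE0
  have hκdW : 0 ≤ κ * d * W := by positivity
  have hH0 : 0 ≤ H := hH ▸ abs_nonneg _
  have k1 : Λ * (κ * d * W) ≤ Λ ^ 2 * (κ * d * W) :=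
    mul_le_mul_of_nonneg_right (le_self_pow₀ hΛ1 two_ne_zero) hκdW
  have k2 : H ≤ Λ * H := le_mul_of_one_le_left hH0 hΛ1
  have k3 := mul_le_mul_of_nonneg_left hH' (show 0 ≤ 65 * Λ by linarith)
  have k4 : d * E * 3 ≤ d * E * K := mul_le_mul_of_nonneg_left hK hdE
  have k5 : 0 ≤ Λ ^ 2 * (κ * d * W) := mul_nonneg (sq_nonneg Λ) hκdW
  have a2 := mul_le_mul_of_nonneg_left (show
    16 * Λ * H + 700 * κ * Λ ^ 2 * d * W + 4 * K * d * E +
      (16 * Λ * H + 700 * κ * Λ ^ 2 * d * W + 4 * K * d * E) +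
      (Λ * H + 12 * κ * Λ * d * W + (16 * H + 2100 * κ * Λ * d * W + 4 * d * E +
        (16 * H + 2100 * κ * Λ * d * W + 4 * d * E))) ≤
      65 * Λ * |a.x0 - b.x0| + 24000 * κ * Λ ^ 2 * d * W + 16 * K * d * E by linarith) hLp
  linarith

end Near

end Vale.Agent.P249.Core
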