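import Vale.Agent.P249.Core.Config

/-!
Norm bounds for the lines of all coordinates of a point.
-/

namespace Vale.Agent.P249.Core

open Finset
open Dim (nm pw)

namespace NormsAux

variable {κ : Type*} [Fintype κ] {p : ℝ}

/-- The norm is monotone on nonnegative vectors. -/
lemma nm_mono (hp : 0 < p) {v w : κ → ℝ} (hv : ∀ c, 0 ≤ v c) (h : ∀ c, v c ≤ w c) :
    nm p v ≤ nm p w :=
  Real.rpow_le_rpow (Dim.pw_nonneg v) (sum_le_sum fun c _ => Real.rpow_le_rpow (abs_nonneg _)
    (by rw [abs_of_nonneg (hv c)]; exact (h c).trans (le_abs_self _)) hp.le) (by positivity)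

lemma nm_abs (v : κ → ℝ) : nm p (fun c => |v c|) = nm p v := by simp [Dim.nm, Dim.pw]

lemma nm_mul_left (hp : 0 < p) {a : ℝ} (ha : 0 ≤ a) (v : κ → ℝ) :
    nm p (fun c => a * v c) = a * nm p v := by
  rw [show (fun c => a * v c) = a • v from rfl, Dim.nm_smul hp, abs_of_nonneg ha]

lemma nm_sum_fun_le (hp : 1 ≤ p) {α : Type*} (s : Finset α) (v : α → κ → ℝ) :
    nm p (fun c => ∑ a ∈ s, v a c) ≤ ∑ a ∈ s, nm p (v a) := by
  rw [show (fun c => ∑ a ∈ s, v a c) = ∑ a ∈ s, v a from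
    funext fun c => (Finset.sum_apply c s v).symm]
  exact Dim.nm_sum_le hp s v

lemma nm_add_fun_le (hp : 1 ≤ p) (v w : κ → ℝ) :
    nm p (fun c => v c + w c) ≤ nm p v + nm p w :=
  Dim.nm_add_le hp v w

/-- A vector of root sums of powers. -/
lemma nm_root (hp : 0 < p) {f : κ → ℝ} (hf : ∀ c, 0 ≤ f c) :
    nm p (fun c => f c ^ (1 / p)) = (∑ c, f c) ^ (1 / p) := by
  rw [Dim.nm, Dim.pw]
  congr 1
  refine sum_congr rfl fun c _ => ?_
  rw [abs_of_nonneg (Real.rpow_nonneg (hf c) _), ← Real.rpow_mul (hf c),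
    one_div_mul_cancel hp.ne', Real.rpow_one]

end NormsAux

open NormsAux

/-- Larger bounds on the sizes are bounds too. -/
lemma Line.Bounded.mono {L : Line} {P : Scale} {p W W' K : ℝ} (h : L.Bounded P p W K) (hp : 0 ≤ p)
    (hK : 0 ≤ K) (hW : W ≤ W') : L.Bounded P p W' K where
  hW := h.hW.trans_le hW
  hX l hl := (h.hX l hl).trans hW
  hB := h.hB.trans (Real.rpow_le_rpow (by linarith [h.hW]) (by linarith) hp)
  hU := h.hU.trans (mul_le_mul_of_nonneg_left hW hK)

namespace Config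

variable {ι κ : Type*} [Fintype ι] [Fintype κ] {S : Geo ι κ} (C : Config S)

private lemma scale_r_eq (c : κ) (l : ℕ) : (C.scale c).r l = S.rad l := rfl

private lemma K_pos : 0 < C.K := lt_of_lt_of_le (by norm_num) C.hK

private lemma chi_nonneg (i : ι) (l : ℕ) : 0 ≤ chiOf S.p C.K (S.growth l i) :=
  chiOf_nonneg C.hK

private lemma chi_le_one (i : ι) (l : ℕ) : chiOf S.p C.K (S.growth l i) ≤ 1 :=
  chiOf_le_one S.hp.le C.hK

private lemma lineE_nonneg (i : ι) (c : κ) (l : ℕ) : 0 ≤ (C.line i c).E l :=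
  mul_nonneg C.he.le (S.window_nonneg _ _ _ _)

private lemma lineχ_nonneg (i : ι) (c : κ) (l : ℕ) : 0 ≤ (C.line i c).χ l := C.chi_nonneg i l

private lemma lineχ_le_one (i : ι) (c : κ) (l : ℕ) : (C.line i c).χ l ≤ 1 := C.chi_le_one i l

private lemma lineB_nonneg (i : ι) (c : κ) (l : ℕ) : 0 ≤ (C.line i c).B (C.scale c) l :=
  add_nonneg (S.spread_nonneg l i c) (Line.Z_nonneg l)

private lemma lineX_nonneg (i : ι) (c : κ) (l : ℕ) : 0 ≤ (C.line i c).X (C.scale c) l :=
  add_nonneg (mul_nonneg (C.chi_nonneg i l) (C.lineB_nonneg i c l)) (C.lineE_nonneg i c l)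

private lemma sum_Icc_growth_le (b : ℕ) (i : ι) :
    ∑ l ∈ Icc 1 b, S.growth l i ≤ 4000 * (S.k : ℝ) := by
  refine le_trans (sum_le_sum_of_subset_of_nonneg ?_ fun l _ _ => S.growth_nonneg l i)
    (S.sum_growth_le (b + 1) i)
  intro l hl
  exact mem_range.2 (by have := (mem_Icc.1 hl).2; omega)

private lemma growth_le (l : ℕ) (i : ι) : S.growth l i ≤ 4000 * (S.k : ℝ) :=
  le_trans (single_le_sum (fun u _ => S.growth_nonneg u i) (mem_range.2 (Nat.lt_succ_self l)))
    (S.sum_growth_le (l + 1) i)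

private lemma e_bound : C.e * ((C.T : ℝ) + 3) ^ 2 * (2 ^ C.T * (S.k : ℝ) ^ 2) ≤ 1 / 4 := by
  have h := C.he1
  rw [pow_add] at h
  linarith

private lemma e_small : 2 * C.e * ((C.T : ℝ) + 3) ^ 2 * (S.k : ℝ) ≤ 1 / 2 := by
  have hk : (1 : ℝ) ≤ S.k := by exact_mod_cast S.hk
  have h1 : (S.k : ℝ) ≤ 2 ^ C.T * (S.k : ℝ) ^ 2 :=
    (le_self_pow₀ hk two_ne_zero).trans
      (le_mul_of_one_le_left (by positivity) (one_le_pow₀ one_le_two))
  have h2 := mul_le_mul_of_nonneg_left h1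
    (mul_nonneg C.he.le (sq_nonneg ((C.T : ℝ) + 3)))
  linarith [C.e_bound]

private lemma e_small_growth (l : ℕ) (i : ι) :
    2 * C.e * ((C.T : ℝ) + 3) ^ 2 * S.growth l i ≤ 2 * C.K := by
  have hk : (1 : ℝ) ≤ S.k := by exact_mod_cast S.hk
  have hK := C.K_pos
  have he := C.he
  have h1 := mul_le_mul_of_nonneg_left (growth_le (S := S) l i)
    (show 0 ≤ 2 * C.e * ((C.T : ℝ) + 3) ^ 2 by positivity)
  have h2 : 4000 * (S.k : ℝ) * Real.exp 1 ≤ (C.T : ℝ) * C.K := (div_le_iff₀ hK).1 C.hT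
  have h3 : (4000 : ℝ) * S.k ≤ 2 ^ C.T * C.K := by
    refine le_trans ?_ (le_trans h2 (mul_le_mul_of_nonneg_right ?_ hK.le))
    · exact le_mul_of_one_le_right (by positivity) (Real.one_le_exp one_pos.le)
    · exact_mod_cast (Nat.lt_two_pow_self (n := C.T)).le
  -- multiply by the power of two and compare
  have h4 : 2 * C.e * ((C.T : ℝ) + 3) ^ 2 * (4000 * S.k) * 2 ^ C.T ≤ 2000 := by
    have h5 : (S.k : ℝ) ≤ (S.k : ℝ) ^ 2 := le_self_pow₀ hk two_ne_zero
    have h6 := mul_le_mul_of_nonneg_left h5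
      (show 0 ≤ C.e * ((C.T : ℝ) + 3) ^ 2 * 2 ^ C.T by positivity)
    linarith [C.e_bound]
  refine h1.trans (le_of_mul_le_mul_right (h4.trans ?_) (pow_pos two_pos C.T))
  linarith

/-- The chain of a point stays near the point. -/
lemma nm_qdiff_le (i : ι) (l : ℕ) :
    nm S.p (fun c => S.x i c - (C.line i c).q l) ≤ S.rad l * S.growth l i := by
  induction l with
  | zero =>
    have h : (fun c => S.x i c - (C.line i c).q 0) = fun _ => (0 : ℝ) :=
      funext fun c => sub_self _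
    rw [h, Dim.nm_zero S.p_pos]
    exact mul_nonneg (S.rad_pos 0).le (S.growth_nonneg 0 i)
  | succ l ih =>
    set χ := chiOf S.p C.K (S.growth (l + 1) i) with hχ
    have h0 : 0 ≤ χ := C.chi_nonneg i (l + 1)
    have h1 : χ ≤ 1 := C.chi_le_one i (l + 1)
    have e : (fun c => S.x i c - (C.line i c).q (l + 1)) =
        fun c => (1 - χ) * (S.x i c - (C.line i c).q l) + χ * (S.x i c - S.mean (l + 1) i c) := by
      funext c
      rw [Line.q_succ, show (C.line i c).χ (l + 1) = χ from rfl,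
        show (C.line i c).m (l + 1) = S.mean (l + 1) i c from rfl]
      ring
    rw [e]
    refine (nm_add_fun_le S.hp.le _ _).trans ?_
    rw [nm_mul_left S.p_pos (sub_nonneg.2 h1), nm_mul_left S.p_pos h0]
    have h2 := mul_le_mul_of_nonneg_left
      (ih.trans (S.rad_mul_growth_mono (Nat.le_succ l) i)) (sub_nonneg.2 h1)
    have h3 := mul_le_mul_of_nonneg_left (S.nm_self_sub_mean_le (l + 1) i) h0
    linarith

/-- The main part of the size of a level. -/
lemma nm_B_le (i : ι) {l : ℕ} (_hl : 1 ≤ l) :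
    nm S.p (fun c => (C.line i c).B (C.scale c) l) ≤ 3 * S.growth l i := by
  have hr := S.rad_pos l
  have e : (fun c => (C.line i c).B (C.scale c) l) =
      fun c => S.spread l i c + |(C.line i c).q (l - 1) - S.mean l i c| / S.rad l := rfl
  rw [e]
  refine (nm_add_fun_le S.hp.le _ _).trans ?_
  rw [S.nm_div hr, nm_abs]
  have h1 : nm S.p (fun c => (C.line i c).q (l - 1) - S.mean l i c) ≤
      2 * (S.rad l * S.growth l i) := by
    refine (Dim.nm_sub_le S.hp.le (fun c => (C.line i c).q (l - 1)) (S.x i)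
      (fun c => S.mean l i c)).trans ?_
    rw [Dim.nm_sub_comm]
    have h2 := (C.nm_qdiff_le i (l - 1)).trans (S.rad_mul_growth_mono (Nat.sub_le l 1) i)
    have h3 := S.nm_self_sub_mean_le l i
    simp only [Pi.sub_def] at h2 h3 ⊢
    linarith
  have h4 : nm S.p (fun c => (C.line i c).q (l - 1) - S.mean l i c) / S.rad l ≤
      2 * S.growth l i := by
    rw [div_le_iff₀ hr]
    linarith
  linarith [S.nm_spread_le l i]

/-- The window term of a level. -/
lemma nm_E_le (i : ι) (l : ℕ) :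
    nm S.p (fun c => (C.line i c).E l) ≤ 2 * C.e * ((C.T : ℝ) + 3) ^ 2 * S.growth l i := by
  have e : (fun c => (C.line i c).E l) = fun c => C.e * S.window C.W l i c := rfl
  rw [e, nm_mul_left S.p_pos C.he.le]
  have hW : (C.W : ℝ) + 1 = (C.T : ℝ) + 3 := by simp [W]; ring
  have h := mul_le_mul_of_nonneg_left (S.nm_window_le C.W l i) C.he.le
  rw [hW] at h
  linarith

private lemma nm_X_le_aux (i : ι) {l : ℕ} (hl : 1 ≤ l) :
    nm S.p (fun c => (C.line i c).X (C.scale c) l) ≤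
      chiOf S.p C.K (S.growth l i) * (3 * S.growth l i) +
        2 * C.e * ((C.T : ℝ) + 3) ^ 2 * S.growth l i := by
  have e : (fun c => (C.line i c).X (C.scale c) l) =
      fun c => chiOf S.p C.K (S.growth l i) * (C.line i c).B (C.scale c) l + (C.line i c).E l :=
    rfl
  rw [e]
  refine (nm_add_fun_le S.hp.le _ _).trans (add_le_add ?_ (C.nm_E_le i l))
  rw [nm_mul_left S.p_pos (C.chi_nonneg i l)]
  exact mul_le_mul_of_nonneg_left (C.nm_B_le i hl) (C.chi_nonneg i l)

/-- The size of one level. -/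
lemma nm_X_le (i : ι) {l : ℕ} (hl : 1 ≤ l) :
    nm S.p (fun c => (C.line i c).X (C.scale c) l) ≤ 8 * C.K := by
  have h1 := chiOf_mul_le S.hp.le C.hK (S.growth_nonneg l i)
  have h2 := C.e_small_growth l i
  linarith [C.nm_X_le_aux i hl]

private lemma nm_tail_le (i : ι) :
    nm S.p (fun c => tail ((C.line i c).X (C.scale c)) C.N 1) ≤ 16000 * (S.k : ℝ) := by
  have hk : (1 : ℝ) ≤ S.k := by exact_mod_cast S.hk
  have he := C.he
  have hc : 2 * C.e * ((C.T : ℝ) + 3) ^ 2 ≤ 1 :=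
    le_trans (le_mul_of_one_le_right (by positivity) hk) (by linarith [C.e_small])
  calc _ ≤ ∑ l ∈ Icc 1 C.N, nm S.p (fun c => (C.line i c).X (C.scale c) l) :=
        nm_sum_fun_le S.hp.le _ _
    _ ≤ ∑ l ∈ Icc 1 C.N, 4 * S.growth l i := by
        refine sum_le_sum fun l hl => ?_
        have hG := S.growth_nonneg l i
        have h1 := mul_le_of_le_one_left (show 0 ≤ 3 * S.growth l i by linarith)
          (C.chi_le_one i l)
        have h2 := mul_le_of_le_one_left hG hc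
        linarith [C.nm_X_le_aux i (mem_Icc.1 hl).1]
    _ ≤ _ := by
        rw [← mul_sum]
        linarith [sum_Icc_growth_le (S := S) C.N i]

private lemma nm_sum_E_le (i : ι) :
    nm S.p (fun c => ∑ l ∈ Icc 1 C.N, (C.line i c).E l) ≤ 2000 := by
  refine (nm_sum_fun_le S.hp.le _ _).trans ?_
  refine (sum_le_sum fun l _ => C.nm_E_le i l).trans ?_
  rw [← mul_sum]
  have he := C.he
  refine (mul_le_mul_of_nonneg_left (sum_Icc_growth_le (S := S) C.N i) (by positivity)).trans ?_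
  linarith [C.e_small]

private lemma nm_root_sum_le (i : ι) :
    nm S.p (fun c => (∑ l ∈ Icc 1 C.N,
        (C.line i c).χ l * (C.line i c).B (C.scale c) l ^ S.p) ^ (1 / S.p)) ≤
      24000 * (C.K ^ (S.p - 1) * (S.k : ℝ)) ^ (1 / S.p) := by
  have hp := S.p_pos
  have hK := C.K_pos
  rw [nm_root hp fun c => sum_nonneg fun l _ =>
    mul_nonneg (C.lineχ_nonneg i c l) (Real.rpow_nonneg (C.lineB_nonneg i c l) _), sum_comm]
  have hlev : ∀ l ∈ Icc 1 C.N, ∑ c, (C.line i c).χ l * (C.line i c).B (C.scale c) l ^ S.p ≤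
      3 ^ S.p * ((2 * C.K) ^ (S.p - 1) * S.growth l i) := by
    intro l hl
    have hG := S.growth_nonneg l i
    have h1 : ∑ c, (C.line i c).B (C.scale c) l ^ S.p ≤ (3 * S.growth l i) ^ S.p := by
      have h := Real.rpow_le_rpow (Dim.nm_nonneg _) (C.nm_B_le i (mem_Icc.1 hl).1) hp.le
      rw [Dim.nm_rpow hp, Dim.pw] at h
      simpa [abs_of_nonneg, C.lineB_nonneg i _ l] using h
    calc _ = chiOf S.p C.K (S.growth l i) * ∑ c, (C.line i c).B (C.scale c) l ^ S.p := by
          rw [mul_sum]; rfl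
      _ ≤ chiOf S.p C.K (S.growth l i) * (3 * S.growth l i) ^ S.p :=
          mul_le_mul_of_nonneg_left h1 (C.chi_nonneg i l)
      _ = 3 ^ S.p * (chiOf S.p C.K (S.growth l i) * S.growth l i ^ S.p) := by
          rw [Real.mul_rpow (by norm_num) hG]; ring
      _ ≤ _ := mul_le_mul_of_nonneg_left (chiOf_mul_rpow_le S.hp.le C.hK hG) (by positivity)
  refine (Real.rpow_le_rpow (sum_nonneg fun l _ => sum_nonneg fun c _ =>
    mul_nonneg (C.chi_nonneg i l) (Real.rpow_nonneg (C.lineB_nonneg i c l) _))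
    (y := 24000 ^ S.p * (C.K ^ (S.p - 1) * (S.k : ℝ))) ?_ (by positivity)).trans (le_of_eq ?_)
  · refine (sum_le_sum hlev).trans ?_
    rw [← mul_sum, ← mul_sum]
    refine (mul_le_mul_of_nonneg_left (mul_le_mul_of_nonneg_left (sum_Icc_growth_le (S := S) C.N i)
      (by positivity)) (by positivity)).trans ?_
    rw [Real.mul_rpow (by norm_num) hK.le, show (24000 : ℝ) = 3 * 2 * 4000 by norm_num,
      Real.mul_rpow (x := (3 : ℝ) * 2) (by norm_num) (by norm_num),
      Real.mul_rpow (x := (3 : ℝ)) (by norm_num) (by norm_num)]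
    have h2 : (2 : ℝ) ^ (S.p - 1) ≤ 2 ^ S.p :=
      Real.rpow_le_rpow_of_exponent_le one_le_two (by linarith)
    have h4 : (4000 : ℝ) ≤ 4000 ^ S.p := Real.self_le_rpow_of_one_le (by norm_num) S.hp.le
    calc _ = 3 ^ S.p * 2 ^ (S.p - 1) * 4000 * (C.K ^ (S.p - 1) * (S.k : ℝ)) := by ring
      _ ≤ _ := by gcongr
  · rw [Real.mul_rpow (by positivity) (by positivity), ← Real.rpow_mul (by norm_num),
      mul_one_div_cancel hp.ne', Real.rpow_one]

/-- The bound on the sizes has a small norm. -/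
lemma nm_size_le {Kb : ℝ} (hKb : (S.k : ℝ) ≤ Kb) (i : ι) :
    nm S.p (fun c => C.size Kb i c) ≤
      48000 * (C.K ^ (S.p - 1) * (S.k : ℝ)) ^ (1 / S.p) + 20000 := by
  have hk : (1 : ℝ) ≤ S.k := by exact_mod_cast S.hk
  have hKb0 : 0 < Kb := by linarith
  simp only [size]
  refine (nm_add_fun_le S.hp.le _ _).trans ?_
  refine (add_le_add_left (nm_add_fun_le S.hp.le _ _) _).trans ?_
  refine (add_le_add_left (add_le_add_left (nm_add_fun_le S.hp.le _ _) _) _).trans ?_
  rw [nm_mul_left S.p_pos (by norm_num : (0 : ℝ) ≤ 2), S.nm_div hKb0]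
  have h1 := C.nm_root_sum_le i
  have h2 : nm S.p (fun c => tail ((C.line i c).X (C.scale c)) C.N 1) / Kb ≤ 16000 := by
    rw [div_le_iff₀ hKb0]
    linarith [C.nm_tail_le i]
  have h3 := C.nm_sum_E_le i
  have h4 : nm S.p (fun _ : κ => (1 / (Fintype.card κ : ℝ)) ^ (1 / S.p)) ≤ 1 := by
    rw [nm_root S.p_pos fun _ => by positivity, sum_const, card_univ, nsmul_eq_mul]
    refine Real.rpow_le_one (by positivity) ?_ (by have := S.p_pos; positivity)
    rw [mul_one_div]
    exact div_self_le_one _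
  linarith

/-- The bound on the sizes bounds the line. -/
lemma size_bounded {Kb : ℝ} (hKb : 3 ≤ Kb) (i : ι) (c : κ) :
    (C.line i c).Bounded (C.scale c) S.p (C.size Kb i c) Kb := by
  have hp := S.p_pos
  have hKb0 : 0 < Kb := by linarith
  set L := C.line i c with hL
  set P := C.scale c with hP
  set s := ∑ l ∈ Icc 1 C.N, L.χ l * L.B P l ^ S.p with hs
  have hsn : ∀ l ∈ Icc 1 C.N, 0 ≤ L.χ l * L.B P l ^ S.p := fun l _ =>
    mul_nonneg (C.chi_nonneg i l) (Real.rpow_nonneg (C.lineB_nonneg i c l) _)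
  have hs0 : 0 ≤ s := sum_nonneg hsn
  have hroot : 0 ≤ s ^ (1 / S.p) := Real.rpow_nonneg hs0 _
  have htail : 0 ≤ tail (L.X P) C.N 1 := tail_nonneg fun u _ => C.lineX_nonneg i c u
  have hEn : ∀ l ∈ Icc 1 C.N, 0 ≤ L.E l := fun l _ => C.lineE_nonneg i c l
  have hE0 : 0 ≤ ∑ l ∈ Icc 1 C.N, L.E l := sum_nonneg hEn
  have hlast : 0 < (1 / (Fintype.card κ : ℝ)) ^ (1 / S.p) := by
    have : 0 < Fintype.card κ := Fintype.card_pos_iff.2 ⟨c⟩
    positivity
  have hdiv : 0 ≤ tail (L.X P) C.N 1 / Kb := div_nonneg htail hKb0.le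
  have hsize : C.size Kb i c = 2 * s ^ (1 / S.p) + tail (L.X P) C.N 1 / Kb +
      ∑ l ∈ Icc 1 C.N, L.E l + (1 / (Fintype.card κ : ℝ)) ^ (1 / S.p) := rfl
  refine ⟨by rw [hsize]; linarith, fun l hl => ?_, ?_, ?_⟩
  · have hl' : l ∈ Icc 1 C.N := hl
    have h1 : L.χ l * L.B P l ≤ s ^ (1 / S.p) := by
      refine le_trans ?_ (Real.rpow_le_rpow (hsn l hl') (single_le_sum hsn hl') (by positivity))
      rw [Real.mul_rpow (C.lineχ_nonneg i c l) (Real.rpow_nonneg (C.lineB_nonneg i c l) _),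
        ← Real.rpow_mul (C.lineB_nonneg i c l), mul_one_div_cancel hp.ne', Real.rpow_one]
      refine mul_le_mul_of_nonneg_right ?_ (C.lineB_nonneg i c l)
      refine Real.self_le_rpow_of_le_one (C.lineχ_nonneg i c l) (C.lineχ_le_one i c l) ?_
      exact (div_le_one hp).2 S.hp.le
    have h2 : L.E l ≤ ∑ u ∈ Icc 1 C.N, L.E u := single_le_sum hEn hl'
    rw [Line.X, hsize]
    linarith
  · refine le_trans (le_of_eq ?_) (Real.rpow_le_rpow hroot
      (show s ^ (1 / S.p) ≤ C.size Kb i c / 2 by rw [hsize]; linarith) hp.le)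
    rw [← Real.rpow_mul hs0, one_div_mul_cancel hp.ne', Real.rpow_one]
    rfl
  · have h : tail (L.X P) C.N 1 / Kb ≤ C.size Kb i c := by rw [hsize]; linarith
    rw [div_le_iff₀ hKb0, mul_comm] at h
    exact h

/-- The bounds of two points bound either line. -/
lemma size_bounded_of_le {Kb : ℝ} (hKb : 3 ≤ Kb) (i : ι) (c : κ) {W : ℝ}
    (hW : C.size Kb i c ≤ W) : (C.line i c).Bounded (C.scale c) S.p W Kb :=
  (C.size_bounded hKb i c).mono S.p_pos.le (by linarith) hW

/-- The changes of the window terms have a small norm. -/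
lemma nm_sum_eta_le (i j : ι) :
    nm S.p (fun c => ∑ l ∈ Icc 1 C.N, C.eta i j c l) ≤ 512000 / (S.k : ℝ) := by
  have hk : (1 : ℝ) ≤ S.k := by exact_mod_cast S.hk
  have he := C.he
  refine (nm_sum_fun_le S.hp.le _ _).trans ?_
  have hW : (C.W : ℝ) + 1 = (C.T : ℝ) + 3 := by simp [W]; ring
  have hlev : ∀ l ∈ Icc 1 C.N, nm S.p (fun c => C.eta i j c l) ≤
      32 * 2 ^ C.W * C.e * (2 * ((C.T : ℝ) + 3) ^ 2) * (S.growth l i + S.growth l j) := by
    intro l _
    simp only [eta]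
    rw [nm_mul_left S.p_pos (by positivity)]
    refine (mul_le_mul_of_nonneg_left ((nm_add_fun_le S.hp.le _ _).trans
      (add_le_add (S.nm_window_le C.W l i) (S.nm_window_le C.W l j))) (by positivity)).trans
      (le_of_eq ?_)
    rw [hW]
    ring
  refine (sum_le_sum hlev).trans ?_
  rw [← mul_sum, sum_add_distrib]
  refine (mul_le_mul_of_nonneg_left (add_le_add (sum_Icc_growth_le (S := S) C.N i)
    (sum_Icc_growth_le (S := S) C.N j)) (by positivity)).trans ?_
  rw [le_div_iff₀ (by linarith : (0 : ℝ) < S.k), W]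
  linarith [C.he1]

/-- The spread at the top level. -/
lemma nm_spread_top (i : ι) :
    nm S.p (fun c => (C.line i c).A C.N) ≤ 1 / (S.k : ℝ) :=
  (S.nm_spread_le C.N i).trans (C.hN i)

/-- The total size of the low levels. -/
lemma nm_low_le (i : ι) (b : ℕ) :
    nm S.p (fun c => ∑ l ∈ Icc 1 b, S.rad l * (C.line i c).X (C.scale c) l) ≤
      2 * S.rad b * (8 * C.K) := by
  refine (nm_sum_fun_le S.hp.le _ _).trans ?_
  have h : ∑ l ∈ Icc 1 b, S.rad l ≤ 2 * S.rad b := by
    rw [← S.rad_succ]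
    induction b with
    | zero => simpa using (S.rad_pos 1).le
    | succ b ih =>
      rw [sum_Icc_succ_top (show 1 ≤ b + 1 by omega), S.rad_succ (b + 1)]
      linarith
  refine le_trans ?_ (mul_le_mul_of_nonneg_right h (by linarith [C.hK]))
  rw [sum_mul]
  refine sum_le_sum fun l hl => ?_
  rw [nm_mul_left S.p_pos (S.rad_pos l).le]
  exact mul_le_mul_of_nonneg_left (C.nm_X_le i (mem_Icc.1 hl).1) (S.rad_pos l).le

end Config

end Vale.Agent.P249.Core
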