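import Vale.Agent.P249.Core.Lines
import Vale.Agent.P249.Core.Norms
import Vale.Agent.P249.Core.Combine

/-!
In every coordinate the selected part of a pair is the selected difference, up to an error that
is small in norm.
-/

namespace Vale.Agent.P249.Core.Config

open Finset
open Vale.Agent.P249.Dim (pw nm)
open Vale.Agent.P249.Core.NormsAux

variable {ι κ : Type*} [Fintype ι] [Fintype κ] {S : Geo ι κ} (C : Config S)

/-- The selected part of every point. -/
noncomputable def select (Φ : ℝ → ℝ) (i : ι) (c : κ) : ℝ := (C.line i c).part (C.scale c) Φ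

lemma select_close {Kb Λ : ℝ} {w0 : ℕ} (hB : ∀ c, Budget (C.scale c) Kb Λ w0)
    (hKb : (S.k : ℝ) ≤ Kb) {Φ : ℝ → ℝ} {Lp : ℝ} (hLp : 0 ≤ Lp) (h1 : ∀ x, |Φ x| ≤ 1)
    (hL : ∀ x y, |Φ x - Φ y| ≤ Lp * |x - y|) {i j : ι} {J : ℕ} (hJ : 2 ≤ J) (hJN : J ≤ C.N)
    (hdr : C.kap * S.dist i j ≤ S.rad J / 64) (hrd : S.rad J ≤ 128 * C.kap * S.dist i j)
    (hij : i ≠ j) :
    nm S.p (fun c => C.select Φ i c - C.select Φ j c -
      Φ (topF (C.scale c) (C.line i c) (C.line j c) J) * (S.x i c - S.x j c)) ≤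
      (Lp * (65 * Λ + 48000 * C.kap * Λ ^ 2 *
          (48000 * (C.K ^ (S.p - 1) * (S.k : ℝ)) ^ (1 / S.p) + 20000) +
          16 * Kb * (512000 / (S.k : ℝ))) + C.kap / (S.k : ℝ)) * S.dist i j := by
  classical
  have hp := S.hp.le
  have hp0 := S.p_pos
  have hd := C.dist_pos hij
  set d := S.dist i j with hd'
  have hκ : 0 ≤ C.kap := by linarith [C.kap_ge]
  have hk : (1:ℝ) ≤ S.k := by exact_mod_cast S.hk
  rcases isEmpty_or_nonempty κ with hκe | hκe
  · exfalso
    have : S.dist i j = 0 := by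
      rw [Geo.dist, Dim.nm, Dim.pw, Fintype.sum_empty, Real.zero_rpow (by positivity)]
    linarith
  have hΛ : 1 ≤ Λ := (hB hκe.some).one_le
  have hK3 : 3 ≤ Kb := (hB hκe.some).hK
  set Wc : κ → ℝ := fun c => C.size Kb i c + C.size Kb j c with hWc
  set Ec : κ → ℝ := fun c => ∑ l ∈ Finset.Icc 1 C.N, C.eta i j c l with hEc
  have hsize : ∀ a c, 0 ≤ C.size Kb a c := fun a c => (C.size_bounded hK3 a c).hW.le
  have hpt : ∀ c, |C.select Φ i c - C.select Φ j c -
      Φ (topF (C.scale c) (C.line i c) (C.line j c) J) * (S.x i c - S.x j c)| ≤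
      (Lp * (65 * Λ)) * |S.x i c - S.x j c| + (Lp * (24000 * C.kap * Λ ^ 2 * d)) * Wc c +
        ((Lp * (16 * Kb * d)) * Ec c + (C.kap * d) * (C.line i c).A C.N) := by
    intro c
    have h := (C.near hJ hJN hdr hrd hij c).part_sub_le (C.lineOk i c) (C.lineOk j c) hp (hB c)
      (C.size_bounded_of_le hK3 i c (le_add_of_nonneg_right (hsize j c)))
      (C.size_bounded_of_le hK3 j c (le_add_of_nonneg_left (hsize i c))) hLp h1 hL
    refine h.trans (le_of_eq ?_)
    simp only [hWc, hEc, ← hd']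
    show Lp * (65 * Λ * |S.x i c - S.x j c| + 24000 * C.kap * Λ ^ 2 * d * _ + 16 * Kb * d * _) +
      C.kap * d * _ = _
    ring_nf
    rfl
  rw [← nm_abs]
  refine (nm_mono hp0 (fun c => abs_nonneg _) hpt).trans ?_
  refine (nm_add_fun_le hp _ _).trans ?_
  refine (add_le_add (nm_add_fun_le hp _ _) (nm_add_fun_le hp _ _)).trans ?_
  have hKb0 : 0 ≤ Kb := by linarith
  rw [nm_mul_left hp0 (by positivity) (fun c => |S.x i c - S.x j c|),
    nm_mul_left hp0 (by positivity) Wc, nm_mul_left hp0 (by positivity) Ec,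
    nm_mul_left hp0 (by positivity) (fun c => (C.line i c).A C.N), nm_abs]
  have e1 : nm S.p (fun c => S.x i c - S.x j c) = d := rfl
  have h2 : nm S.p Wc ≤ 2 * (48000 * (C.K ^ (S.p - 1) * (S.k : ℝ)) ^ (1 / S.p) + 20000) :=
    (nm_add_fun_le hp _ _).trans (by linarith [C.nm_size_le hKb i, C.nm_size_le hKb j])
  have h3 := C.nm_sum_eta_le i j
  have h4 := C.nm_spread_top i
  rw [e1]
  have a2 := mul_le_mul_of_nonneg_left h2 (by positivity : 0 ≤ Lp * (24000 * C.kap * Λ ^ 2 * d))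
  have a3 := mul_le_mul_of_nonneg_left h3 (by positivity : 0 ≤ Lp * (16 * Kb * d))
  have a4 := mul_le_mul_of_nonneg_left h4 (by positivity : 0 ≤ C.kap * d)
  have e4 : C.kap * d * (1 / (S.k : ℝ)) = C.kap / (S.k : ℝ) * d := by ring
  rw [e4] at a4
  simp only [hEc] at a3 ⊢
  linarith

end Vale.Agent.P249.Core.Config
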