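import Vale.Agent.P249.Core.Kernel
import Mathlib.Analysis.Complex.ExponentialBounds

/-!
Rounded smoothed positions move little in the coordinates that are insensitive on the centres.
-/

namespace Vale.Agent.P249.Core

open Finset

namespace Geo

variable {ι κ : Type*} [Fintype ι] [Fintype κ] (S : Geo ι κ)

lemma far_nonneg (l : ℕ) (i : ι) : 0 ≤ S.far l i :=
  mul_nonneg (by positivity) (sum_nonneg fun z _ =>
    mul_nonneg (div_nonneg (S.dist_nonneg i z) (S.rad_pos l).le) (Real.exp_pos _).le)

lemma rad_mul_far_eq (l : ℕ) (i : ι) : S.rad l * S.far l i = (Fintype.card ι : ℝ) ^ 2 *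
    ∑ z, S.dist i z * Real.exp (-(max (S.dist i z / S.rad l) (8 * (S.k : ℝ)))) := by
  rw [far, mul_left_comm, mul_sum]
  congr 1
  refine sum_congr rfl fun z _ => ?_
  have := (S.rad_pos l).ne'
  field_simp

lemma rad_mul_far_mono {a b : ℕ} (h : a ≤ b) (i : ι) :
    S.rad a * S.far a i ≤ S.rad b * S.far b i := by
  rw [S.rad_mul_far_eq, S.rad_mul_far_eq]
  refine mul_le_mul_of_nonneg_left (sum_le_sum fun z _ =>
    mul_le_mul_of_nonneg_left ?_ (S.dist_nonneg i z)) (by positivity)
  refine Real.exp_le_exp.2 (neg_le_neg (max_le_max ?_ le_rfl))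
  exact div_le_div_of_nonneg_left (S.dist_nonneg i z) (S.rad_pos a) (S.rad_mono h)

lemma mul_exp_le_diff {t : ℝ} (ht : 0 ≤ t) :
    t * Real.exp (-t / 4) ≤ 32 * (t / (1 + t) - t / 2 / (1 + t / 2)) := by
  have h1 : 0 < 1 + t := by linarith
  have h2 : 0 < 1 + t / 2 := by linarith
  have e : t / (1 + t) - t / 2 / (1 + t / 2) = t / 2 / ((1 + t) * (1 + t / 2)) := by
    field_simp
    ring
  have h3 := Real.quadratic_le_exp_of_nonneg (x := t / 4) (by linarith)
  have h4 : (1 + t) * (1 + t / 2) ≤ 16 * Real.exp (t / 4) := by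
    nlinarith [mul_nonneg ht ht]
  rw [e, neg_div, Real.exp_neg, ← div_eq_mul_inv, ← mul_div_assoc,
    div_le_div_iff₀ (Real.exp_pos _) (by positivity)]
  nlinarith [mul_le_mul_of_nonneg_left h4 ht]

lemma sum_far_le (L : ℕ) (i : ι) : ∑ l ∈ Finset.range L, S.far l i ≤ 1 := by
  simp only [far, ← mul_sum]
  rw [sum_comm]
  set n : ℝ := (Fintype.card ι : ℝ) with hn
  set k : ℝ := (S.k : ℝ) with hk
  have hz : ∀ z, ∑ l ∈ Finset.range L,
      S.dist i z / S.rad l * Real.exp (-(max (S.dist i z / S.rad l) (8 * k))) ≤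
      32 * Real.exp (-(6 * k)) := by
    intro z
    set t : ℕ → ℝ := fun l => S.dist i z / S.rad l with ht
    have ht0 : ∀ l, 0 ≤ t l := fun l => div_nonneg (S.dist_nonneg i z) (S.rad_pos l).le
    have hts : ∀ l, t (l + 1) = t l / 2 := fun l => by
      simp only [ht, rad, pow_succ]
      rw [div_div, mul_assoc]
    calc ∑ l ∈ Finset.range L, t l * Real.exp (-(max (t l) (8 * k)))
        ≤ ∑ l ∈ Finset.range L,
          32 * Real.exp (-(6 * k)) * (t l / (1 + t l) - t (l + 1) / (1 + t (l + 1))) := by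
          refine sum_le_sum fun l _ => ?_
          have h1 : Real.exp (-(max (t l) (8 * k))) ≤
              Real.exp (-(6 * k)) * Real.exp (-t l / 4) := by
            rw [← Real.exp_add]
            refine Real.exp_le_exp.2 ?_
            linarith [le_max_left (t l) (8 * k), le_max_right (t l) (8 * k)]
          refine (mul_le_mul_of_nonneg_left h1 (ht0 l)).trans ?_
          rw [mul_left_comm, hts, mul_comm (32:ℝ), mul_assoc]
          exact mul_le_mul_of_nonneg_left (mul_exp_le_diff (ht0 l)) (Real.exp_pos _).le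
      _ = 32 * Real.exp (-(6 * k)) * (t 0 / (1 + t 0) - t L / (1 + t L)) := by
          rw [← mul_sum, Finset.sum_range_sub' (fun l => t l / (1 + t l))]
      _ ≤ 32 * Real.exp (-(6 * k)) := by
          refine mul_le_of_le_one_right (by positivity) ?_
          have h1 : t 0 / (1 + t 0) ≤ 1 := div_le_one_of_le₀ (by linarith) (by linarith [ht0 0])
          have h2 : 0 ≤ t L / (1 + t L) := div_nonneg (ht0 L) (by linarith [ht0 L])
          linarith
  calc n ^ 2 * ∑ z, ∑ l ∈ Finset.range L,
        S.dist i z / S.rad l * Real.exp (-(max (S.dist i z / S.rad l) (8 * k)))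
      ≤ n ^ 2 * ∑ _z : ι, 32 * Real.exp (-(6 * k)) :=
        mul_le_mul_of_nonneg_left (sum_le_sum fun z _ => hz z) (by positivity)
    _ = 32 * (n ^ 3 * Real.exp (-(6 * k))) := by
        rw [sum_const, card_univ, nsmul_eq_mul, ← hn]; ring
    _ ≤ 32 * ((8:ℝ) ^ S.k * Real.exp (-(6 * k))) := by
        refine mul_le_mul_of_nonneg_left (mul_le_mul_of_nonneg_right ?_ (Real.exp_pos _).le)
          (by norm_num)
        rw [show (8:ℝ) ^ S.k = ((2:ℝ) ^ S.k) ^ 3 by rw [← pow_mul, mul_comm, pow_mul]; norm_num]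
        refine pow_le_pow_left₀ (by positivity) ?_ 3
        rw [hn]; exact_mod_cast S.hn.le
    _ ≤ 1 := by
        have e6 : (256:ℝ) ≤ Real.exp 6 := by
          rw [show (6:ℝ) = (6:ℕ) * 1 by norm_num, Real.exp_nat_mul]
          exact le_trans (by norm_num)
            (pow_le_pow_left₀ (by norm_num) Real.exp_one_gt_d9.le 6)
        have h1 : (8:ℝ) ^ S.k * Real.exp (-(6 * k)) = (8 / Real.exp 6) ^ S.k := by
          rw [div_pow, ← Real.exp_nat_mul, Real.exp_neg, div_eq_mul_inv, hk, mul_comm (6:ℝ)]
        rw [h1]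
        have h2 : 8 / Real.exp 6 ≤ 1 / 32 := by
          rw [div_le_div_iff₀ (Real.exp_pos _) (by norm_num)]; linarith
        have h3 : (8 / Real.exp 6) ^ S.k ≤ 8 / Real.exp 6 :=
          pow_le_of_le_one (by positivity) (h2.trans (by norm_num))
            (by have := S.hk; omega)
        linarith

lemma pairs_le_of_coarse {tau : κ → ℝ} (htau : ∀ c, 0 ≤ tau c)
    (hctr : ∀ c z w, |S.x (S.ctr z) c - S.x (S.ctr w) c| ≤
      tau c * S.dist (S.ctr z) (S.ctr w))
    (hall : ∀ c z w, |S.x z c - S.x w c| ≤ (Fintype.card ι : ℝ) ^ 2 * tau c * S.dist z w)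
    {a b : ℕ} {i : ι} (ha : S.rM i ≤ 8 * (S.k : ℝ) * S.rad a)
    (hb : S.rM i ≤ 8 * (S.k : ℝ) * S.rad b) (c : κ) :
    S.pairs a b i c ≤ 40 * tau c *
      (S.rad a * (S.growth a i + S.far a i) + S.rad b * (S.growth b i + S.far b i)) := by
  classical
  set n : ℝ := (Fintype.card ι : ℝ) with hn
  set A : ℕ → ι → ℝ := fun l z => if S.rM z ≤ 16 * (S.k : ℝ) * S.rad l then 0 else n ^ 2 with hA
  set u : ℕ → ι → ℝ := fun l z => S.dist i (S.snap l z) with hu
  have hA0 : ∀ l z, 0 ≤ A l z := fun l z => by simp only [hA]; split_ifs <;> positivity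
  have hu0 : ∀ l z, 0 ≤ u l z := fun l z => S.dist_nonneg _ _
  -- one pair
  have hpair : ∀ z w, |S.x (S.snap a z) c - S.x (S.snap b w) c| ≤
      tau c * ((1 + A a z + A b w) * (u a z + u b w)) := by
    intro z w
    have hd : S.dist (S.snap a z) (S.snap b w) ≤ u a z + u b w := by
      simp only [hu]
      rw [S.dist_comm i (S.snap a z)]
      exact S.dist_tri _ i _
    have hs0 : 0 ≤ u a z + u b w := add_nonneg (hu0 a z) (hu0 b w)
    by_cases hz : S.rM z ≤ 16 * (S.k : ℝ) * S.rad a
    · by_cases hw : S.rM w ≤ 16 * (S.k : ℝ) * S.rad b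
      · have e1 : S.snap a z = S.ctr z := by rw [snap, if_pos hz]
        have e2 : S.snap b w = S.ctr w := by rw [snap, if_pos hw]
        have e3 : (1 + A a z + A b w) = 1 := by simp [hA, hz, hw]
        rw [e3, one_mul]
        refine (le_of_eq (by rw [e1, e2])).trans ((hctr c z w).trans ?_)
        rw [← e1, ← e2]
        exact mul_le_mul_of_nonneg_left hd (htau c)
      · have e3 : n ^ 2 ≤ 1 + A a z + A b w := by
          have := hA0 a z
          simp only [hA, if_neg hw] at this ⊢
          linarith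
        refine (hall c _ _).trans ?_
        rw [mul_comm (n ^ 2), mul_assoc]
        exact mul_le_mul_of_nonneg_left (mul_le_mul e3 hd (S.dist_nonneg _ _)
          (le_trans (by positivity) e3)) (htau c)
    · have e3 : n ^ 2 ≤ 1 + A a z + A b w := by
        have := hA0 b w
        simp only [hA, if_neg hz] at this ⊢
        linarith
      refine (hall c _ _).trans ?_
      rw [mul_comm (n ^ 2), mul_assoc]
      exact mul_le_mul_of_nonneg_left (mul_le_mul e3 hd (S.dist_nonneg _ _)
        (le_trans (by positivity) e3)) (htau c)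
  -- the four averages at one level
  have hlev : ∀ l, S.rM i ≤ 8 * (S.k : ℝ) * S.rad l →
      ∑ z, S.prob l i z * u l z ≤ S.rad l * S.growth l i ∧
      ∑ z, S.prob l i z * (A l z * u l z) ≤ S.rad l * S.far l i ∧
      ∑ z, S.prob l i z * A l z ≤ 1 := by
    intro l hl
    have hr := S.rad_pos l
    have hfar : ∀ z, ¬ S.rM z ≤ 16 * (S.k : ℝ) * S.rad l →
        8 * (S.k : ℝ) ≤ S.dist i z / S.rad l := by
      intro z hz
      rw [le_div_iff₀ hr]
      push Not at hz
      have := S.rM_lip z i
      rw [show Dim.nm S.p (S.x z - S.x i) = S.dist z i from rfl, S.dist_comm z i] at this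
      linarith
    have hrc : 0 ≤ S.roundCost l i := le_min (S.rM_nonneg i) (le_max_left _ _)
    refine ⟨?_, ?_, ?_⟩
    · calc ∑ z, S.prob l i z * u l z
          ≤ ∑ z, (3 * (S.prob l i z * S.dist i z) + 2 * S.roundCost l i * S.prob l i z) :=
            sum_le_sum fun z _ => by
              have := mul_le_mul_of_nonneg_left (S.snap_near l i z) (S.prob_nonneg l i z)
              simp only [hu]
              linarith
        _ = 3 * S.avgDist l i + 2 * S.roundCost l i := by
            rw [sum_add_distrib, ← mul_sum, ← mul_sum, S.prob_sum, mul_one]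
            rfl
        _ ≤ S.rad l * S.growth l i := by
            rw [growth, mul_div_cancel₀ _ hr.ne']
            have : 0 ≤ S.avgDist l i := sum_nonneg fun z _ =>
              mul_nonneg (S.prob_nonneg l i z) (S.dist_nonneg i z)
            linarith
    · rw [S.rad_mul_far_eq, mul_sum]
      refine sum_le_sum fun z _ => ?_
      simp only [hA, hu]
      split_ifs with hz
      · rw [zero_mul, mul_zero]
        exact mul_nonneg (by positivity) (mul_nonneg (S.dist_nonneg i z) (Real.exp_pos _).le)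
      · rw [snap, if_neg hz, max_eq_left (hfar z hz)]
        calc S.prob l i z * (n ^ 2 * S.dist i z)
            ≤ Real.exp (-(S.dist i z / S.rad l)) * (n ^ 2 * S.dist i z) :=
              mul_le_mul_of_nonneg_right (S.prob_le_exp l i z)
                (mul_nonneg (by positivity) (S.dist_nonneg i z))
          _ = _ := by rw [hn]; ring
    · calc ∑ z, S.prob l i z * A l z ≤ ∑ _z : ι, n ^ 2 * Real.exp (-(8 * (S.k : ℝ))) := by
            refine sum_le_sum fun z _ => ?_
            simp only [hA]
            split_ifs with hz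
            · rw [mul_zero]; positivity
            · rw [mul_comm]
              exact mul_le_mul_of_nonneg_left ((S.prob_le_exp l i z).trans
                (Real.exp_le_exp.2 (neg_le_neg (hfar z hz)))) (by positivity)
        _ = n ^ 3 * Real.exp (-(8 * (S.k : ℝ))) := by
            rw [sum_const, card_univ, nsmul_eq_mul, ← hn]; ring
        _ ≤ Real.exp (S.k : ℝ) ^ 3 * Real.exp (-(8 * (S.k : ℝ))) := by
            refine mul_le_mul_of_nonneg_right (pow_le_pow_left₀ (by positivity) ?_ 3)
              (Real.exp_pos _).le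
            calc n ≤ (2:ℝ) ^ S.k := by rw [hn]; exact_mod_cast S.hn.le
              _ ≤ Real.exp 1 ^ S.k :=
                  pow_le_pow_left₀ (by norm_num) (by linarith [Real.exp_one_gt_d9]) _
              _ = _ := by rw [← Real.exp_nat_mul, mul_one]
        _ ≤ 1 := by
            rw [← Real.exp_nat_mul, ← Real.exp_add, ← Real.exp_zero, Real.exp_le_exp]
            push_cast
            linarith [Nat.cast_nonneg (α := ℝ) S.k]
  obtain ⟨ua, Aua, Aa⟩ := hlev a ha
  obtain ⟨ub, Aub, Ab⟩ := hlev b hb
  have hsum : S.pairs a b i c ≤ tau c * ∑ z, ∑ w, S.prob a i z * S.prob b i w *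
      ((1 + A a z + A b w) * (u a z + u b w)) := by
    rw [pairs, mul_sum]
    refine sum_le_sum fun z _ => ?_
    rw [mul_sum]
    refine sum_le_sum fun w _ => ?_
    rw [mul_left_comm]
    exact mul_le_mul_of_nonneg_left (hpair z w)
      (mul_nonneg (S.prob_nonneg a i z) (S.prob_nonneg b i w))
  have hexp : ∑ z, ∑ w, S.prob a i z * S.prob b i w * ((1 + A a z + A b w) * (u a z + u b w)) =
      (∑ z, S.prob a i z * u a z) * (∑ w, S.prob b i w) +
      (∑ z, S.prob a i z) * (∑ w, S.prob b i w * u b w) +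
      (∑ z, S.prob a i z * (A a z * u a z)) * (∑ w, S.prob b i w) +
      (∑ z, S.prob a i z * A a z) * (∑ w, S.prob b i w * u b w) +
      (∑ z, S.prob a i z * u a z) * (∑ w, S.prob b i w * A b w) +
      (∑ z, S.prob a i z) * (∑ w, S.prob b i w * (A b w * u b w)) := by
    simp only [sum_mul_sum, ← sum_add_distrib]
    exact sum_congr rfl fun z _ => sum_congr rfl fun w _ => by ring
  rw [hexp, S.prob_sum, S.prob_sum, mul_one, one_mul, mul_one, one_mul] at hsum
  set Ua := ∑ z, S.prob a i z * u a z with hUa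
  set Ub := ∑ w, S.prob b i w * u b w with hUb
  have hUa0 : 0 ≤ Ua := sum_nonneg fun z _ => mul_nonneg (S.prob_nonneg a i z) (hu0 a z)
  have hUb0 : 0 ≤ Ub := sum_nonneg fun z _ => mul_nonneg (S.prob_nonneg b i z) (hu0 b z)
  have m1 := mul_le_of_le_one_left hUb0 Aa
  have m2 := mul_le_of_le_one_right hUa0 Ab
  have f1 : 0 ≤ S.rad a * S.far a i := mul_nonneg (S.rad_pos a).le (S.far_nonneg a i)
  have f2 : 0 ≤ S.rad b * S.far b i := mul_nonneg (S.rad_pos b).le (S.far_nonneg b i)
  refine hsum.trans ?_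
  rw [mul_comm (40:ℝ), mul_assoc]
  refine mul_le_mul_of_nonneg_left ?_ (htau c)
  linarith

end Geo

end Vale.Agent.P249.Core
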