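import Vale.Agent.P249.Dim.Basic
import Mathlib.Analysis.Convex.SpecificFunctions.Basic

/-!
Two vectors close to complementary multiples of a vector share its norm.
-/

namespace Vale.Agent.P249.Core

open Finset
open Vale.Agent.P249.Dim (pw nm)

lemma rpow_sub_rpow_le {p a b : ℝ} (hp : 1 ≤ p) (hb : 0 ≤ b) (hba : b ≤ a) :
    a ^ p - b ^ p ≤ p * a ^ (p - 1) * (a - b) := by
  rcases eq_or_lt_of_le (hb.trans hba) with ha | ha
  · obtain rfl : b = 0 := le_antisymm (ha ▸ hba) hb
    simp [← ha]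
  have h := one_add_mul_self_le_rpow_one_add (s := b / a - 1)
    (by linarith [div_nonneg hb ha.le]) hp
  rw [show 1 + (b / a - 1) = b / a by ring, Real.div_rpow hb ha.le,
    le_div_iff₀ (Real.rpow_pos_of_pos ha p)] at h
  have e : a ^ p = a ^ (p - 1) * a := by
    rw [← Real.rpow_add_one ha.ne']; ring_nf
  rw [e] at h ⊢
  have e2 : (1 + p * (b / a - 1)) * (a ^ (p - 1) * a) =
      a ^ (p - 1) * a + p * a ^ (p - 1) * (b - a) := by field_simp
  rw [e2] at h
  linarith

lemma abs_rpow_sub_le {p a b R : ℝ} (hp : 1 ≤ p) (ha : 0 ≤ a) (hb : 0 ≤ b) (haR : a ≤ R)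
    (hbR : b ≤ R) : |a ^ p - b ^ p| ≤ p * R ^ (p - 1) * |a - b| := by
  rcases le_total b a with h | h
  · rw [abs_of_nonneg (sub_nonneg.2 (Real.rpow_le_rpow hb h (by linarith))),
      abs_of_nonneg (sub_nonneg.2 h)]
    exact (rpow_sub_rpow_le hp hb h).trans (mul_le_mul_of_nonneg_right (mul_le_mul_of_nonneg_left
      (Real.rpow_le_rpow ha haR (by linarith)) (by linarith)) (by linarith))
  · rw [abs_sub_comm, abs_of_nonneg (sub_nonneg.2 (Real.rpow_le_rpow ha h (by linarith))),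
      abs_sub_comm a b, abs_of_nonneg (sub_nonneg.2 h)]
    exact (rpow_sub_rpow_le hp ha h).trans (mul_le_mul_of_nonneg_right (mul_le_mul_of_nonneg_left
      (Real.rpow_le_rpow hb hbR (by linarith)) (by linarith)) (by linarith))

variable {κ : Type*} [Fintype κ] {p : ℝ}

/-- If `U` and `Y` are `δ`-close to complementary multiples of `v` then their norms add up. -/
lemma combination_pw (hp : 1 ≤ p) {U Y v θ θ' : κ → ℝ} {d δ e : ℝ} (hv : nm p v = d)
    (hθ : ∀ c, |θ c| ≤ 1) (hθ' : ∀ c, |θ' c| ≤ 1)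
    (hsum : ∀ c, |(|θ c| ^ p + |θ' c| ^ p - 1)| ≤ e) (hδ0 : 0 ≤ δ) (hδ1 : δ ≤ 1)
    (hU : nm p (fun c => U c - θ c * v c) ≤ δ * d)
    (hY : nm p (fun c => Y c - θ' c * v c) ≤ δ * d) :
    |pw p U + pw p Y - pw p v| ≤ (2 * p * (2:ℝ) ^ (p - 1) * δ + e) * pw p v := by
  have hp0 : 0 < p := by linarith
  have hd : 0 ≤ d := hv ▸ Dim.nm_nonneg v
  have hpd : pw p v = d ^ p := by rw [← hv, Dim.nm_rpow hp0]
  have key : ∀ W φ : κ → ℝ, (∀ c, |φ c| ≤ 1) → nm p (fun c => W c - φ c * v c) ≤ δ * d →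
      |pw p W - pw p (fun c => φ c * v c)| ≤ p * (2:ℝ) ^ (p - 1) * δ * pw p v := by
    intro W φ hφ hW
    have hB : nm p (fun c => φ c * v c) ≤ d := by
      refine Dim.nm_le hp0 hd ?_
      rw [← hpd]
      refine sum_le_sum fun c _ => Real.rpow_le_rpow (abs_nonneg _) ?_ hp0.le
      rw [abs_mul]
      exact mul_le_of_le_one_left (abs_nonneg _) (hφ c)
    have h1 := Dim.nm_sub_le hp W (fun c => φ c * v c) (0 : κ → ℝ)
    have h2 := Dim.nm_sub_le hp (fun c => φ c * v c) W (0 : κ → ℝ)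
    simp only [sub_zero] at h1 h2
    rw [Dim.nm_sub_comm (fun c => φ c * v c) W] at h2
    have e1 : nm p (W - fun c => φ c * v c) ≤ δ * d := hW
    have hδd : δ * d ≤ d := mul_le_of_le_one_left hd hδ1
    have hA : nm p W ≤ 2 * d := by linarith
    rw [← Dim.nm_rpow hp0 W, ← Dim.nm_rpow hp0 (fun c => φ c * v c)]
    refine (abs_rpow_sub_le hp (Dim.nm_nonneg _) (Dim.nm_nonneg _) hA (by linarith)).trans ?_
    rw [hpd, Real.mul_rpow two_pos.le hd]
    rcases eq_or_lt_of_le hd with h0 | h0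
    · have : |nm p W - nm p (fun c => φ c * v c)| = 0 := by
        rw [abs_eq_zero]
        subst h0
        linarith [Dim.nm_nonneg (p := p) W, Dim.nm_nonneg (p := p) fun c => φ c * v c]
      rw [this, mul_zero]
      positivity
    · have e2 : d ^ p = d ^ (p - 1) * d := by
        rw [← Real.rpow_add_one h0.ne']; ring_nf
      rw [e2]
      have h3 : |nm p W - nm p (fun c => φ c * v c)| ≤ δ * d := abs_le.2 ⟨by linarith, by linarith⟩
      refine (mul_le_mul_of_nonneg_left h3 (by positivity)).trans (le_of_eq (by ring))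
  have h4 : |pw p (fun c => θ c * v c) + pw p (fun c => θ' c * v c) - pw p v| ≤ e * pw p v := by
    simp only [pw, ← sum_add_distrib, ← sum_sub_distrib, mul_sum]
    refine (abs_sum_le_sum_abs _ _).trans (sum_le_sum fun c _ => ?_)
    rw [abs_mul, abs_mul, Real.mul_rpow (abs_nonneg _) (abs_nonneg _),
      Real.mul_rpow (abs_nonneg _) (abs_nonneg _),
      show |θ c| ^ p * |v c| ^ p + |θ' c| ^ p * |v c| ^ p - |v c| ^ p =
        (|θ c| ^ p + |θ' c| ^ p - 1) * |v c| ^ p by ring, abs_mul,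
      abs_of_nonneg (Real.rpow_nonneg (abs_nonneg (v c)) p)]
    exact mul_le_mul_of_nonneg_right (hsum c) (Real.rpow_nonneg (abs_nonneg _) p)
  have k1 := key U θ hθ hU
  have k2 := key Y θ' hθ' hY
  have h5 := abs_add_three (pw p U - pw p (fun c => θ c * v c))
    (pw p Y - pw p (fun c => θ' c * v c))
    (pw p (fun c => θ c * v c) + pw p (fun c => θ' c * v c) - pw p v)
  rw [show pw p U - pw p (fun c => θ c * v c) + (pw p Y - pw p (fun c => θ' c * v c)) +
    (pw p (fun c => θ c * v c) + pw p (fun c => θ' c * v c) - pw p v) =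
      pw p U + pw p Y - pw p v by ring] at h5
  linarith

end Vale.Agent.P249.Core
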