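import Mathlib.Analysis.SpecialFunctions.Pow.Real
import Mathlib.Analysis.MeanInequalitiesPow
import Mathlib.Analysis.Complex.ExponentialBounds
import Mathlib.Analysis.Convex.SpecificFunctions.Basic
import Mathlib.Tactic.Linarith

/-!
The weights and clock factors of a level as functions of its growth, and the two ramps of the gate.
-/

namespace Vale.Agent.P249.Core

/-- The weight of a level of growth `G` at threshold `K`. -/
noncomputable def chiOf (p K G : ℝ) : ℝ := (2 * K / max G (2 * K)) ^ p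

/-- The clock factor of a level of growth `G` at threshold `K`. -/
noncomputable def gOf (K G : ℝ) : ℝ :=
  1 / 2 + 1 / 2 * max 0 (min 1 (1 + Real.log (max G (K / Real.exp 1) / K)))

section
variable {p K G G' : ℝ} (hp : 1 ≤ p) (hK : 4 ≤ K)
include hp hK

omit hp in
lemma chiOf_nonneg : 0 ≤ chiOf p K G :=
  Real.rpow_nonneg (div_nonneg (by linarith)
    (le_trans (by linarith) (le_max_right G (2 * K)))) p

lemma chiOf_le_one : chiOf p K G ≤ 1 := by
  have h : (0:ℝ) < max G (2 * K) := lt_max_of_lt_right (by linarith)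
  exact Real.rpow_le_one (div_nonneg (by linarith) h.le)
    ((div_le_one h).2 (le_max_right _ _)) (by linarith)

omit hp in
lemma chiOf_eq_one (h : G ≤ 2 * K) : chiOf p K G = 1 := by
  rw [chiOf, max_eq_right h, div_self (by linarith), Real.one_rpow]

lemma chiOf_mul_rpow_le (hG : 0 ≤ G) : chiOf p K G * G ^ p ≤ (2 * K) ^ (p - 1) * G := by
  have hsplit : ∀ t : ℝ, 0 ≤ t → t ^ p = t ^ (p - 1) * t := fun t ht => by
    rw [← Real.rpow_add_one' ht (by linarith)]
    congr 1
    ring
  rcases le_total G (2 * K) with h | h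
  · rw [chiOf_eq_one hK h, one_mul, hsplit G hG]
    exact mul_le_mul_of_nonneg_right (Real.rpow_le_rpow hG h (by linarith)) hG
  · rw [chiOf, max_eq_left h, ← Real.mul_rpow (div_nonneg (by linarith) hG) hG,
      div_mul_cancel₀ _ (by linarith : G ≠ 0), hsplit _ (by linarith)]
    exact mul_le_mul_of_nonneg_left h (Real.rpow_nonneg (by linarith) _)

lemma chiOf_mul_le (hG : 0 ≤ G) : chiOf p K G * G ≤ 2 * K := by
  rcases le_total G (2 * K) with h | h
  · rw [chiOf_eq_one hK h, one_mul]; exact h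
  · have hG0 : 0 < G := by linarith
    rw [chiOf, max_eq_left h]
    refine (mul_le_mul_of_nonneg_right (Real.rpow_le_self_of_le_one (div_nonneg (by linarith) hG)
      ((div_le_one hG0).2 h) hp) hG).trans ?_
    rw [div_mul_cancel₀ _ hG0.ne']

omit hp hK in
lemma gOf_ge : 1 / 2 ≤ gOf K G := by
  rw [gOf]
  linarith [le_max_left (0:ℝ) (min 1 (1 + Real.log (max G (K / Real.exp 1) / K)))]

omit hp hK in
lemma gOf_le_one : gOf K G ≤ 1 := by
  rw [gOf]
  linarith [max_le (zero_le_one' ℝ) (min_le_left 1 (1 + Real.log (max G (K / Real.exp 1) / K)))]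

omit hp in
lemma gOf_lt_one_of_lt (h : G < K) : gOf K G < 1 := by
  have hK0 : 0 < K := by linarith
  have hm : max G (K / Real.exp 1) < K := max_lt h
    (div_lt_self hK0 (Real.one_lt_exp_iff.2 one_pos))
  have hm0 : 0 < max G (K / Real.exp 1) := lt_max_of_lt_right (div_pos hK0 (Real.exp_pos 1))
  have h1 : Real.log (max G (K / Real.exp 1) / K) < 0 :=
    Real.log_neg (div_pos hm0 hK0) ((div_lt_one hK0).2 hm)
  rw [gOf]
  have : max 0 (min 1 (1 + Real.log (max G (K / Real.exp 1) / K))) < 1 :=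
    max_lt one_pos ((min_le_right _ _).trans_lt (by linarith))
  linarith

omit hp in
lemma gOf_eq_half (h : G ≤ K / Real.exp 1) : gOf K G = 1 / 2 := by
  rw [gOf, max_eq_right h, div_right_comm, div_self (by linarith), one_div (Real.exp 1),
    Real.log_inv, Real.log_exp, add_neg_cancel, min_eq_right (zero_le_one' ℝ), max_self, mul_zero,
    add_zero]

omit hp in
lemma lt_of_gOf_lt (h : gOf K G < 1) : G < K := by
  by_contra hne
  push Not at hne
  have hK0 : 0 < K := by linarith
  have h1 : 0 ≤ Real.log (max G (K / Real.exp 1) / K) :=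
    Real.log_nonneg ((one_le_div hK0).2 (hne.trans (le_max_left _ _)))
  rw [gOf, min_eq_left (by linarith), max_eq_right (zero_le_one' ℝ)] at h
  norm_num at h

omit hp in
lemma chiOf_eq_one_of_gOf_lt (h : gOf K G < 1) : chiOf p K G = 1 :=
  chiOf_eq_one hK (by linarith [lt_of_gOf_lt hK h])

variable {v : ℝ} (hG : 0 ≤ G) (hG' : 0 ≤ G') (hv0 : 0 ≤ v) (hv : p * v ≤ 1 / 64)
  (hd : |G - G'| ≤ v * (min G G' + 1))
include hG hG' hv0 hv hd

lemma chiOf_eq_one_of_near (h : gOf K G < 1) : chiOf p K G' = 1 := by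
  refine chiOf_eq_one hK ?_
  have h1 := lt_of_gOf_lt hK h
  have h2 := (abs_le.1 hd).1
  have h3 : v ≤ 1 / 64 := (le_mul_of_one_le_left hv0 hp).trans hv
  have h4 : v * (min G G' + 1) ≤ 1 / 64 * (G + 1) :=
    mul_le_mul h3 (by linarith [min_le_left G G']) (by linarith [le_min hG hG']) (by norm_num)
  linarith

omit hG hG' in
/-- One side of the Lipschitz bound for the weights. -/
lemma chiOf_lip_aux (hMM : max G (2 * K) ≤ max G' (2 * K)) :
    0 ≤ chiOf p K G - chiOf p K G' ∧
      chiOf p K G - chiOf p K G' ≤ 4 * p * v * chiOf p K G' := by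
  set M := max G (2 * K) with hM
  set M' := max G' (2 * K) with hM'
  have h2K : 2 * K ≤ M := le_max_right _ _
  have hM0 : 0 < M := by linarith
  have hM'0 : 0 < M' := lt_of_lt_of_le hM0 hMM
  have hdiff : M' - M ≤ v * (2 * M) := by
    have h1 := (le_abs_self (M' - M)).trans (abs_max_sub_max_le_abs G' G (2 * K))
    rw [abs_sub_comm] at h1
    refine (h1.trans hd).trans (mul_le_mul_of_nonneg_left ?_ hv0)
    linarith [min_le_left G G', le_max_left G (2 * K)]
  have hz : 0 ≤ 2 * v * p := by positivity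
  have hratio : (M' / M) ^ p ≤ 1 + 4 * p * v := by
    have h1 : M' / M ≤ Real.exp (2 * v) := by
      refine le_trans ?_ (Real.add_one_le_exp _)
      rw [div_le_iff₀ hM0]
      linarith
    refine (Real.rpow_le_rpow (div_nonneg hM'0.le hM0.le) h1 (by linarith)).trans ?_
    rw [← Real.exp_mul]
    have h2 := mul_le_mul_of_nonneg_left (Real.add_one_le_exp (-(2 * v * p)))
      (Real.exp_pos (2 * v * p)).le
    rw [← Real.exp_add, add_neg_cancel, Real.exp_zero] at h2
    nlinarith [Real.exp_pos (2 * v * p)]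
  have e : chiOf p K G = chiOf p K G' * (M' / M) ^ p := by
    rw [chiOf, chiOf, ← hM, ← hM', ← Real.mul_rpow (div_nonneg (by linarith) hM'0.le)
      (div_nonneg hM'0.le hM0.le), div_mul_div_cancel₀ hM'0.ne']
  have hone : 1 ≤ (M' / M) ^ p := Real.one_le_rpow ((one_le_div hM0).2 hMM) (by linarith)
  have hc := chiOf_nonneg (p := p) (G := G') hK
  rw [e]
  constructor
  · linarith [le_mul_of_one_le_right hc hone]
  · linarith [mul_le_mul_of_nonneg_left hratio hc]

omit hG hG' in
lemma chiOf_lip : |chiOf p K G - chiOf p K G'| ≤ 8 * p * v * min (chiOf p K G) (chiOf p K G') := by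
  have hc := chiOf_nonneg (p := p) (G := G) hK
  have hc' := chiOf_nonneg (p := p) (G := G') hK
  have hpv : 0 ≤ p * v := mul_nonneg (by linarith) hv0
  rcases le_total (max G (2 * K)) (max G' (2 * K)) with h | h
  · obtain ⟨h1, h2⟩ := chiOf_lip_aux hp hK hv0 hv hd h
    rw [abs_of_nonneg h1, min_eq_right (by linarith)]
    linarith [mul_nonneg hpv hc']
  · obtain ⟨h1, h2⟩ := chiOf_lip_aux (G := G') (G' := G) hp hK hv0 hv
      (by rwa [abs_sub_comm, min_comm]) h
    rw [abs_sub_comm, abs_of_nonneg h1, min_eq_left (by linarith)]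
    linarith [mul_nonneg hpv hc]

omit hp hG hG' hv in
lemma gOf_lip : |gOf K G - gOf K G'| ≤ 4 * v := by
  have hK0 : 0 < K := by linarith
  set A := max G (K / Real.exp 1) with hA
  set A' := max G' (K / Real.exp 1) with hA'
  have he : 1 ≤ K / Real.exp 1 := by
    rw [one_le_div (Real.exp_pos 1)]
    linarith [Real.exp_one_lt_d9]
  have hA1 : 1 ≤ A := he.trans (le_max_right _ _)
  have hA'1 : 1 ≤ A' := he.trans (le_max_right _ _)
  have hlog : |Real.log (A / K) - Real.log (A' / K)| ≤ 2 * v := by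
    rw [Real.log_div (by linarith) hK0.ne', Real.log_div (by linarith) hK0.ne',
      sub_sub_sub_cancel_right]
    have hab := (abs_max_sub_max_le_abs G G' (K / Real.exp 1)).trans hd
    rw [← hA, ← hA'] at hab
    have hmin : min G G' + 1 ≤ 2 * min A A' := by
      have : min G G' ≤ min A A' := min_le_min (le_max_left _ _) (le_max_left _ _)
      linarith [le_min hA1 hA'1]
    have hb := hab.trans (mul_le_mul_of_nonneg_left hmin hv0)
    obtain ⟨hb1, hb2⟩ := abs_le.1 hb
    rw [abs_le]
    constructor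
    · have h1 := Real.log_le_sub_one_of_pos (div_pos (by linarith : 0 < A') (by linarith : 0 < A))
      rw [Real.log_div (by linarith) (by linarith)] at h1
      have h2 : A' / A ≤ 1 + 2 * v := by
        rw [div_le_iff₀ (by linarith)]
        linarith [mul_le_mul_of_nonneg_left (min_le_left A A') hv0]
      linarith
    · have h1 := Real.log_le_sub_one_of_pos (div_pos (by linarith : 0 < A) (by linarith : 0 < A'))
      rw [Real.log_div (by linarith) (by linarith)] at h1
      have h2 : A / A' ≤ 1 + 2 * v := by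
        rw [div_le_iff₀ (by linarith)]
        linarith [mul_le_mul_of_nonneg_left (min_le_right A A') hv0]
      linarith
  rw [gOf, gOf, ← hA, ← hA', add_sub_add_left_eq_sub, ← mul_sub, abs_mul,
    abs_of_pos (by norm_num : (0:ℝ) < 1 / 2)]
  have h1 : |max 0 (min 1 (1 + Real.log (A / K))) - max 0 (min 1 (1 + Real.log (A' / K)))| ≤
      2 * v := by
    refine (abs_max_sub_max_le_max _ _ _ _).trans (max_le (by simp; linarith) ?_)
    refine (abs_min_sub_min_le_max _ _ _ _).trans (max_le (by simp; linarith) ?_)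
    rw [add_sub_add_left_eq_sub]
    exact hlog
  linarith [abs_nonneg
    (max 0 (min 1 (1 + Real.log (A / K))) - max 0 (min 1 (1 + Real.log (A' / K))))]

end

/-- Two ramps whose `p`-th powers nearly add up to one. -/
theorem exists_ramp {p : ℝ} (hp : 1 ≤ p) {e : ℝ} (he : 0 < e) :
    ∃ (φ ψ : ℝ → ℝ) (Lp η : ℝ), 0 < η ∧ η ≤ 1 / 4 ∧ 0 ≤ Lp ∧
      (∀ t, |φ t| ≤ 1 ∧ |ψ t| ≤ 1) ∧
      (∀ s t, |φ s - φ t| ≤ Lp * |s - t| ∧ |ψ s - ψ t| ≤ Lp * |s - t|) ∧
      (∀ t, t ≤ η → φ t = 0) ∧ (∀ t, 1 - η ≤ t → ψ t = 0) ∧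
      (∀ t, |(|φ t| ^ p + |ψ t| ^ p - 1)| ≤ e) := by
  have hp0 : 0 < p := by linarith
  have hq0 : 0 < 1 / p := by positivity
  have hq1 : 1 / p ≤ 1 := (div_le_one hp0).2 hp
  set D := p * (2:ℝ) ^ p with hD
  have hD1 : 0 < D := by positivity
  set a := min 1 (e / (2 * D)) with ha
  have ha0 : 0 < a := lt_min one_pos (by positivity)
  have ha1 : a ≤ 1 := min_le_left _ _
  have hae : D * a ≤ e / 2 := by
    have := mul_le_mul_of_nonneg_left (min_le_right 1 (e / (2 * D))) hD1.le
    rw [← ha] at this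
    refine this.trans (le_of_eq ?_)
    field_simp
  set c := a ^ p with hc
  have hc0 : 0 < c := Real.rpow_pos_of_pos ha0 p
  have hcq : c ^ (1 / p) = a := by
    rw [hc, ← Real.rpow_mul ha0.le, mul_one_div, div_self hp0.ne', Real.rpow_one]
  set f : ℝ → ℝ := fun s => (s + c) ^ (1 / p) - a with hf
  have hfnn : ∀ s, 0 ≤ s → 0 ≤ f s := fun s hs => by
    have := Real.rpow_le_rpow hc0.le (le_add_of_nonneg_left hs) hq0.le
    rw [hcq] at this
    simp only [hf]
    linarith
  have hfup : ∀ s, 0 ≤ s → f s ≤ s ^ (1 / p) := fun s hs => by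
    have := Real.rpow_add_le_add_rpow hs hc0.le hq0.le hq1
    rw [hcq] at this
    simp only [hf]
    linarith
  have hflip : ∀ s t, 0 ≤ t → t ≤ s → f s - f t ≤ a / c * (s - t) := by
    intro s t ht hts
    have htc : 0 < t + c := by linarith
    have h1 : 1 ≤ (s + c) / (t + c) := (one_le_div htc).2 (by linarith)
    have h2 := Real.rpow_le_self_of_one_le h1 hq1
    rw [Real.div_rpow (by linarith) htc.le, div_le_div_iff₀ (Real.rpow_pos_of_pos htc _) htc] at h2
    have h3 : (t + c) ^ (1 / p) / (t + c) ≤ a / c := by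
      have h4 : (t + c) ^ (1 / p - 1) ≤ c ^ (1 / p - 1) :=
        Real.rpow_le_rpow_of_nonpos hc0 (by linarith) (by linarith)
      rwa [Real.rpow_sub htc, Real.rpow_sub hc0, Real.rpow_one, Real.rpow_one, hcq] at h4
    refine le_trans ?_ (mul_le_mul_of_nonneg_right h3 (sub_nonneg.2 hts))
    simp only [hf]
    rw [div_mul_eq_mul_div, le_div_iff₀ htc]
    linarith
  have hfabs : ∀ s t, 0 ≤ s → 0 ≤ t → |f s - f t| ≤ a / c * |s - t| := by
    intro s t hs ht
    have hmono : ∀ s t, 0 ≤ t → t ≤ s → f t ≤ f s := fun s t ht hts =>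
      sub_le_sub_right (Real.rpow_le_rpow (by linarith) (by linarith) hq0.le) a
    rcases le_total t s with h | h
    · rw [abs_of_nonneg (sub_nonneg.2 (hmono s t ht h)), abs_of_nonneg (sub_nonneg.2 h)]
      exact hflip s t ht h
    · rw [abs_sub_comm, abs_sub_comm s t, abs_of_nonneg (sub_nonneg.2 (hmono t s hs h)),
        abs_of_nonneg (sub_nonneg.2 h)]
      exact hflip t s hs h
  have hfpow : ∀ s, 0 ≤ s → s ≤ 1 → f s ^ p ≤ s ∧ s - e / 2 ≤ f s ^ p := by
    intro s hs hs1
    refine ⟨(Real.rpow_le_rpow (hfnn s hs) (hfup s hs) hp0.le).trans (le_of_eq ?_), ?_⟩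
    · rw [← Real.rpow_mul hs, one_div_mul_cancel hp0.ne', Real.rpow_one]
    set x := (s + c) ^ (1 / p) with hx
    have hxe : x = f s + a := by simp [hx, hf]
    have hx0 : 0 < x := Real.rpow_pos_of_pos (by linarith) _
    have hxp : x ^ p = s + c := by
      rw [hx, ← Real.rpow_mul (by linarith), one_div_mul_cancel hp0.ne', Real.rpow_one]
    have hx2 : x ≤ 2 := by
      have := (hfup s hs).trans (Real.rpow_le_one hs hs1 hq0.le)
      linarith
    have hy := hfnn s hs
    have hb := one_add_mul_self_le_rpow_one_add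
      (show -1 ≤ f s / x - 1 by linarith [div_nonneg hy hx0.le]) hp
    rw [add_sub_cancel, Real.div_rpow hy hx0.le, le_div_iff₀ (Real.rpow_pos_of_pos hx0 _)] at hb
    have hsl : x ^ p / x ≤ 2 ^ p := by
      rw [← Real.rpow_sub_one hx0.ne']
      exact (Real.rpow_le_rpow hx0.le hx2 (by linarith)).trans
        (Real.rpow_le_rpow_of_exponent_le one_le_two (by linarith))
    have e1 : (1 + p * (f s / x - 1)) * x ^ p = x ^ p - p * (x ^ p / x) * a := by
      rw [hxe]
      have : f s + a ≠ 0 := by linarith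
      field_simp
      ring
    have h5 : p * (x ^ p / x) * a ≤ D * a :=
      mul_le_mul_of_nonneg_right (mul_le_mul_of_nonneg_left hsl hp0.le) ha0.le
    rw [e1, hxp] at hb
    linarith [hxp ▸ h5]
  set θ : ℝ → ℝ := fun t => max 0 (min 1 ((t - 1 / 4) * 2)) with hθ
  have hθ0 : ∀ t, 0 ≤ θ t := fun t => le_max_left _ _
  have hθ1 : ∀ t, θ t ≤ 1 := fun t => max_le zero_le_one (min_le_left _ _)
  have hθlip : ∀ s t, |θ s - θ t| ≤ 2 * |s - t| := by
    intro s t
    refine (abs_max_sub_max_le_max _ _ _ _).trans (max_le (by simp) ?_)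
    refine (abs_min_sub_min_le_max _ _ _ _).trans (max_le (by simp) (le_of_eq ?_))
    rw [← sub_mul, sub_sub_sub_cancel_right, abs_mul, abs_two, mul_comm]
  have hac : 0 ≤ a / c := div_nonneg ha0.le hc0.le
  refine ⟨fun t => f (θ t), fun t => f (1 - θ t), a / c * 2, 1 / 4, by norm_num, le_rfl,
    by positivity, fun t => ?_, fun s t => ?_, fun t ht => ?_, fun t ht => ?_, fun t => ?_⟩
  · have h0 : ∀ u, 0 ≤ u → u ≤ 1 → |f u| ≤ 1 := fun u hu hu1 => by
      rw [abs_of_nonneg (hfnn u hu)]
      exact (hfup u hu).trans (Real.rpow_le_one hu hu1 hq0.le)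
    exact ⟨h0 _ (hθ0 t) (hθ1 t), h0 _ (by linarith [hθ1 t]) (by linarith [hθ0 t])⟩
  · constructor
    · refine (hfabs _ _ (hθ0 s) (hθ0 t)).trans ?_
      rw [mul_assoc]
      exact mul_le_mul_of_nonneg_left (hθlip s t) hac
    · refine (hfabs _ _ (by linarith [hθ1 s]) (by linarith [hθ1 t])).trans ?_
      rw [mul_assoc, sub_sub_sub_cancel_left, abs_sub_comm]
      exact mul_le_mul_of_nonneg_left (hθlip s t) hac
  · show f (θ t) = 0
    rw [show θ t = 0 from max_eq_left ((min_le_right _ _).trans (by linarith))]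
    simp only [hf, zero_add, hcq, sub_self]
  · have : θ t = 1 := by
      simp only [hθ]
      rw [min_eq_left (by linarith), max_eq_right zero_le_one]
    show f (1 - θ t) = 0
    rw [this, sub_self]
    simp only [hf, zero_add, hcq, sub_self]
  · obtain ⟨h1, h2⟩ := hfpow _ (hθ0 t) (hθ1 t)
    obtain ⟨h3, h4⟩ := hfpow (1 - θ t) (by linarith [hθ1 t]) (by linarith [hθ0 t])
    rw [abs_of_nonneg (hfnn _ (hθ0 t)), abs_of_nonneg (hfnn _ (by linarith [hθ1 t])), abs_le]
    constructor <;> linarith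

end Vale.Agent.P249.Core
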