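import Vale.Agent.P249.Core.Line

/-!
Sums along the gate of one line.
-/

namespace Vale.Agent.P249.Core.Line

open Finset

/-- The relative size of a level at the gate. -/
noncomputable def pr (L : Line) (P : Scale) (l : ℕ) : ℝ := L.Xs P l / max (L.V P l) P.fl

/-- The total size of the levels below. -/
noncomputable def low (L : Line) (P : Scale) (l : ℕ) : ℝ := ∑ t ∈ Finset.Icc 1 l, P.r t * L.X P t

/-- Uniform bounds for the sizes of one line. -/
structure Bounded (L : Line) (P : Scale) (p W K : ℝ) : Prop where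
  hW : 0 < W
  hX : ∀ l ∈ Finset.Icc 1 P.N, L.X P l ≤ W
  hB : ∑ l ∈ Finset.Icc 1 P.N, L.χ l * L.B P l ^ p ≤ (W / 2) ^ p
  hU : tail (L.X P) P.N 1 ≤ K * W

variable {L : Line} {P : Scale}

lemma sum_r_le (P : Scale) (J : ℕ) : ∑ t ∈ Finset.Icc 1 J, P.r t ≤ P.r (J + 1) := by
  induction J with
  | zero => simp [(P.r_pos 1).le]
  | succ J ih =>
    rw [sum_Icc_succ_top (show 1 ≤ J + 1 by omega), P.r_succ (J + 1)]
    linarith

lemma sum_weighted_r_le (P : Scale) (J : ℕ) :
    ∑ t ∈ Finset.Icc 1 J, (((J + 1 - t : ℕ) : ℝ)) * P.r t ≤ 2 * P.r (J + 1) := by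
  induction J with
  | zero => simpa using (P.r_pos 1).le
  | succ J ih =>
    have h1 : ∀ t ∈ Finset.Icc 1 J, (((J + 1 + 1 - t : ℕ) : ℝ)) * P.r t =
        (((J + 1 - t : ℕ) : ℝ)) * P.r t + P.r t := by
      intro t ht
      rw [Nat.succ_sub (by have := mem_Icc.1 ht; omega), Nat.cast_succ]
      ring
    rw [sum_Icc_succ_top (show 1 ≤ J + 1 by omega), sum_congr rfl h1, sum_add_distrib,
      P.r_succ (J + 1)]
    have := sum_r_le P J
    simp only [Nat.add_sub_cancel_left, Nat.cast_one, one_mul]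
    linarith

section
variable (ok : L.Ok P.N)
include ok

lemma low_nonneg (l : ℕ) : 0 ≤ L.low P l :=
  sum_nonneg fun t _ => mul_nonneg (P.r_pos t).le (X_nonneg ok t)

lemma low_mono {a b : ℕ} (h : a ≤ b) : L.low P a ≤ L.low P b :=
  sum_le_sum_of_subset_of_nonneg (Icc_subset_Icc_right h) fun t _ _ =>
    mul_nonneg (P.r_pos t).le (X_nonneg ok t)

lemma r_mul_mem_le {l : ℕ} (hl : l ≤ P.N) : P.r l * L.mem P l ≤ L.w P l * L.low P l := by
  induction l with
  | zero => simp [mem, low]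
  | succ l ih =>
    have h1 := ih (by omega)
    have hw := w_succ (P := P) ok (show l < P.N by omega)
    have hg := ok.hg1 (l + 1)
    have hg0 := g_pos ok (l + 1)
    rw [mem_of_pos (show 1 ≤ l + 1 by omega), Nat.add_sub_cancel, low,
      sum_Icc_succ_top (show 1 ≤ l + 1 by omega), ← low]
    refine (mul_le_mul_of_nonneg_left (min_le_right _ _) (P.r_pos _).le).trans ?_
    have h2 := mul_le_mul_of_nonneg_left h1 (mul_pos hg0 hg0).le
    have h3 : L.g (l + 1) * (L.w P (l + 1) * L.low P l) ≤ L.w P (l + 1) * L.low P l :=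
      mul_le_of_le_one_left (mul_nonneg (w_pos ok _).le (low_nonneg ok l)) hg
    have e1 : L.g (l + 1) * (L.w P (l + 1) * L.low P l) =
        2 * (L.g (l + 1) * L.g (l + 1) * (L.w P l * L.low P l)) := by rw [← hw]; ring
    rw [Xs, P.r_succ]
    linarith

lemma low_le {p W K : ℝ} (hb : L.Bounded P p W K) {J : ℕ} (h1 : 1 ≤ J) (hJ : J ≤ P.N) :
    L.low P (J - 1) ≤ P.r J * W := by
  obtain ⟨j, rfl⟩ := Nat.exists_eq_add_of_le' h1
  rw [Nat.add_sub_cancel, low]
  refine le_trans ?_ (mul_le_mul_of_nonneg_right (sum_r_le P j) hb.hW.le)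
  rw [sum_mul]
  exact sum_le_sum fun t ht => mul_le_mul_of_nonneg_left
    (hb.hX t (mem_Icc.2 ⟨(mem_Icc.1 ht).1, by have := (mem_Icc.1 ht).2; omega⟩)) (P.r_pos t).le

lemma mem_low {l j : ℕ} (hl : 1 ≤ l) (hlj : l ≤ j) :
    (1 / 4) ^ (j - l) * min P.cap (L.Xs P l) ≤ L.mem P j := by
  induction j, hlj using Nat.le_induction with
  | base =>
    rw [Nat.sub_self, pow_zero, one_mul, mem_of_pos hl]
    exact min_le_min_left _ (le_add_of_nonneg_right (Xs_add_nonneg ok l))
  | succ j hlj ih =>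
    rw [mem_of_pos (show 1 ≤ j + 1 by omega), Nat.add_sub_cancel, Nat.succ_sub hlj, pow_succ']
    have h0 : 0 ≤ min P.cap (L.Xs P l) := le_min P.cap_pos.le (Xs_nonneg ok l)
    refine le_min ?_ ?_
    · refine le_trans ?_ (min_le_left P.cap (L.Xs P l))
      refine mul_le_of_le_one_left h0 ?_
      rw [← pow_succ']
      exact pow_le_one₀ (by norm_num) (by norm_num)
    · refine le_trans ?_ (le_add_of_nonneg_left (Xs_nonneg ok _))
      rw [mul_assoc]
      exact mul_le_mul (sq_g_ge ok (j + 1)) ih (mul_nonneg (by positivity) h0) (sq_nonneg _)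

lemma V_low {l J : ℕ} (hl : 1 ≤ l) (hlJ : l < J) :
    P.σ * (1 / 4) ^ (J - l) * min P.cap (L.Xs P l) ≤ L.V P J := by
  obtain ⟨j, rfl⟩ := Nat.exists_eq_add_of_le' (show 1 ≤ J by omega)
  have h0 : 0 ≤ min P.cap (L.Xs P l) := le_min P.cap_pos.le (Xs_nonneg ok l)
  have h1 := mem_low (P := P) ok hl (show l ≤ j by omega)
  rw [V, Nat.add_sub_cancel]
  refine le_min ?_ (le_add_of_nonneg_of_le (U_nonneg ok _) ?_)
  · refine le_trans ?_ (min_le_left P.cap (L.Xs P l))
    refine mul_le_of_le_one_left h0 ?_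
    exact mul_le_one₀ P.hσ1 (by positivity) (pow_le_one₀ (by norm_num) (by norm_num))
  · rw [show j + 1 - l = (j - l) + 1 by omega, pow_succ', mul_assoc, mul_assoc]
    refine mul_le_mul_of_nonneg_left ?_ P.hσ.le
    exact mul_le_mul (sq_g_ge ok (j + 1)) h1 (mul_nonneg (by positivity) h0) (sq_nonneg _)

lemma pr_nonneg (l : ℕ) : 0 ≤ L.pr P l := div_nonneg (Xs_nonneg ok l) (max_V_pos l).le

lemma U_le_V {l : ℕ} (h : L.U P l < P.cap) : L.U P l ≤ L.V P l := by
  simpa [min_eq_right h.le] using min_U_le_V ok l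

lemma sum_pr_le (s : ℕ) :
    ∑ l ∈ (Finset.Icc s P.N).filter (fun l => L.U P l < P.cap), L.pr P l ≤ 2 + P.h := by
  have h1 := sum_div_max_le (Xs_nonneg ok (P := P)) P.N s P.hfl P.fl_le_cap
  rw [P.log_cap, show Real.log P.fl + P.h - Real.log P.fl = P.h by ring] at h1
  refine le_trans ?_ h1
  refine (sum_le_sum fun l hl => ?_).trans (sum_le_sum_of_subset_of_nonneg ?_ fun l _ _ =>
    div_nonneg (Xs_nonneg ok l) (le_trans P.hfl.le (le_max_right _ _)))
  · exact div_le_div_of_nonneg_left (Xs_nonneg ok l) (lt_max_of_lt_right P.hfl)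
      (max_le_max_right P.fl (U_le_V ok (mem_filter.1 hl).2))
  · intro l hl
    obtain ⟨h2, h3⟩ := mem_filter.1 hl
    exact mem_filter.2 ⟨h2, h3.le⟩

lemma sum_pr_sig {p W K : ℝ} (hb : L.Bounded P p W K) {τ : ℝ} (hτ : 0 < τ) (hτW : τ ≤ K * W)
    {s : ℕ} (hs : 1 ≤ s) :
    ∑ l ∈ (Finset.Icc s P.N).filter (fun l => L.U P l < P.cap ∧ τ ≤ tail (L.X P) P.N l), L.pr P l ≤
      1 + (Real.log (K * W) - Real.log τ) := by
  refine le_trans ?_ (le_trans (sum_div_tail_le (X_nonneg ok (P := P)) P.N hτ s) ?_)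
  · refine (sum_le_sum fun l hl => ?_).trans (sum_le_sum_of_subset_of_nonneg ?_ fun l _ _ =>
      div_nonneg (X_nonneg ok l) (tail_nonneg fun u _ => X_nonneg ok u))
    · obtain ⟨-, h2, h3⟩ := mem_filter.1 hl
      have hw := w_pos (P := P) ok l
      have ht : 0 < tail (L.X P) P.N l := hτ.trans_le h3
      refine le_trans (div_le_div_of_nonneg_left (Xs_nonneg ok l) (mul_pos hw ht)
        ((w_mul_tail_le ok l).trans ((U_le_V ok h2).trans (le_max_left _ _)))) (le_of_eq ?_)
      rw [Xs, mul_div_mul_left _ _ hw.ne']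
    · intro l hl
      obtain ⟨h1, -, h3⟩ := mem_filter.1 hl
      exact mem_filter.2 ⟨h1, h3⟩
  · split_ifs with h
    · have := Real.log_le_log (hτ.trans_le h) ((tail_anti (X_nonneg ok) hs).trans hb.hU)
      linarith
    · linarith [Real.log_le_log hτ hτW]

lemma sum_pr_stretch {a b : ℕ} (ha : 1 ≤ a) (hb : b ≤ P.N) (hg : ∀ m ∈ Finset.Ico a b, L.g m = 1) :
    ∑ l ∈ (Finset.Icc a b).filter (fun l => L.U P l < P.cap), L.pr P l ≤
      2 + Real.log (4 / P.σ) := by
  classical
  have hlog : 0 ≤ Real.log (4 / P.σ) := Real.log_nonneg (by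
    rw [le_div_iff₀ P.hσ]; linarith [P.hσ1])
  rcases ((Finset.Icc a b).filter (fun l => L.U P l < P.cap)).eq_empty_or_nonempty with h | h
  · rw [h, sum_empty]; linarith
  set c := ((Finset.Icc a b).filter (fun l => L.U P l < P.cap)).min' h with hc
  obtain ⟨hc1, hc2⟩ := mem_filter.1 (min'_mem _ h)
  rw [mem_Icc] at hc1
  have hac : a ≤ c := hc1.1
  have hsub : (Finset.Icc a b).filter (fun l => L.U P l < P.cap) ⊆ Finset.Icc c b := fun l hl =>
    mem_Icc.2 ⟨min'_le _ l hl, (mem_Icc.1 (mem_filter.1 hl).1).2⟩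
  refine le_trans (sum_le_sum_of_subset_of_nonneg hsub fun l _ _ => pr_nonneg ok l) ?_
  set Y := tail (L.Xs P) b c with hY
  have hXs := Xs_nonneg ok (P := P)
  have hY0 : 0 ≤ Y := tail_nonneg fun u _ => hXs u
  have hYU : Y ≤ L.U P c := sum_le_sum_of_subset_of_nonneg (Icc_subset_Icc_right hb)
    fun u _ _ => hXs u
  rcases eq_or_lt_of_le hY0 with hY' | hY'
  · rw [sum_eq_zero fun l hl => ?_]
    · linarith
    · obtain ⟨h1, h2⟩ := mem_Icc.1 hl
      have : L.Xs P l ≤ 0 := hY' ▸ le_tail hXs h1 h2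
      rw [pr, le_antisymm this (hXs l), zero_div]
  have hV : ∀ l ∈ Finset.Icc c b, max (tail (L.Xs P) b l) (P.σ / 4 * Y) ≤ max (L.V P l) P.fl := by
    intro l hl
    obtain ⟨h1, h2⟩ := mem_Icc.1 hl
    refine le_trans ?_ (le_max_left _ _)
    have hSU : tail (L.Xs P) b l ≤ L.U P l :=
      sum_le_sum_of_subset_of_nonneg (Icc_subset_Icc_right hb) fun u _ _ => hXs u
    have hSY : tail (L.Xs P) b l ≤ Y := tail_anti hXs h1
    have hcap : Y < P.cap := hYU.trans_lt hc2
    have hmem : Y - tail (L.Xs P) b l ≤ L.mem P (l - 1) := by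
      rcases eq_or_lt_of_le h1 with h1' | h1'
      · rw [← h1', ← hY, sub_self]; exact mem_nonneg ok _
      obtain ⟨j, rfl⟩ := Nat.exists_eq_add_of_le' (show 1 ≤ l by omega)
      rw [Nat.add_sub_cancel]
      have hsum : ∑ m ∈ Finset.Icc c j, (1 - L.g m) = 0 := sum_eq_zero fun m hm => by
        rw [hg m (mem_Ico.2 ⟨by have := mem_Icc.1 hm; omega, by have := mem_Icc.1 hm; omega⟩),
          sub_self]
      have h3 := mem_block (P := P) ok (ha.trans hac) (show c ≤ j by omega) (by rw [hsum]; norm_num)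
      rw [hsum, mul_zero, sub_zero, one_mul] at h3
      refine le_trans ?_ h3
      have hsplit : Y = ∑ m ∈ Finset.Icc c j, L.Xs P m + tail (L.Xs P) b (j + 1) := by
        rw [hY, tail, tail,
          ← sum_union (disjoint_left.2 fun u h4 h5 => by simp only [mem_Icc] at h4 h5; omega)]
        congr 1
        ext u
        simp only [mem_union, mem_Icc]
        omega
      have h6 := tail_nonneg (a := L.Xs P) (N := b) (l := j + 1) fun u _ => hXs u
      exact le_min (by linarith) (by linarith [mem_nonneg (P := P) ok (c - 1)])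
    have hgm : 1 / 4 * (Y - tail (L.Xs P) b l) ≤ L.g l ^ 2 * L.mem P (l - 1) :=
      mul_le_mul (sq_g_ge ok l) hmem (by linarith) (sq_nonneg _)
    have h7 := mul_le_mul_of_nonneg_left hgm P.hσ.le
    have h8 := Xs_add_nonneg (P := P) ok l
    have h9 := mul_nonneg P.hσ.le h8
    have hσ4 : P.σ / 4 * tail (L.Xs P) b l ≤ tail (L.Xs P) b l :=
      mul_le_of_le_one_left (tail_nonneg fun u _ => hXs u) (by linarith [P.hσ1])
    refine max_le (le_min (by linarith) (by linarith)) (le_min ?_ (by linarith))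
    exact (mul_le_of_le_one_left hY0 (by linarith [P.hσ1])).trans hcap.le
  have h1 := sum_div_max_le hXs b c (show 0 < P.σ / 4 * Y by have := P.hσ; positivity)
    (mul_le_of_le_one_left hY0 (by linarith [P.hσ1]))
  rw [filter_true_of_mem fun l hl => tail_anti hXs (mem_Icc.1 hl).1] at h1
  refine (sum_le_sum fun l hl => ?_).trans (h1.trans (le_of_eq ?_))
  · exact div_le_div_of_nonneg_left (hXs l)
      (lt_max_of_lt_right (by have := P.hσ; positivity)) (hV l hl)
  · rw [Real.log_mul (by have := P.hσ; positivity) hY'.ne', Real.log_div P.hσ.ne' four_ne_zero,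
      Real.log_div four_ne_zero P.hσ.ne']
    ring

end

end Vale.Agent.P249.Core.Line
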