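import Vale.Agent.P249.Core.Kernel
import Vale.Agent.P249.Core.LineSums
import Vale.Agent.P249.Core.Gate

/-!
The lines of the coordinates of a finite subset of `ℓ_p`.
-/

namespace Vale.Agent.P249.Core

open Finset

/-- The numerical parameters of the decomposition of a point set, with their compatibility. -/
structure Config {ι κ : Type*} [Fintype ι] [Fintype κ] (S : Geo ι κ) where
  /-- The top level. -/
  N : ℕ
  /-- The bound on the number of slow levels. -/
  T : ℕ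
  /-- The growth above which a level is skipped. -/
  K : ℝ
  /-- The weight of the windows. -/
  e : ℝ
  /-- The weight of the memory. -/
  σ : ℝ
  /-- The logarithmic width of the gate. -/
  h : ℝ
  /-- The height of the bottom of the gate. -/
  Λ0 : ℝ
  /-- The weights of the coordinates. -/
  τ : κ → ℝ
  hK : 4 ≤ K
  he : 0 < e
  he1 : e * 2 ^ (T + 2) * ((T : ℝ) + 3) ^ 2 * (S.k : ℝ) ^ 2 ≤ 1
  hσ : 0 < σ
  hσ1 : σ ≤ 1
  hh : 0 < h
  hΛ0 : 1 ≤ Λ0
  hΛ0' : 16 * 90 * ((T : ℝ) + 3) ^ 2 * (4001 * (S.k : ℝ)) ≤ Λ0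
  hτ : ∀ c, 0 < τ c
  hτctr : ∀ c z w, |S.x (S.ctr z) c - S.x (S.ctr w) c| ≤ τ c * S.dist (S.ctr z) (S.ctr w)
  hτall : ∀ c z w, |S.x z c - S.x w c| ≤ (Fintype.card ι : ℝ) ^ 2 * τ c * S.dist z w
  hT : 4000 * (S.k : ℝ) * Real.exp 1 / K ≤ T
  hN : ∀ i, S.growth N i ≤ 1 / (S.k : ℝ)
  hNd : ∀ i j, 64 * (256 * S.p) * S.dist i j ≤ S.rad N
  hNM : ∀ i, S.rM i ≤ 8 * (S.k : ℝ) * S.rad N
  hr1 : ∀ i j, i ≠ j → S.rad 1 ≤ S.dist i j
  hrM : ∀ i, S.rad 1 ≤ S.rM i

namespace Config

variable {ι κ : Type*} [Fintype ι] [Fintype κ] {S : Geo ι κ} (C : Config S)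

/-- The width of the windows. -/
def W : ℕ := C.T + 2

/-- The constant of the Lipschitz bounds. -/
noncomputable def kap (_C : Config S) : ℝ := 256 * S.p

/-- The scale of a coordinate. -/
noncomputable def scale (c : κ) : Scale where
  N := C.N
  r0 := S.r0
  hr0 := S.hr0
  σ := C.σ
  hσ := C.hσ
  hσ1 := C.hσ1
  fl := C.Λ0 * C.τ c
  hfl := mul_pos (lt_of_lt_of_le one_pos C.hΛ0) (C.hτ c)
  h := C.h
  hh := C.hh

/-- The line of a coordinate of a point. -/
noncomputable def line (i : ι) (c : κ) : Line where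
  x0 := S.x i c
  m l := S.mean l i c
  A l := S.spread l i c
  E l := C.e * S.window C.W l i c
  χ l := chiOf S.p C.K (S.growth l i)
  g l := gOf C.K (S.growth l i)

/-- The size of the changes of the window terms of two points. -/
noncomputable def eta (i j : ι) (c : κ) (l : ℕ) : ℝ :=
  32 * 2 ^ C.W * C.e * (S.window C.W l i c + S.window C.W l j c)

/-- The bound on the sizes of a line. -/
noncomputable def size (Kb : ℝ) (i : ι) (c : κ) : ℝ :=
  2 * (∑ l ∈ Finset.Icc 1 C.N, (C.line i c).χ l * (C.line i c).B (C.scale c) l ^ S.p) ^ (1 / S.p) +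
    tail ((C.line i c).X (C.scale c)) C.N 1 / Kb +
    ∑ l ∈ Finset.Icc 1 C.N, (C.line i c).E l + (1 / (Fintype.card κ : ℝ)) ^ (1 / S.p)

end Config

end Vale.Agent.P249.Core
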