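import Vale.Agent.P249.Dim.Trunc

/-!
Multiscale kernels of a finite subset of `ℓ_p` with rounding to centres.
-/

namespace Vale.Agent.P249.Core

open Finset

/-- A finite point set with a local scale at every point and a centre near every point. -/
structure Geo (ι κ : Type*) [Fintype ι] [Fintype κ] where
  /-- The exponent. -/
  p : ℝ
  hp : 1 < p
  /-- The points. -/
  x : ι → κ → ℝ
  /-- An upper bound on the logarithm of the number of points. -/
  k : ℕ
  hk : 1 ≤ k
  hn : Fintype.card ι < 2 ^ k
  /-- The scale of level zero. -/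
  r0 : ℝ
  hr0 : 0 < r0
  /-- The local scale. -/
  rM : ι → ℝ
  rM_nonneg : ∀ i, 0 ≤ rM i
  rM_lip : ∀ i j, rM i ≤ rM j + Dim.nm p (x i - x j)
  /-- The centre of a point. -/
  ctr : ι → ι
  ctr_near : ∀ z, Dim.nm p (x z - x (ctr z)) ≤ 2 * rM z

namespace Geo

variable {ι κ : Type*} [Fintype ι] [Fintype κ] (S : Geo ι κ)

/-- The distance of two points. -/
noncomputable def dist (i j : ι) : ℝ := Dim.nm S.p (S.x i - S.x j)

/-- The radius of a level. -/
def rad (l : ℕ) : ℝ := S.r0 * 2 ^ l

/-- The exponential kernel. -/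
noncomputable def wgt (l : ℕ) (i z : ι) : ℝ := Real.exp (-(S.dist i z / S.rad l))

/-- The total mass of the kernel. -/
noncomputable def mass (l : ℕ) (i : ι) : ℝ := ∑ z, S.wgt l i z

/-- The normalised kernel. -/
noncomputable def prob (l : ℕ) (i z : ι) : ℝ := S.wgt l i z / S.mass l i

/-- Rounding to centres at the levels that are coarse for the point. -/
noncomputable def snap (l : ℕ) (z : ι) : ι :=
  if S.rM z ≤ 16 * (S.k : ℝ) * S.rad l then S.ctr z else z

/-- The smoothed position at a level. -/
noncomputable def mean (l : ℕ) (i : ι) (c : κ) : ℝ := ∑ z, S.prob l i z * S.x (S.snap l z) c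

/-- The mean difference between the smoothed positions at two levels. -/
noncomputable def pairs (a b : ℕ) (i : ι) (c : κ) : ℝ :=
  ∑ z, ∑ w, S.prob a i z * S.prob b i w * |S.x (S.snap a z) c - S.x (S.snap b w) c|

/-- The relative spread at a level. -/
noncomputable def spread (l : ℕ) (i : ι) (c : κ) : ℝ := S.pairs l l i c / S.rad l

/-- The relative spread over a window of levels. -/
noncomputable def window (W l : ℕ) (i : ι) (c : κ) : ℝ :=
  (∑ a ∈ Finset.Icc (l - W) l, ∑ b ∈ Finset.Icc (l - W) l, S.pairs a b i c) / S.rad l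

/-- The mean distance at a level. -/
noncomputable def avgDist (l : ℕ) (i : ι) : ℝ := ∑ z, S.prob l i z * S.dist i z

/-- The cost of rounding at a level. -/
noncomputable def roundCost (l : ℕ) (i : ι) : ℝ :=
  min (S.rM i) (max 0 (64 * (S.k : ℝ) * S.rad l - S.rM i))

/-- The growth at a level. -/
noncomputable def growth (l : ℕ) (i : ι) : ℝ := 6 * (S.avgDist l i + S.roundCost l i) / S.rad l

/-- The influence of far points at a level. -/
noncomputable def far (l : ℕ) (i : ι) : ℝ :=
  (Fintype.card ι : ℝ) ^ 2 *
    ∑ z, S.dist i z / S.rad l * Real.exp (-(max (S.dist i z / S.rad l) (8 * (S.k : ℝ))))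

end Geo

end Vale.Agent.P249.Core
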