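import Vale.Agent.P249.Core.Main

/-!
The error from gates that differ at equal level.
-/

namespace Vale.Agent.P249.Core

open Finset

namespace Line

variable {a : Line} {P : Scale} (oa : a.Ok P.N)
include oa

lemma sum_pr_surv_le {K Λ : ℝ} {w0 : ℕ} (B : Budget P K Λ w0) {J : ℕ} (hJ : 1 ≤ J) (hJN : J ≤ P.N) :
    ∑ l ∈ (Finset.Icc J P.N).filter (fun l => a.U P l < P.cap), a.pr P l * a.surv J (l - 1) ≤ Λ := by
  classical
  obtain ⟨c, hc1, hc2, hc3, hc4⟩ := exists_reset oa hJN
  have h1 := sum_pr_stretch (a := J) (b := c) oa hJ hc2 hc4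
  have hlog : Real.log (4 / P.σ) ≤ Real.log (16 / P.σ) :=
    Real.log_le_log (div_pos four_pos P.hσ) (div_le_div_of_nonneg_right (by norm_num) P.hσ.le)
  refine le_trans ?_ (h1.trans (by linarith [B.hΛσ]))
  rw [sum_filter, sum_filter]
  refine le_trans ?_ (le_of_eq (sum_subset (s₂ := Finset.Icc J P.N) (f := fun l =>
    if a.U P l < P.cap then (if l ≤ c then a.pr P l else 0) else 0) (Icc_subset_Icc_right hc2)
      fun l hl hl' => ?_).symm) |>.trans (le_of_eq (sum_congr rfl fun l hl => ?_))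
  · refine sum_le_sum fun l hl => ?_
    by_cases h : a.U P l < P.cap
    · rw [if_pos h, if_pos h]
      obtain ⟨h2, h3⟩ := surv_bounds oa J (l - 1)
      by_cases h4 : l ≤ c
      · rw [if_pos h4]
        exact mul_le_of_le_one_right (pr_nonneg oa l) h3
      · rw [if_neg h4, surv_eq_zero hc1 (by omega) hc3 (by omega), mul_zero]
    · rw [if_neg h, if_neg h]
  · simp only [mem_Icc, not_and, not_le] at hl hl'
    rw [if_neg (show ¬ l ≤ c by have := hl' hl.1; omega)]
    split_ifs <;> rfl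
  · rw [if_pos (mem_Icc.1 hl).2]

lemma sum_pr_gain_le {p W K Λ : ℝ} (hp : 1 ≤ p) (hb : a.Bounded P p W K) {w0 : ℕ}
    (B : Budget P K Λ w0) {J : ℕ} (hJ : 1 ≤ J) :
    ∑ l ∈ (Finset.Icc J P.N).filter (fun l => a.U P l < P.cap), a.pr P l * a.gain P J (l - 1) ≤
      3 * Λ * W := by
  classical
  have hK := B.hK
  have hW := hb.hW
  have hΛ1 := B.one_le
  set τ := W / K with hτ
  have hτ0 : 0 < τ := by positivity
  set I := (Finset.Icc J P.N).filter (fun l => a.U P l < P.cap) with hI
  have hsig : ∑ l ∈ I.filter (fun l => τ ≤ tail (a.X P) P.N l), a.pr P l ≤ Λ := by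
    rw [hI, filter_filter]
    refine (sum_pr_sig oa hb hτ0 ((div_le_self hW.le (by linarith)).trans
      (le_mul_of_one_le_left hW.le (by linarith))) hJ).trans ?_
    have e : Real.log (K * W) - Real.log τ = Real.log (K * K) := by
      rw [hτ, Real.log_mul (by linarith) hW.ne', Real.log_div hW.ne' (by linarith),
        Real.log_mul (by linarith) (by linarith)]
      ring
    have h2 : Real.log (K * K) ≤ Real.log (16 * K ^ 3) :=
      Real.log_le_log (by positivity) (by nlinarith)
    linarith [B.hΛK]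
  have hpt : ∀ c, J ≤ c → a.g c < 1 → ∀ l ∈ Finset.Icc J P.N, tail (a.X P) P.N c < τ → c < l →
      a.gain P J (l - 1) ≤ τ := fun c hc hg l hl ht hcl =>
    (gain_le_tail oa hc (by omega) hg (by omega) (by have := (mem_Icc.1 hl).2; omega)).trans ht.le
  have hsum := sum_pr_le oa J
  have hpr := pr_nonneg (P := P) oa
  rw [← sum_filter_add_sum_filter_not I (fun l => τ ≤ tail (a.X P) P.N l)]
  have h1 : ∑ l ∈ I.filter (fun l => τ ≤ tail (a.X P) P.N l), a.pr P l * a.gain P J (l - 1) ≤
      Λ * W := by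
    refine (sum_le_sum fun l hl => mul_le_mul_of_nonneg_left (gain_le oa hp hb J ?_) (hpr l)).trans
      ((le_of_eq (sum_mul _ _ _).symm).trans (mul_le_mul_of_nonneg_right hsig hW.le))
    have := (mem_Icc.1 (mem_filter.1 (mem_filter.1 hl).1).1).2
    omega
  have h2 : ∑ l ∈ I.filter (fun l => ¬ τ ≤ tail (a.X P) P.N l), a.pr P l * a.gain P J (l - 1) ≤
      Λ * W + W := by
    rcases (I.filter (fun l => ¬ τ ≤ tail (a.X P) P.N l)).eq_empty_or_nonempty with h | h
    · rw [h, sum_empty]; positivity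
    set m := (I.filter (fun l => ¬ τ ≤ tail (a.X P) P.N l)).min' h with hm
    obtain ⟨hm1, hm2⟩ := mem_filter.1 (min'_mem _ h)
    obtain ⟨hm3, -⟩ := mem_filter.1 hm1
    rw [← hm] at hm2 hm3
    push Not at hm2
    obtain ⟨hmJ, hmN⟩ := mem_Icc.1 hm3
    obtain ⟨c, hc1, hc2, hc3, hc4⟩ := exists_reset oa hmN
    have hterm : ∀ l ∈ I.filter (fun l => ¬ τ ≤ tail (a.X P) P.N l),
        a.pr P l * a.gain P J (l - 1) ≤
          (if l ≤ c then a.pr P l else 0) * W + a.pr P l * τ := by
      intro l hl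
      have hlI := (mem_filter.1 (mem_filter.1 hl).1).1
      by_cases hlc : l ≤ c
      · rw [if_pos hlc]
        have := mul_le_mul_of_nonneg_left
          (gain_le oa hp hb J (l := l - 1) (by have := (mem_Icc.1 hlI).2; omega)) (hpr l)
        have := mul_nonneg (hpr l) hτ0.le
        linarith
      · rw [if_neg hlc, zero_mul, zero_add]
        refine mul_le_mul_of_nonneg_left (hpt c (by omega) hc3 l hlI ?_ (by omega)) (hpr l)
        exact (tail_anti (X_nonneg oa) hc1).trans_lt hm2
    refine (sum_le_sum hterm).trans ?_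
    rw [sum_add_distrib, ← sum_mul, ← sum_mul]
    refine add_le_add (mul_le_mul_of_nonneg_right ?_ hW.le) ?_
    · have h3 := sum_pr_stretch (a := m) (b := c) oa (by omega) hc2 hc4
      have hlog : Real.log (4 / P.σ) ≤ Real.log (16 / P.σ) :=
        Real.log_le_log (div_pos four_pos P.hσ) (div_le_div_of_nonneg_right (by norm_num) P.hσ.le)
      refine le_trans ?_ (h3.trans (by linarith [B.hΛσ]))
      rw [← sum_filter]
      refine sum_le_sum_of_subset_of_nonneg (fun l hl => ?_) fun l _ _ => hpr l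
      obtain ⟨h4, h5⟩ := mem_filter.1 hl
      exact mem_filter.2 ⟨mem_Icc.2 ⟨min'_le _ l h4, h5⟩,
        (mem_filter.1 (mem_filter.1 h4).1).2⟩
    · refine (mul_le_mul_of_nonneg_right ((sum_le_sum_of_subset_of_nonneg (filter_subset _ I)
        fun l _ _ => hpr l).trans (hsum.trans (by linarith [B.hh] : 2 + P.h ≤ K))) hτ0.le).trans ?_
      rw [hτ, mul_div_cancel₀ _ (by linarith : K ≠ 0)]
  have h3 := mul_le_mul_of_nonneg_right hΛ1 hW.le
  linarith

lemma sum_pr_window_le {p W K Λ : ℝ} (hb : a.Bounded P p W K) {w0 : ℕ}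
    (B : Budget P K Λ w0) {J : ℕ} (hJ : 1 ≤ J) :
    ∑ l ∈ (Finset.Icc J P.N).filter (fun l => a.U P l < P.cap),
      a.pr P l * ∑ u ∈ Finset.Icc l P.N, a.Q P l u * a.X P u ≤ 3 * Λ ^ 2 * W := by
  classical
  have hK := B.hK
  have hW := hb.hW
  have hΛ1 := B.one_le
  set τ := W / K with hτ
  have hτ0 : 0 < τ := by positivity
  set I := (Finset.Icc J P.N).filter (fun l => a.U P l < P.cap) with hI
  have hX := X_nonneg (P := P) oa
  have hpr := pr_nonneg (P := P) oa
  have hterm : ∀ l ∈ I, a.pr P l * ∑ u ∈ Finset.Icc l P.N, a.Q P l u * a.X P u ≤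
      (if τ ≤ tail (a.X P) P.N l then a.pr P l else 0) * (Λ * W) + a.pr P l * τ +
        a.X P l * (1 / 2) ^ w0 := by
    intro l hl
    obtain ⟨hlI, hU⟩ := mem_filter.1 hl
    obtain ⟨hlJ, hlN⟩ := mem_Icc.1 hlI
    have hfar0 : 0 ≤ a.X P l * (1 / 2) ^ w0 := mul_nonneg (hX l) (by positivity)
    by_cases hs : τ ≤ tail (a.X P) P.N l
    · rw [if_pos hs, mul_sum,
        ← sum_filter_add_sum_filter_not (Finset.Icc l P.N) (fun u => u ≤ l + w0)]
      have h1 : ∑ u ∈ (Finset.Icc l P.N).filter (fun u => u ≤ l + w0),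
          a.pr P l * (a.Q P l u * a.X P u) ≤ a.pr P l * (Λ * W) := by
        rw [← mul_sum]
        refine mul_le_mul_of_nonneg_left ?_ (hpr l)
        refine (sum_le_sum (g := fun _ => W) fun u hu => ?_).trans ?_
        · obtain ⟨h2, -⟩ := mem_filter.1 hu
          obtain ⟨h3, h4⟩ := mem_Icc.1 h2
          exact (mul_le_of_le_one_left (hX u) (Q_le_one oa h3)).trans
            (hb.hX u (mem_Icc.2 ⟨by omega, h4⟩))
        · rw [sum_const, nsmul_eq_mul]
          refine mul_le_mul_of_nonneg_right (le_trans ?_ B.hΛ0) hW.le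
          have : ((Finset.Icc l P.N).filter (fun u => u ≤ l + w0)).card ≤ w0 + 1 := by
            refine (card_le_card (t := Finset.Icc l (l + w0)) fun u hu => ?_).trans (by simp; omega)
            obtain ⟨h2, h3⟩ := mem_filter.1 hu
            exact mem_Icc.2 ⟨(mem_Icc.1 h2).1, h3⟩
          exact_mod_cast this
      have h2 : ∑ u ∈ (Finset.Icc l P.N).filter (fun u => ¬ u ≤ l + w0),
          a.pr P l * (a.Q P l u * a.X P u) ≤ a.X P l * (1 / 2) ^ w0 := by
        refine (sum_le_sum (g := fun u => a.X P l * (1 / 2) ^ (u - l)) fun u hu => ?_).trans ?_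
        · obtain ⟨h3, -⟩ := mem_filter.1 hu
          exact pr_mul_Q_mul_X_le oa (mem_Icc.1 h3).1 (mem_Icc.1 h3).2 hU
        · rw [← mul_sum]
          refine mul_le_mul_of_nonneg_left ?_ (hX l)
          refine le_trans ?_ (geom_tail_le w0 (P.N - l))
          refine le_trans (le_of_eq (sum_image (g := fun u => u - l)
            (f := fun j => (1 / 2 : ℝ) ^ j) fun u hu v hv h => ?_).symm)
            (sum_le_sum_of_subset_of_nonneg (fun j hj => ?_) fun j _ _ => by positivity)
          · simp only [coe_filter, mem_Icc, Set.mem_ofPred_eq] at hu hv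
            simp only at h
            omega
          · obtain ⟨u, hu, rfl⟩ := mem_image.1 hj
            simp only [mem_filter, mem_Icc] at hu
            exact mem_Icc.2 ⟨by omega, by omega⟩
      have := mul_nonneg (hpr l) hτ0.le
      linarith
    · rw [if_neg hs, zero_mul, zero_add]
      push Not at hs
      refine le_trans ?_ (le_add_of_nonneg_right hfar0)
      refine mul_le_mul_of_nonneg_left (le_trans (sum_le_sum fun u hu => ?_) hs.le) (hpr l)
      exact mul_le_of_le_one_left (hX u) (Q_le_one oa (mem_Icc.1 hu).1)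
  refine (sum_le_sum hterm).trans ?_
  rw [sum_add_distrib, sum_add_distrib, ← sum_mul, ← sum_mul, ← sum_mul]
  have h1 : ∑ l ∈ I, (if τ ≤ tail (a.X P) P.N l then a.pr P l else 0) ≤ Λ := by
    rw [← sum_filter, hI, filter_filter]
    refine (sum_pr_sig oa hb hτ0 ((div_le_self hW.le (by linarith)).trans
      (le_mul_of_one_le_left hW.le (by linarith))) hJ).trans ?_
    have e : Real.log (K * W) - Real.log τ = Real.log (K * K) := by
      rw [hτ, Real.log_mul (by linarith) hW.ne', Real.log_div hW.ne' (by linarith),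
        Real.log_mul (by linarith) (by linarith)]
      ring
    have h2 : Real.log (K * K) ≤ Real.log (16 * K ^ 3) :=
      Real.log_le_log (by positivity) (by nlinarith)
    linarith [B.hΛK]
  have h2 : (∑ l ∈ I, a.pr P l) * τ ≤ W := by
    refine (mul_le_mul_of_nonneg_right ((sum_pr_le oa J).trans
      (by linarith [B.hh] : 2 + P.h ≤ K)) hτ0.le).trans ?_
    rw [hτ, mul_div_cancel₀ _ (by linarith : K ≠ 0)]
  have h3 : (∑ l ∈ I, a.X P l) * (1 / 2) ^ w0 ≤ W := by
    refine (mul_le_mul_of_nonneg_right (((sum_le_sum_of_subset_of_nonneg (fun l hl => ?_)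
      fun l _ _ => hX l).trans hb.hU : ∑ l ∈ I, a.X P l ≤ K * W)) (by positivity)).trans ?_
    · have := mem_Icc.1 (mem_filter.1 hl).1
      exact mem_Icc.2 ⟨by omega, this.2⟩
    · rw [one_div, inv_pow, ← div_eq_mul_inv, div_le_iff₀ (by positivity)]
      rw [mul_comm W]
      exact mul_le_mul_of_nonneg_right B.hw0 hW.le
  have h4 := mul_le_mul_of_nonneg_right h1 (show 0 ≤ Λ * W by positivity)
  have h5 : W ≤ Λ ^ 2 * W := le_mul_of_one_le_left hW.le (one_le_pow₀ hΛ1)
  nlinarith

end Line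

namespace Near

variable {P : Scale} {a b : Line} {J : ℕ} {d κ : ℝ} {η : ℕ → ℝ} (N : Near P a b J d κ η)
  (oa : a.Ok P.N) (ob : b.Ok P.N)
include N oa ob

/-- The error of replacing the gate of the lower point by that of the higher one. -/
lemma gates_le {p W K Λ : ℝ} (hp : 1 ≤ p) {w0 : ℕ} (B : Budget P K Λ w0)
    (hba : a.Bounded P p W K) (hbb : b.Bounded P p W K) :
    ∑ l ∈ Finset.Icc J P.N,
      (if a.V P l ≤ b.V P l then P.r l * a.X P l * |a.F P l - b.F P l| else 0) ≤
      16 * Λ * |a.q (J - 1) - b.q (J - 1)| + 700 * κ * Λ ^ 2 * d * W +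
        4 * K * d * ∑ u ∈ Finset.Icc 1 P.N, η u := by
  classical
  set H := |a.q (J - 1) - b.q (J - 1)| with hH
  set E := ∑ u ∈ Finset.Icc 1 P.N, η u with hE
  have hκd := N.κd_pos
  have hW := hba.hW
  have hK := B.hK
  have hΛ1 := B.one_le
  have hE0 : 0 ≤ E := sum_nonneg fun u _ => N.hη u
  have hH0 : 0 ≤ H := abs_nonneg _
  set CR := 8 * H + 430 * κ * d * (K * W) + 2 * d * E with hCR
  have hCR0 : 0 ≤ CR := by have := N.hd; have := N.hκ; positivity
  have hJ1 : 1 ≤ J := by linarith [N.hJ]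
  set I := (Finset.Icc J P.N).filter (fun l => a.U P l < P.cap) with hI
  have hterm : ∀ l ∈ Finset.Icc J P.N,
      (if a.V P l ≤ b.V P l then P.r l * a.X P l * |a.F P l - b.F P l| else 0) ≤
      if a.U P l < P.cap then a.pr P l * (8 * a.dbd P J H (3 * κ * d) (l - 1) +
        38 * κ * d * ∑ u ∈ Finset.Icc l P.N, a.Q P l u * a.X P u + 2 * d * E + P.σ * CR)
      else 0 := by
    intro l hl
    obtain ⟨h1, h2⟩ := mem_Icc.1 hl
    have hV := N.r_mul_abs_dV_le oa ob hba hbb (by linarith) h1 h2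
    set M := 8 * a.dbd P J H (3 * κ * d) (l - 1) +
      38 * κ * d * ∑ u ∈ Finset.Icc l P.N, a.Q P l u * a.X P u + 2 * d * E + P.σ * CR with hM
    have hM0 : 0 ≤ M := by
      have := Line.dbd_nonneg (P := P) oa (J := J) hH0 (by linarith : (0:ℝ) ≤ 3 * κ * d) (l - 1)
      have : 0 ≤ ∑ u ∈ Finset.Icc l P.N, a.Q P l u * a.X P u := sum_nonneg fun u _ =>
        mul_nonneg (Line.Q_nonneg oa l u) (Line.X_nonneg oa u)
      have := N.hd
      have := N.hκ
      have := P.hσ
      positivity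
    by_cases hab : a.V P l ≤ b.V P l
    swap
    · rw [if_neg hab]
      split_ifs
      · exact mul_nonneg (Line.pr_nonneg oa l) hM0
      · exact le_rfl
    rw [if_pos hab]
    by_cases hU : a.U P l < P.cap
    swap
    · rw [if_neg hU]
      push Not at hU
      have e1 : a.V P l = P.cap := le_antisymm (Line.V_le_cap l)
        (by simpa [min_eq_left hU] using Line.min_U_le_V oa l)
      have e2 : b.V P l = P.cap := le_antisymm (Line.V_le_cap l) (e1 ▸ hab)
      rw [Line.F, Line.F, e1, e2, sub_self, abs_zero, mul_zero]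
    rw [if_pos hU]
    have hma := Line.max_V_pos (L := a) (P := P) l
    have hmab : max (a.V P l) P.fl ≤ max (b.V P l) P.fl := max_le_max_right _ hab
    have hF : |a.F P l - b.F P l| ≤ |b.V P l - a.V P l| / max (a.V P l) P.fl := by
      rw [Line.F, Line.F, sub_sub_sub_cancel_right, abs_sub_comm,
        abs_of_nonneg (sub_nonneg.2 (Real.log_le_log hma hmab))]
      refine le_trans ?_ (div_le_div_of_nonneg_right ?_ hma.le) (b :=
        (max (b.V P l) P.fl - max (a.V P l) P.fl) / max (a.V P l) P.fl)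
      · have := Real.log_le_sub_one_of_pos (div_pos (hma.trans_le hmab) hma)
        rw [Real.log_div (hma.trans_le hmab).ne' hma.ne'] at this
        rw [sub_div, div_self hma.ne']
        exact this
      · exact (le_abs_self _).trans (abs_max_sub_max_le_abs _ _ _)
    refine (mul_le_mul_of_nonneg_left hF
      (mul_nonneg (P.r_pos l).le (Line.X_nonneg oa l))).trans ?_
    have hw := Line.w_pos (P := P) oa l
    rw [Line.pr, Line.Xs, div_mul_eq_mul_div, mul_div_assoc']
    refine div_le_div_of_nonneg_right ?_ hma.le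
    have := mul_le_mul_of_nonneg_left hV (Line.X_nonneg (P := P) oa l)
    linarith
  refine (sum_le_sum hterm).trans ?_
  rw [← sum_filter, ← hI]
  have hexp : ∀ l, a.pr P l * (8 * a.dbd P J H (3 * κ * d) (l - 1) +
        38 * κ * d * ∑ u ∈ Finset.Icc l P.N, a.Q P l u * a.X P u + 2 * d * E + P.σ * CR) =
      8 * H * (a.pr P l * a.surv J (l - 1)) + 24 * κ * d * (a.pr P l * a.gain P J (l - 1)) +
      38 * κ * d * (a.pr P l * ∑ u ∈ Finset.Icc l P.N, a.Q P l u * a.X P u) +
      (2 * d * E + P.σ * CR) * a.pr P l := fun l => by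
    rw [Line.dbd]; ring
  simp only [hexp, sum_add_distrib, ← mul_sum]
  have h1 := mul_le_mul_of_nonneg_left (Line.sum_pr_surv_le oa B hJ1 N.hJN)
    (by linarith : (0:ℝ) ≤ 8 * H)
  have h2 := mul_le_mul_of_nonneg_left (Line.sum_pr_gain_le oa hp hba B hJ1)
    (by linarith : (0:ℝ) ≤ 24 * κ * d)
  have h3 := mul_le_mul_of_nonneg_left (Line.sum_pr_window_le oa hba B hJ1)
    (by linarith : (0:ℝ) ≤ 38 * κ * d)
  have hdE : 0 ≤ d * E := mul_nonneg N.hd.le hE0
  have h4 := mul_le_mul_of_nonneg_left ((Line.sum_pr_le oa J).trans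
    (by linarith [B.hh] : 2 + P.h ≤ K)) (show 0 ≤ 2 * d * E + P.σ * CR by
      have := mul_nonneg P.hσ.le hCR0; linarith)
  have hσK : P.σ * K ≤ 1 := by nlinarith [B.hσK, P.hσ]
  have h5 : P.σ * CR * K ≤ 8 * H + 430 * κ * d * W + 2 * d * E := by
    have a1 := mul_le_mul_of_nonneg_left hσK (by linarith : (0:ℝ) ≤ 8 * H + 2 * d * E)
    have a2 := mul_le_mul_of_nonneg_left B.hσK
      (by positivity : (0:ℝ) ≤ 430 * (κ * d) * W)
    rw [hCR]
    nlinarith
  have hκdW : 0 ≤ κ * d * W := by positivity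
  have h6 : Λ * (κ * d * W) ≤ Λ ^ 2 * (κ * d * W) :=
    mul_le_mul_of_nonneg_right (le_self_pow₀ hΛ1 two_ne_zero) hκdW
  have h7 : κ * d * W ≤ Λ ^ 2 * (κ * d * W) := le_mul_of_one_le_left hκdW (one_le_pow₀ hΛ1)
  have h8 : H ≤ Λ * H := le_mul_of_one_le_left hH0 hΛ1
  have h9 : d * E * 2 ≤ d * E * K := mul_le_mul_of_nonneg_left (by linarith) hdE
  linarith

end Near

end Vale.Agent.P249.Core
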