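import Vale.Agent.P249.Core.Defs
import Mathlib.Order.Interval.Finset.Nat
import Mathlib.Algebra.Order.BigOperators.Ring.Finset
import Mathlib.Analysis.SpecialFunctions.Log.Basic

/-!
Basic estimates for the multiscale kernels of a finite subset of `ℓ_p`.
-/

namespace Vale.Agent.P249.Core.Geo

open Finset
open Vale.Agent.P249.Dim (nm pw)

variable {ι κ : Type*} [Fintype ι] [Fintype κ] (S : Geo ι κ)

lemma p_pos : 0 < S.p := zero_lt_one.trans S.hp

lemma dist_nonneg (i j : ι) : 0 ≤ S.dist i j := Dim.nm_nonneg _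

lemma dist_comm (i j : ι) : S.dist i j = S.dist j i := Dim.nm_sub_comm _ _

lemma dist_self (i : ι) : S.dist i i = 0 := by
  rw [dist, sub_self]
  exact Dim.nm_zero S.p_pos

lemma dist_tri (i j l : ι) : S.dist i l ≤ S.dist i j + S.dist j l :=
  Dim.nm_sub_le S.hp.le _ _ _

lemma abs_dist_sub_le (i j z : ι) : |S.dist i z - S.dist j z| ≤ S.dist i j := by
  rw [abs_le]
  constructor
  · linarith [S.dist_tri j i z, S.dist_comm i j]
  · linarith [S.dist_tri i j z]

lemma rad_pos (l : ℕ) : 0 < S.rad l := mul_pos S.hr0 (by positivity)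

lemma rad_succ (l : ℕ) : S.rad (l + 1) = 2 * S.rad l := by
  simp only [rad, pow_succ]
  ring

lemma rad_mono {a b : ℕ} (h : a ≤ b) : S.rad a ≤ S.rad b :=
  mul_le_mul_of_nonneg_left (pow_le_pow_right₀ one_le_two h) S.hr0.le

lemma wgt_pos (l : ℕ) (i z : ι) : 0 < S.wgt l i z := Real.exp_pos _

lemma one_le_mass (l : ℕ) (i : ι) : 1 ≤ S.mass l i := by
  refine le_trans (le_of_eq ?_) (single_le_sum (f := fun z => S.wgt l i z)
    (fun z _ => (S.wgt_pos l i z).le) (mem_univ i))
  simp [wgt, S.dist_self]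

lemma mass_pos (l : ℕ) (i : ι) : 0 < S.mass l i := one_pos.trans_le (S.one_le_mass l i)

lemma mass_le_card (l : ℕ) (i : ι) : S.mass l i ≤ (Fintype.card ι : ℝ) := by
  calc S.mass l i ≤ ∑ _z : ι, (1 : ℝ) := sum_le_sum fun _ _ => by
        rw [wgt]
        exact Real.exp_le_one_iff.2 (neg_nonpos.2 (div_nonneg (S.dist_nonneg _ _) (S.rad_pos l).le))
    _ = _ := by simp

lemma prob_nonneg (l : ℕ) (i z : ι) : 0 ≤ S.prob l i z :=
  div_nonneg (S.wgt_pos l i z).le (S.mass_pos l i).le

lemma prob_sum (l : ℕ) (i : ι) : ∑ z, S.prob l i z = 1 := by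
  simp only [prob, ← sum_div]
  exact div_self (S.mass_pos l i).ne'

lemma prob_le_exp (l : ℕ) (i z : ι) : S.prob l i z ≤ Real.exp (-(S.dist i z / S.rad l)) :=
  div_le_self (S.wgt_pos l i z).le (S.one_le_mass l i)

/-- The total weight of a product of two kernels. -/
lemma prob_prob_sum (a b : ℕ) (i : ι) : ∑ z, ∑ w, S.prob a i z * S.prob b i w = 1 := by
  rw [← sum_mul_sum, S.prob_sum, S.prob_sum, mul_one]

lemma pairs_nonneg (a b : ℕ) (i : ι) (c : κ) : 0 ≤ S.pairs a b i c :=
  sum_nonneg fun _ _ => sum_nonneg fun _ _ =>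
    mul_nonneg (mul_nonneg (S.prob_nonneg _ _ _) (S.prob_nonneg _ _ _)) (abs_nonneg _)

lemma spread_nonneg (l : ℕ) (i : ι) (c : κ) : 0 ≤ S.spread l i c :=
  div_nonneg (S.pairs_nonneg l l i c) (S.rad_pos l).le

lemma window_nonneg (W l : ℕ) (i : ι) (c : κ) : 0 ≤ S.window W l i c :=
  div_nonneg (sum_nonneg fun a _ => sum_nonneg fun b _ => S.pairs_nonneg a b i c)
    (S.rad_pos l).le

lemma avgDist_nonneg (l : ℕ) (i : ι) : 0 ≤ S.avgDist l i :=
  sum_nonneg fun _ _ => mul_nonneg (S.prob_nonneg _ _ _) (S.dist_nonneg _ _)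

lemma roundCost_nonneg (l : ℕ) (i : ι) : 0 ≤ S.roundCost l i :=
  le_min (S.rM_nonneg i) (le_max_left _ _)

lemma growth_nonneg (l : ℕ) (i : ι) : 0 ≤ S.growth l i :=
  div_nonneg (mul_nonneg (by norm_num) (add_nonneg (S.avgDist_nonneg l i) (S.roundCost_nonneg l i)))
    (S.rad_pos l).le

lemma rad_mul_growth (l : ℕ) (i : ι) :
    S.rad l * S.growth l i = 6 * (S.avgDist l i + S.roundCost l i) := by
  rw [growth]
  exact mul_div_cancel₀ _ (S.rad_pos l).ne'

/-! ### Stability in the base point -/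

lemma abs_mean_sub_le_pairs (a b : ℕ) (i : ι) (c : κ) :
    |S.mean a i c - S.mean b i c| ≤ S.pairs a b i c := by
  have e : S.mean a i c - S.mean b i c = ∑ z, ∑ w,
      S.prob a i z * S.prob b i w * (S.x (S.snap a z) c - S.x (S.snap b w) c) := by
    simp only [mean, mul_sub, sum_sub_distrib]
    rw [sum_comm (f := fun z w => S.prob a i z * S.prob b i w * S.x (S.snap b w) c)]
    simp only [← sum_mul, ← mul_sum, S.prob_sum, mul_one, one_mul]
  rw [e]
  refine (abs_sum_le_sum_abs _ _).trans (sum_le_sum fun z _ =>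
    (abs_sum_le_sum_abs _ _).trans (sum_le_sum fun w _ => le_of_eq ?_))
  rw [abs_mul, abs_of_nonneg (mul_nonneg (S.prob_nonneg _ _ _) (S.prob_nonneg _ _ _))]

lemma prob_le_exp_mul (l : ℕ) (i j z : ι) :
    S.prob l j z ≤ Real.exp (2 * (S.dist i j / S.rad l)) * S.prob l i z := by
  set u := S.dist i j / S.rad l with hu
  have hr := S.rad_pos l
  have h1 : ∀ a b w : ι, S.dist a b = S.dist i j → S.wgt l a w ≤ Real.exp u * S.wgt l b w := by
    intro a b w hab
    rw [wgt, wgt, ← Real.exp_add, Real.exp_le_exp, hu]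
    have h2 := (abs_le.1 (S.abs_dist_sub_le a b w)).1
    rw [hab] at h2
    rw [← sub_eq_add_neg, ← sub_div, ← neg_div, div_le_div_iff_of_pos_right hr]
    linarith
  have hmass : S.mass l i ≤ Real.exp u * S.mass l j := by
    rw [mass, mass, mul_sum]
    exact sum_le_sum fun w _ => h1 i j w rfl
  have hmi := S.mass_pos l i
  have hmj := S.mass_pos l j
  rw [prob, prob, mul_div_assoc', div_le_div_iff₀ hmj hmi]
  calc S.wgt l j z * S.mass l i ≤ (Real.exp u * S.wgt l i z) * (Real.exp u * S.mass l j) :=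
        mul_le_mul (h1 j i z (S.dist_comm j i)) hmass hmi.le
          (mul_nonneg (Real.exp_pos _).le (S.wgt_pos _ _ _).le)
    _ = _ := by rw [two_mul u, Real.exp_add]; ring

lemma abs_sub_le_of_exp {P Q t : ℝ} (hP : 0 ≤ P) (h0 : 0 ≤ t) (h1 : t ≤ 1)
    (hPQ : P ≤ Real.exp t * Q) (hQP : Q ≤ Real.exp t * P) : |P - Q| ≤ 2 * t * P := by
  have he := Dim.exp_le_one_add_two_mul h0 h1
  rcases le_total Q P with h | h
  · rw [abs_of_nonneg (sub_nonneg.2 h)]
    have hQ : 0 ≤ Q := nonneg_of_mul_nonneg_right (hP.trans hPQ) (Real.exp_pos t)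
    have h2 := mul_le_mul_of_nonneg_right he hQ
    have h3 := mul_le_mul_of_nonneg_left h h0
    linarith
  · rw [abs_of_nonpos (sub_nonpos.2 h)]
    have h2 := mul_le_mul_of_nonneg_right he hP
    linarith

lemma abs_prob_sub_le {l : ℕ} {i j : ι} (h : S.dist i j ≤ S.rad l / 8) (z : ι) :
    |S.prob l i z - S.prob l j z| ≤ 4 * (S.dist i j / S.rad l) * S.prob l i z := by
  have hr := S.rad_pos l
  have hu : 0 ≤ S.dist i j / S.rad l := div_nonneg (S.dist_nonneg _ _) hr.le
  have hu8 : S.dist i j / S.rad l ≤ 1 / 8 := by rw [div_le_iff₀ hr]; linarith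
  have h1 := S.prob_le_exp_mul l j i z
  rw [S.dist_comm j i] at h1
  refine (abs_sub_le_of_exp (S.prob_nonneg l i z) (t := 2 * (S.dist i j / S.rad l)) (by linarith)
    (by linarith) h1 (S.prob_le_exp_mul l i j z)).trans (le_of_eq (by ring))

lemma mean_lip {l : ℕ} {i j : ι} (h : S.dist i j ≤ S.rad l / 8) (c : κ) :
    |S.mean l i c - S.mean l j c| ≤ 8 * S.dist i j * S.spread l i c := by
  have hr := S.rad_pos l
  set y : ι → ℝ := fun z => S.x (S.snap l z) c with hy
  have e : S.mean l i c - S.mean l j c =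
      ∑ z, ∑ w, (S.prob l i z - S.prob l j z) * S.prob l i w * (y z - y w) := by
    have e1 : ∀ z, ∑ w, (S.prob l i z - S.prob l j z) * S.prob l i w * (y z - y w) =
        (S.prob l i z - S.prob l j z) * (y z - S.mean l i c) := fun z => by
      simp only [mul_assoc, ← mul_sum, mul_sub, sum_sub_distrib, ← sum_mul, S.prob_sum, one_mul]
      simp only [mean, hy, mul_sum]
    simp only [e1]
    simp only [mul_sub, sub_mul, sum_sub_distrib, ← sum_mul, S.prob_sum, one_mul]
    simp only [mean, hy]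
    ring
  rw [e]
  refine (abs_sum_le_sum_abs _ _).trans ((sum_le_sum fun z _ => abs_sum_le_sum_abs _ _).trans ?_)
  have h2 : ∑ z, ∑ w, |(S.prob l i z - S.prob l j z) * S.prob l i w * (y z - y w)| ≤
      4 * (S.dist i j / S.rad l) * S.pairs l l i c := by
    rw [pairs, mul_sum]
    refine sum_le_sum fun z _ => ?_
    rw [mul_sum]
    refine sum_le_sum fun w _ => ?_
    rw [abs_mul, abs_mul, abs_of_nonneg (S.prob_nonneg l i w), ← mul_assoc, ← mul_assoc]
    exact mul_le_mul_of_nonneg_right
      (mul_le_mul_of_nonneg_right (S.abs_prob_sub_le h z) (S.prob_nonneg l i w)) (abs_nonneg _)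
  refine h2.trans ?_
  have e3 : 4 * (S.dist i j / S.rad l) * S.pairs l l i c = 4 * S.dist i j * S.spread l i c := by
    rw [spread]
    ring
  rw [e3]
  exact mul_le_mul_of_nonneg_right
    (mul_le_mul_of_nonneg_right (by norm_num) (S.dist_nonneg _ _)) (S.spread_nonneg l i c)

lemma pairs_lip {a b : ℕ} {i j : ι} {v : ℝ} (ha : S.dist i j / S.rad a ≤ v)
    (hb : S.dist i j / S.rad b ≤ v) (hv : 4 * v ≤ 1) (c : κ) :
    |S.pairs a b i c - S.pairs a b j c| ≤ 8 * v * S.pairs a b i c := by
  have hv0 : 0 ≤ v := le_trans (div_nonneg (S.dist_nonneg _ _) (S.rad_pos a).le) ha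
  have key : ∀ s t : ι, S.dist s t = S.dist i j → ∀ z w,
      S.prob a t z * S.prob b t w ≤ Real.exp (4 * v) * (S.prob a s z * S.prob b s w) := by
    intro s t hst z w
    have h1 := S.prob_le_exp_mul a s t z
    have h2 := S.prob_le_exp_mul b s t w
    rw [hst] at h1 h2
    refine (mul_le_mul h1 h2 (S.prob_nonneg _ _ _)
      (mul_nonneg (Real.exp_pos _).le (S.prob_nonneg _ _ _))).trans ?_
    rw [mul_mul_mul_comm, ← Real.exp_add]
    exact mul_le_mul_of_nonneg_right (Real.exp_le_exp.2 (by linarith))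
      (mul_nonneg (S.prob_nonneg _ _ _) (S.prob_nonneg _ _ _))
  have h : ∀ z w, |S.prob a i z * S.prob b i w - S.prob a j z * S.prob b j w| ≤
      8 * v * (S.prob a i z * S.prob b i w) := fun z w =>
    (abs_sub_le_of_exp (mul_nonneg (S.prob_nonneg _ _ _) (S.prob_nonneg _ _ _)) (by linarith) hv
      (key j i (S.dist_comm j i) z w) (key i j rfl z w)).trans (le_of_eq (by ring))
  simp only [pairs, ← sum_sub_distrib]
  refine (abs_sum_le_sum_abs _ _).trans ?_
  rw [mul_sum]
  refine sum_le_sum fun z _ => (abs_sum_le_sum_abs _ _).trans ?_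
  rw [mul_sum]
  refine sum_le_sum fun w _ => ?_
  rw [← sub_mul, abs_mul, abs_abs, ← mul_assoc]
  exact mul_le_mul_of_nonneg_right (h z w) (abs_nonneg _)

lemma spread_lip {l : ℕ} {i j : ι} (h : S.dist i j ≤ S.rad l / 8) (c : κ) :
    |S.spread l i c - S.spread l j c| ≤ 32 * (S.dist i j / S.rad l) * S.spread l i c := by
  have hr := S.rad_pos l
  have hu8 : S.dist i j / S.rad l ≤ 1 / 8 := by rw [div_le_iff₀ hr]; linarith
  have hu : 0 ≤ S.dist i j / S.rad l := div_nonneg (S.dist_nonneg _ _) hr.le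
  have h1 := S.pairs_lip (a := l) (b := l) le_rfl le_rfl (by linarith) c
  have h3 : 0 ≤ S.dist i j / S.rad l * S.pairs l l i c := mul_nonneg hu (S.pairs_nonneg l l i c)
  rw [spread, spread, ← sub_div, abs_div, abs_of_pos hr, mul_div_assoc',
    div_le_div_iff_of_pos_right hr]
  linarith

lemma rad_le_pow_mul (W l : ℕ) : S.rad l ≤ 2 ^ W * S.rad (l - W) := by
  refine (S.rad_mono (show l ≤ W + (l - W) by omega)).trans_eq ?_
  simp only [rad, pow_add]
  ring

lemma window_lip {W l : ℕ} {i j : ι} (h : S.dist i j ≤ S.rad (l - W) / 8) (c : κ) :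
    |S.window W l i c - S.window W l j c| ≤
      32 * 2 ^ W * (S.dist i j / S.rad l) * S.window W l i c := by
  have hr := S.rad_pos l
  have hr' := S.rad_pos (l - W)
  set v := S.dist i j / S.rad (l - W) with hv
  have hv8 : v ≤ 1 / 8 := by rw [hv, div_le_iff₀ hr']; linarith
  have hv0 : 0 ≤ v := div_nonneg (S.dist_nonneg _ _) hr'.le
  have hvl : v ≤ 2 ^ W * (S.dist i j / S.rad l) := by
    rw [hv, mul_div_assoc', div_le_div_iff₀ hr' hr]
    have := mul_le_mul_of_nonneg_left (S.rad_le_pow_mul W l) (S.dist_nonneg i j)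
    linarith
  have hlev : ∀ a ∈ Icc (l - W) l, S.dist i j / S.rad a ≤ v := fun a ha =>
    div_le_div_of_nonneg_left (S.dist_nonneg _ _) hr' (S.rad_mono (mem_Icc.1 ha).1)
  have h1 : |∑ a ∈ Icc (l - W) l, ∑ b ∈ Icc (l - W) l, S.pairs a b i c -
      ∑ a ∈ Icc (l - W) l, ∑ b ∈ Icc (l - W) l, S.pairs a b j c| ≤
      8 * v * ∑ a ∈ Icc (l - W) l, ∑ b ∈ Icc (l - W) l, S.pairs a b i c := by
    simp only [← sum_sub_distrib]
    refine (abs_sum_le_sum_abs _ _).trans ?_
    rw [mul_sum]
    refine sum_le_sum fun a ha => (abs_sum_le_sum_abs _ _).trans ?_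
    rw [mul_sum]
    exact sum_le_sum fun b hb => S.pairs_lip (hlev a ha) (hlev b hb) (by linarith) c
  set s := ∑ a ∈ Icc (l - W) l, ∑ b ∈ Icc (l - W) l, S.pairs a b i c with hs
  have hs0 : 0 ≤ s := sum_nonneg fun a _ => sum_nonneg fun b _ => S.pairs_nonneg a b i c
  rw [window, window, ← hs, ← sub_div, abs_div, abs_of_pos hr, mul_div_assoc',
    div_le_div_iff_of_pos_right hr]
  refine h1.trans (mul_le_mul_of_nonneg_right ?_ hs0)
  have : 0 ≤ 2 ^ W * (S.dist i j / S.rad l) :=
    mul_nonneg (by positivity) (div_nonneg (S.dist_nonneg _ _) hr.le)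
  linarith

lemma pairs_le_window {W l a b : ℕ} (ha : a ∈ Icc (l - W) l) (hb : b ∈ Icc (l - W) l) (i : ι)
    (c : κ) : S.pairs a b i c ≤ S.rad l * S.window W l i c := by
  rw [window, mul_div_cancel₀ _ (S.rad_pos l).ne']
  exact (single_le_sum (f := fun b => S.pairs a b i c) (fun b _ => S.pairs_nonneg a b i c) hb).trans
    (single_le_sum (f := fun a => ∑ b ∈ Icc (l - W) l, S.pairs a b i c)
      (fun a _ => sum_nonneg fun b _ => S.pairs_nonneg a b i c) ha)

/-! ### Rounding and monotonicity in the level -/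

lemma snap_near (l : ℕ) (i z : ι) :
    S.dist i (S.snap l z) ≤ 3 * S.dist i z + 2 * S.roundCost l i := by
  have hk : (1 : ℝ) ≤ S.k := by exact_mod_cast S.hk
  have hs := S.dist_nonneg i z
  have hR := S.roundCost_nonneg l i
  rw [snap]
  split_ifs with h
  · have h1 : S.dist i (S.ctr z) ≤ S.dist i z + 2 * S.rM z :=
      (S.dist_tri i z (S.ctr z)).trans (add_le_add_right (S.ctr_near z) _)
    have h2 : S.rM z ≤ S.rM i + S.dist i z := by
      have := S.rM_lip z i
      rw [Dim.nm_sub_comm] at this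
      exact this
    rcases le_or_gt (S.rM i) (32 * (S.k : ℝ) * S.rad l) with h3 | h3
    · have h4 : S.roundCost l i = S.rM i := by
        rw [roundCost, min_eq_left (le_max_of_le_right (by linarith))]
      rw [h4]
      linarith
    · have h5 : S.rM i ≤ S.rM z + S.dist i z := S.rM_lip i z
      linarith
  · linarith

lemma avgDist_mono {a b : ℕ} (h : a ≤ b) (i : ι) : S.avgDist a i ≤ S.avgDist b i := by
  have hra := S.rad_pos a
  have hrb := S.rad_pos b
  have hrab := S.rad_mono h
  have e : ∀ l, S.avgDist l i = (∑ z, S.wgt l i z * S.dist i z) / S.mass l i := fun l => by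
    rw [avgDist, sum_div]
    exact sum_congr rfl fun z _ => by rw [prob]; ring
  rw [e, e, div_le_div_iff₀ (S.mass_pos a i) (S.mass_pos b i)]
  set f : ι → ι → ℝ := fun z u => S.wgt b i z * S.dist i z * S.wgt a i u -
    S.wgt a i z * S.dist i z * S.wgt b i u with hf
  have hpos : ∀ z u, 0 ≤ f z u + f u z := by
    intro z u
    have key : ∀ s t : ι, S.dist i t ≤ S.dist i s →
        S.wgt a i s * S.wgt b i t ≤ S.wgt b i s * S.wgt a i t := by
      intro s t hst
      rw [wgt, wgt, wgt, wgt, ← Real.exp_add, ← Real.exp_add, Real.exp_le_exp]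
      have : (S.dist i s - S.dist i t) / S.rad b ≤ (S.dist i s - S.dist i t) / S.rad a :=
        div_le_div_of_nonneg_left (by linarith) hra hrab
      rw [sub_div, sub_div] at this
      linarith
    have e' : f z u + f u z = (S.dist i z - S.dist i u) *
        (S.wgt b i z * S.wgt a i u - S.wgt a i z * S.wgt b i u) := by
      simp only [hf]; ring
    rw [e']
    rcases le_total (S.dist i u) (S.dist i z) with h' | h'
    · exact mul_nonneg (sub_nonneg.2 h') (sub_nonneg.2 (key z u h'))
    · have := key u z h'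
      exact mul_nonneg_of_nonpos_of_nonpos (sub_nonpos.2 h') (by linarith)
  have hnn : 0 ≤ ∑ z, ∑ u, (f z u + f u z) :=
    sum_nonneg fun z _ => sum_nonneg fun u _ => hpos z u
  simp only [sum_add_distrib] at hnn
  rw [sum_comm (f := fun z u => f u z)] at hnn
  simp only [hf, sum_sub_distrib, ← mul_sum, ← sum_mul] at hnn
  rw [mass, mass]
  linarith

lemma roundCost_mono {a b : ℕ} (h : a ≤ b) (i : ι) : S.roundCost a i ≤ S.roundCost b i := by
  refine min_le_min le_rfl (max_le_max le_rfl (sub_le_sub_right ?_ _))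
  exact mul_le_mul_of_nonneg_left (S.rad_mono h) (by positivity)

lemma rad_mul_growth_mono {a b : ℕ} (h : a ≤ b) (i : ι) :
    S.rad a * S.growth a i ≤ S.rad b * S.growth b i := by
  rw [S.rad_mul_growth, S.rad_mul_growth]
  linarith [S.avgDist_mono h i, S.roundCost_mono h i]

/-! ### Norms -/

lemma nm_pairs_le_aux (a b : ℕ) (i : ι) : nm S.p (fun c => S.pairs a b i c) ≤
    (3 * S.avgDist a i + 2 * S.roundCost a i) + (3 * S.avgDist b i + 2 * S.roundCost b i) := by
  have e : (fun c => S.pairs a b i c) = ∑ z, ∑ w,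
      (S.prob a i z * S.prob b i w) • fun c => |S.x (S.snap a z) c - S.x (S.snap b w) c| := by
    funext c
    simp [pairs, Finset.sum_apply]
  rw [e]
  calc _ ≤ ∑ z, ∑ w, nm S.p
        ((S.prob a i z * S.prob b i w) • fun c => |S.x (S.snap a z) c - S.x (S.snap b w) c|) :=
        (Dim.nm_sum_le S.hp.le _ _).trans (sum_le_sum fun z _ => Dim.nm_sum_le S.hp.le _ _)
    _ ≤ ∑ z, ∑ w, S.prob a i z * S.prob b i w *
        ((3 * S.dist i z + 2 * S.roundCost a i) + (3 * S.dist i w + 2 * S.roundCost b i)) := by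
        refine sum_le_sum fun z _ => sum_le_sum fun w _ => ?_
        have hpp := mul_nonneg (S.prob_nonneg a i z) (S.prob_nonneg b i w)
        rw [Dim.nm_smul S.p_pos, abs_of_nonneg hpp]
        refine mul_le_mul_of_nonneg_left ?_ hpp
        have : nm S.p (fun c => |S.x (S.snap a z) c - S.x (S.snap b w) c|) =
            S.dist (S.snap a z) (S.snap b w) := by
          simp [dist, Dim.nm, Dim.pw]
        rw [this]
        refine (S.dist_tri _ i _).trans ?_
        rw [S.dist_comm _ i]
        exact add_le_add (S.snap_near a i z) (S.snap_near b i w)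
    _ = ∑ z, ∑ w, (S.prob a i z * (3 * S.dist i z + 2 * S.roundCost a i) * S.prob b i w +
        S.prob a i z * (S.prob b i w * (3 * S.dist i w + 2 * S.roundCost b i))) :=
        sum_congr rfl fun z _ => sum_congr rfl fun w _ => by ring
    _ = ∑ z, S.prob a i z * (3 * S.dist i z + 2 * S.roundCost a i) +
        ∑ w, S.prob b i w * (3 * S.dist i w + 2 * S.roundCost b i) := by
        simp only [sum_add_distrib, ← mul_sum, ← sum_mul, S.prob_sum, mul_one, one_mul]
    _ = _ := by
        have e2 : ∀ d, ∑ z, S.prob d i z * (3 * S.dist i z + 2 * S.roundCost d i) =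
            3 * S.avgDist d i + 2 * S.roundCost d i := fun d => by
          simp only [mul_add, sum_add_distrib, ← sum_mul, S.prob_sum, one_mul, avgDist, mul_sum]
          congr 1
          exact sum_congr rfl fun z _ => by ring
        rw [e2, e2]

lemma nm_pairs_le (a b : ℕ) (i : ι) : nm S.p (fun c => S.pairs a b i c) ≤
    S.rad a * S.growth a i + S.rad b * S.growth b i := by
  refine (S.nm_pairs_le_aux a b i).trans ?_
  rw [S.rad_mul_growth, S.rad_mul_growth]
  linarith [S.avgDist_nonneg a i, S.avgDist_nonneg b i, S.roundCost_nonneg a i,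
    S.roundCost_nonneg b i]

lemma nm_div {r : ℝ} (hr : 0 < r) (v : κ → ℝ) :
    nm S.p (fun c => v c / r) = nm S.p v / r := by
  rw [show (fun c => v c / r) = r⁻¹ • v from funext fun c => by simp [div_eq_inv_mul],
    Dim.nm_smul S.p_pos, abs_of_pos (inv_pos.2 hr), div_eq_inv_mul]

lemma nm_spread_le (l : ℕ) (i : ι) : nm S.p (fun c => S.spread l i c) ≤ S.growth l i := by
  simp only [spread]
  rw [S.nm_div (S.rad_pos l), div_le_iff₀ (S.rad_pos l), mul_comm, S.rad_mul_growth]
  refine (S.nm_pairs_le_aux l l i).trans ?_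
  linarith [S.roundCost_nonneg l i]

lemma nm_self_sub_mean_le (l : ℕ) (i : ι) :
    nm S.p (fun c => S.x i c - S.mean l i c) ≤ S.rad l * S.growth l i := by
  have e : (fun c => S.x i c - S.mean l i c) =
      ∑ z, S.prob l i z • (S.x i - S.x (S.snap l z)) := by
    funext c
    simp only [Finset.sum_apply, Pi.smul_apply, smul_eq_mul, Pi.sub_apply, mul_sub,
      sum_sub_distrib, ← sum_mul, S.prob_sum, one_mul, mean]
  rw [e]
  refine (Dim.nm_sum_le S.hp.le _ _).trans ?_
  calc _ ≤ ∑ z, S.prob l i z * (3 * S.dist i z + 2 * S.roundCost l i) := sum_le_sum fun z _ => by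
        rw [Dim.nm_smul S.p_pos, abs_of_nonneg (S.prob_nonneg _ _ _)]
        exact mul_le_mul_of_nonneg_left (S.snap_near l i z) (S.prob_nonneg _ _ _)
    _ = 3 * S.avgDist l i + 2 * S.roundCost l i := by
        simp only [mul_add, sum_add_distrib, ← sum_mul, S.prob_sum, one_mul, avgDist, mul_sum]
        congr 1
        exact sum_congr rfl fun z _ => by ring
    _ ≤ _ := by
        rw [S.rad_mul_growth]
        linarith [S.avgDist_nonneg l i, S.roundCost_nonneg l i]

lemma nm_window_le (W l : ℕ) (i : ι) :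
    nm S.p (fun c => S.window W l i c) ≤ 2 * ((W : ℝ) + 1) ^ 2 * S.growth l i := by
  have hg : 0 ≤ S.rad l * S.growth l i := mul_nonneg (S.rad_pos l).le (S.growth_nonneg l i)
  have hc : ((Icc (l - W) l).card : ℝ) ≤ (W : ℝ) + 1 := by
    rw [Nat.card_Icc]
    exact_mod_cast (by omega : l + 1 - (l - W) ≤ W + 1)
  simp only [window]
  rw [S.nm_div (S.rad_pos l), div_le_iff₀ (S.rad_pos l)]
  have e : (fun c => ∑ a ∈ Icc (l - W) l, ∑ b ∈ Icc (l - W) l, S.pairs a b i c) =
      ∑ a ∈ Icc (l - W) l, ∑ b ∈ Icc (l - W) l, fun c => S.pairs a b i c := by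
    funext c
    simp [Finset.sum_apply]
  rw [e]
  calc _ ≤ ∑ a ∈ Icc (l - W) l, ∑ b ∈ Icc (l - W) l, nm S.p (fun c => S.pairs a b i c) :=
        (Dim.nm_sum_le S.hp.le _ _).trans (sum_le_sum fun a _ => Dim.nm_sum_le S.hp.le _ _)
    _ ≤ ∑ _a ∈ Icc (l - W) l, ∑ _b ∈ Icc (l - W) l, 2 * (S.rad l * S.growth l i) :=
        sum_le_sum fun a ha => sum_le_sum fun b hb => (S.nm_pairs_le a b i).trans (by
          linarith [S.rad_mul_growth_mono (mem_Icc.1 ha).2 i,
            S.rad_mul_growth_mono (mem_Icc.1 hb).2 i])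
    _ = ((Icc (l - W) l).card : ℝ) ^ 2 * (2 * (S.rad l * S.growth l i)) := by
        simp only [sum_const, nsmul_eq_mul]; ring
    _ ≤ ((W : ℝ) + 1) ^ 2 * (2 * (S.rad l * S.growth l i)) :=
        mul_le_mul_of_nonneg_right (pow_le_pow_left₀ (Nat.cast_nonneg _) hc 2) (by linarith)
    _ = _ := by ring

lemma growth_lip {l : ℕ} {i j : ι} (h : S.dist i j ≤ S.rad l / 8) :
    |S.growth l i - S.growth l j| ≤ 32 * (S.dist i j / S.rad l) * (S.growth l i + 1) := by
  have hr := S.rad_pos l
  set u := S.dist i j / S.rad l with hu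
  have hu0 : 0 ≤ u := div_nonneg (S.dist_nonneg _ _) hr.le
  have hu8 : u ≤ 1 / 8 := by rw [hu, div_le_iff₀ hr]; linarith
  have hd : S.dist i j = u * S.rad l := (div_mul_cancel₀ _ hr.ne').symm
  have hA : |S.avgDist l i - S.avgDist l j| ≤ 4 * u * S.avgDist l i + 2 * S.dist i j := by
    have e : S.avgDist l i - S.avgDist l j = ∑ z, ((S.prob l i z - S.prob l j z) * S.dist j z +
        S.prob l i z * (S.dist i z - S.dist j z)) := by
      simp only [avgDist, ← sum_sub_distrib]
      exact sum_congr rfl fun z _ => by ring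
    rw [e]
    refine (abs_sum_le_sum_abs _ _).trans ?_
    calc _ ≤ ∑ z, (4 * u * (S.prob l i z * S.dist i z) + 2 * S.dist i j * S.prob l i z) :=
          sum_le_sum fun z _ => by
            refine (abs_add_le _ _).trans ?_
            rw [abs_mul, abs_mul, abs_of_nonneg (S.dist_nonneg j z),
              abs_of_nonneg (S.prob_nonneg l i z)]
            have h1 := mul_le_mul (S.abs_prob_sub_le h z)
              (show S.dist j z ≤ S.dist i z + S.dist i j by
                linarith [(abs_le.1 (S.abs_dist_sub_le i j z)).1])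
              (S.dist_nonneg j z)
              (mul_nonneg (mul_nonneg (by norm_num) hu0) (S.prob_nonneg l i z))
            have h2 := mul_le_mul_of_nonneg_left (S.abs_dist_sub_le i j z) (S.prob_nonneg l i z)
            have h3 := mul_le_mul_of_nonneg_right hu8
              (mul_nonneg (S.prob_nonneg l i z) (S.dist_nonneg i j))
            rw [← hu] at h1
            clear_value u
            linarith [mul_nonneg (S.prob_nonneg l i z) (S.dist_nonneg i j)]
      _ = _ := by
          rw [sum_add_distrib, ← mul_sum, ← mul_sum, S.prob_sum, mul_one, avgDist]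
  have hR : |S.roundCost l i - S.roundCost l j| ≤ S.dist i j := by
    have hM : |S.rM i - S.rM j| ≤ S.dist i j := by
      have h1 : S.rM i ≤ S.rM j + S.dist i j := S.rM_lip i j
      have h2 : S.rM j ≤ S.rM i + S.dist i j := by
        have := S.rM_lip j i
        rwa [Dim.nm_sub_comm] at this
      rw [abs_le]
      constructor <;> linarith
    refine (abs_min_sub_min_le_max _ _ _ _).trans (max_le hM ?_)
    refine (abs_max_sub_max_le_max _ _ _ _).trans (max_le (by simp [S.dist_nonneg]) ?_)
    rw [sub_sub_sub_cancel_left, abs_sub_comm]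
    exact hM
  have key : |6 * (S.avgDist l i + S.roundCost l i) - 6 * (S.avgDist l j + S.roundCost l j)| ≤
      4 * u * (6 * (S.avgDist l i + S.roundCost l i)) + 18 * (u * S.rad l) := by
    obtain ⟨a1, a2⟩ := abs_le.1 hA
    obtain ⟨b1, b2⟩ := abs_le.1 hR
    have := mul_nonneg hu0 (S.roundCost_nonneg l i)
    rw [abs_le]
    constructor <;> linarith
  rw [growth, growth, ← sub_div, abs_div, abs_of_pos hr, div_le_iff₀ hr]
  refine key.trans ?_
  have h0 : 0 ≤ u * (6 * (S.avgDist l i + S.roundCost l i)) :=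
    mul_nonneg hu0 (by linarith [S.avgDist_nonneg l i, S.roundCost_nonneg l i])
  have h1 : 0 ≤ u * S.rad l := mul_nonneg hu0 hr.le
  have e : 32 * u * (6 * (S.avgDist l i + S.roundCost l i) / S.rad l + 1) * S.rad l =
      32 * (u * (6 * (S.avgDist l i + S.roundCost l i))) + 32 * (u * S.rad l) := by
    field_simp
  rw [e]
  linarith

lemma growth_le_top {l : ℕ} {i : ι} {D : ℝ} (hD : ∀ z, S.dist i z ≤ D) (hM : S.rM i ≤ D) :
    S.growth l i ≤ 12 * D / S.rad l := by
  rw [growth, div_le_div_iff_of_pos_right (S.rad_pos l)]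
  have h1 : S.avgDist l i ≤ D := by
    calc S.avgDist l i ≤ ∑ z, S.prob l i z * D :=
          sum_le_sum fun z _ => mul_le_mul_of_nonneg_left (hD z) (S.prob_nonneg _ _ _)
      _ = D := by rw [← sum_mul, S.prob_sum, one_mul]
  have h2 : S.roundCost l i ≤ D := (min_le_left _ _).trans hM
  linarith

/-- The mean distance is paid by the growth of the mass. -/
lemma avgDist_le_log (l : ℕ) (i : ι) : S.avgDist l i / (2 * S.rad l) ≤
    Real.log (S.mass (l + 1) i) - Real.log (S.mass l i) := by
  have hr := S.rad_pos l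
  have hm := S.mass_pos l i
  set m := S.avgDist l i / (2 * S.rad l) with hmdef
  have e : S.mass (l + 1) i / S.mass l i =
      ∑ z, S.prob l i z * Real.exp (S.dist i z / (2 * S.rad l)) := by
    rw [mass, sum_div]
    refine sum_congr rfl fun z _ => ?_
    rw [prob, wgt, wgt, div_mul_eq_mul_div, ← Real.exp_add, S.rad_succ]
    congr 2
    field_simp
    ring
  have h1 : Real.exp m ≤ S.mass (l + 1) i / S.mass l i := by
    rw [e]
    calc Real.exp m = ∑ z, S.prob l i z *
          (Real.exp m * (1 + (S.dist i z / (2 * S.rad l) - m))) := by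
          have e1 : ∑ z, S.prob l i z * (S.dist i z / (2 * S.rad l)) = m := by
            rw [hmdef, avgDist, sum_div]
            exact sum_congr rfl fun z _ => by ring
          have e2 : ∀ z, S.prob l i z * (Real.exp m * (1 + (S.dist i z / (2 * S.rad l) - m))) =
              S.prob l i z * (Real.exp m * (1 - m)) +
                Real.exp m * (S.prob l i z * (S.dist i z / (2 * S.rad l))) := fun z => by ring
          simp only [e2, sum_add_distrib, ← sum_mul, ← mul_sum, S.prob_sum, e1]
          ring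
      _ ≤ _ := sum_le_sum fun z _ => by
          refine mul_le_mul_of_nonneg_left ?_ (S.prob_nonneg _ _ _)
          have h2 := Real.add_one_le_exp (S.dist i z / (2 * S.rad l) - m)
          calc _ ≤ Real.exp m * Real.exp (S.dist i z / (2 * S.rad l) - m) :=
                mul_le_mul_of_nonneg_left (by linarith) (Real.exp_pos m).le
            _ = _ := by rw [← Real.exp_add, add_sub_cancel]
  rw [← Real.log_div (S.mass_pos _ i).ne' hm.ne']
  exact (Real.le_log_iff_exp_le (div_pos (S.mass_pos _ i) hm)).2 h1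

lemma sum_growth_le (L : ℕ) (i : ι) : ∑ l ∈ range L, S.growth l i ≤ 4000 * (S.k : ℝ) := by
  have hk : (1 : ℝ) ≤ S.k := by exact_mod_cast S.hk
  have hA : ∑ l ∈ range L, S.avgDist l i / S.rad l ≤ 2 * (S.k : ℝ) := by
    calc ∑ l ∈ range L, S.avgDist l i / S.rad l
        = 2 * ∑ l ∈ range L, S.avgDist l i / (2 * S.rad l) := by
          rw [mul_sum]; exact sum_congr rfl fun l _ => by ring
      _ ≤ 2 * ∑ l ∈ range L, (Real.log (S.mass (l + 1) i) - Real.log (S.mass l i)) :=
          mul_le_mul_of_nonneg_left (sum_le_sum fun l _ => S.avgDist_le_log l i) (by norm_num)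
      _ = 2 * (Real.log (S.mass L i) - Real.log (S.mass 0 i)) := by
          rw [sum_range_sub (fun l => Real.log (S.mass l i))]
      _ ≤ _ := by
          have h0 := Real.log_nonneg (S.one_le_mass 0 i)
          have h1 : Real.log (S.mass L i) ≤ S.k := by
            have h2 : S.mass L i ≤ (2 : ℝ) ^ S.k :=
              (S.mass_le_card L i).trans (by exact_mod_cast S.hn.le)
            refine (Real.log_le_log (S.mass_pos L i) h2).trans ?_
            rw [Real.log_pow]
            refine mul_le_of_le_one_right (by linarith) ?_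
            linarith [Real.log_le_sub_one_of_pos (two_pos : (0 : ℝ) < 2)]
          linarith
  have hR : ∑ l ∈ range L, S.roundCost l i / S.rad l ≤ 128 * (S.k : ℝ) := by
    set φ : ℕ → ℝ := fun l => min (128 * (S.k : ℝ)) (2 * S.rM i / S.rad l) with hφ
    have hstep : ∀ l, S.roundCost l i / S.rad l ≤ φ l - φ (l + 1) := by
      intro l
      have hr := S.rad_pos l
      have h2 : 2 * S.rM i / S.rad (l + 1) = S.rM i / S.rad l := by
        rw [S.rad_succ, mul_div_mul_left _ _ (two_ne_zero)]
      have h3 : 2 * S.rM i / S.rad l = 2 * (S.rM i / S.rad l) := mul_div_assoc _ _ _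
      have h4 : 0 ≤ S.rM i / S.rad l := div_nonneg (S.rM_nonneg i) hr.le
      simp only [hφ, h2, h3]
      rcases le_or_gt (S.rM i / S.rad l) (64 * (S.k : ℝ)) with h5 | h5
      · rw [min_eq_right (by linarith), min_eq_right (by linarith)]
        have : S.roundCost l i / S.rad l ≤ S.rM i / S.rad l :=
          (div_le_div_iff_of_pos_right hr).2 (min_le_left _ _)
        linarith
      · have h6 : S.roundCost l i = 0 := by
          rw [roundCost, max_eq_left, min_eq_right (S.rM_nonneg i)]
          have := (lt_div_iff₀ hr).1 h5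
          linarith
        rw [h6, zero_div, min_eq_left (by linarith)]
        exact sub_nonneg.2 (min_le_left _ _)
    calc _ ≤ ∑ l ∈ range L, (φ l - φ (l + 1)) := sum_le_sum fun l _ => hstep l
      _ = φ 0 - φ L := sum_range_sub' φ L
      _ ≤ _ := by
          have h1 : φ 0 ≤ 128 * (S.k : ℝ) := min_le_left _ _
          have h2 : 0 ≤ φ L := le_min (by linarith)
            (div_nonneg (by linarith [S.rM_nonneg i]) (S.rad_pos L).le)
          linarith
  have e : ∑ l ∈ range L, S.growth l i =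
      6 * (∑ l ∈ range L, S.avgDist l i / S.rad l + ∑ l ∈ range L, S.roundCost l i / S.rad l) := by
    rw [← sum_add_distrib, mul_sum]
    exact sum_congr rfl fun l _ => by rw [growth]; ring
  rw [e]
  linarith

end Vale.Agent.P249.Core.Geo
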