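import Vale.Agent.P249.Core.Sums
import Mathlib.Analysis.SpecialFunctions.Pow.Real
import Mathlib.Tactic.FieldSimp
import Mathlib.Tactic.Linarith
import Mathlib.Tactic.Ring

/-!
The multiscale decomposition of one coordinate of one point, with its gate.
-/

namespace Vale.Agent.P249.Core

open Finset

/-- The parameters shared by all points and coordinates. -/
structure Scale where
  /-- The top level. -/
  N : ℕ
  /-- The radius of level zero. -/
  r0 : ℝ
  hr0 : 0 < r0
  /-- The weight of the memory. -/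
  σ : ℝ
  hσ : 0 < σ
  hσ1 : σ ≤ 1
  /-- The bottom of the gate. -/
  fl : ℝ
  hfl : 0 < fl
  /-- The logarithmic width of the gate. -/
  h : ℝ
  hh : 0 < h

namespace Scale

variable (P : Scale)

/-- The radius of a level. -/
def r (l : ℕ) : ℝ := P.r0 * 2 ^ l

/-- The top of the gate. -/
noncomputable def cap : ℝ := P.fl * Real.exp P.h

lemma r_pos (l : ℕ) : 0 < P.r l := by
  have := P.hr0
  rw [r]; positivity

lemma r_succ (l : ℕ) : P.r (l + 1) = 2 * P.r l := by rw [r, r, pow_succ]; ring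

lemma r_mono {a b : ℕ} (h : a ≤ b) : P.r a ≤ P.r b :=
  mul_le_mul_of_nonneg_left (pow_le_pow_right₀ one_le_two h) P.hr0.le

lemma r_add (a j : ℕ) : P.r (a + j) = 2 ^ j * P.r a := by rw [r, r, pow_add]; ring

lemma cap_pos : 0 < P.cap := mul_pos P.hfl (Real.exp_pos _)

lemma fl_le_cap : P.fl ≤ P.cap := le_mul_of_one_le_right P.hfl.le (Real.one_le_exp P.hh.le)

lemma log_cap : Real.log P.cap = Real.log P.fl + P.h := by
  rw [cap, Real.log_mul P.hfl.ne' (Real.exp_pos _).ne', Real.log_exp]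

end Scale

/-- The data of one coordinate of one point at all levels. -/
structure Line where
  /-- The coordinate. -/
  x0 : ℝ
  /-- The smoothed values. -/
  m : ℕ → ℝ
  /-- The spreads. -/
  A : ℕ → ℝ
  /-- A small extra term. -/
  E : ℕ → ℝ
  /-- The weights of the levels. -/
  χ : ℕ → ℝ
  /-- The clock factors. -/
  g : ℕ → ℝ

/-- The standing assumptions on the data of one point. -/
structure Line.Ok (L : Line) (N : ℕ) : Prop where
  hA : ∀ l, 0 ≤ L.A l
  hE : ∀ l, 0 ≤ L.E l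
  hχ0 : ∀ l, 0 ≤ L.χ l
  hχ1 : ∀ l, L.χ l ≤ 1
  hg0 : ∀ l, 1 / 2 ≤ L.g l
  hg1 : ∀ l, L.g l ≤ 1
  hgχ : ∀ l, L.g l < 1 → L.χ l = 1
  hgN : L.g N < 1

namespace Line

variable (L : Line)

/-- The chain of partially smoothed values. -/
def q : ℕ → ℝ
  | 0 => L.x0
  | l + 1 => q l + L.χ (l + 1) * (L.m (l + 1) - q l)

/-- The increment of a level. -/
def δ (l : ℕ) : ℝ := L.q (l - 1) - L.q l

/-- The relative distance to the next smoothed value. -/
noncomputable def Z (P : Scale) (l : ℕ) : ℝ := |L.q (l - 1) - L.m l| / P.r l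

/-- The main part of the size of a level. -/
noncomputable def B (P : Scale) (l : ℕ) : ℝ := L.A l + L.Z P l

/-- The size of a level. -/
noncomputable def X (P : Scale) (l : ℕ) : ℝ := L.χ l * L.B P l + L.E l

/-- The compression of a level. -/
noncomputable def w (P : Scale) (l : ℕ) : ℝ := ∏ m ∈ Finset.Icc (l + 1) P.N, (2 * L.g m)⁻¹

/-- The compressed size of a level. -/
noncomputable def Xs (P : Scale) (l : ℕ) : ℝ := L.w P l * L.X P l

/-- The size of all levels from `l` on. -/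
noncomputable def U (P : Scale) (l : ℕ) : ℝ := tail (L.Xs P) P.N l

/-- The capped memory of the lower levels. -/
noncomputable def mem (P : Scale) : ℕ → ℝ
  | 0 => 0
  | l + 1 => min P.cap (L.Xs P (l + 1) + L.g (l + 1) ^ 2 * mem P l)

/-- The quantity driving the gate. -/
noncomputable def V (P : Scale) (l : ℕ) : ℝ :=
  min P.cap (L.U P l + P.σ * (L.g l ^ 2 * L.mem P (l - 1)))

/-- The gate on a logarithmic scale. -/
noncomputable def F (P : Scale) (l : ℕ) : ℝ := Real.log (max (L.V P l) P.fl) - Real.log P.fl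

lemma q_succ (l : ℕ) : L.q (l + 1) = L.q l + L.χ (l + 1) * (L.m (l + 1) - L.q l) := rfl

lemma q_of_pos {l : ℕ} (hl : 1 ≤ l) : L.q l = L.q (l - 1) + L.χ l * (L.m l - L.q (l - 1)) := by
  obtain ⟨j, rfl⟩ := Nat.exists_eq_add_of_le' hl
  rfl

lemma q_eq_m {l : ℕ} (hl : 1 ≤ l) (h : L.χ l = 1) : L.q l = L.m l := by
  rw [L.q_of_pos hl, h]; ring

lemma δ_eq {l : ℕ} (hl : 1 ≤ l) : L.δ l = L.χ l * (L.q (l - 1) - L.m l) := by
  rw [δ, L.q_of_pos hl]; ring

variable {L} {P : Scale} (ok : L.Ok P.N)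
include ok

omit ok in
lemma Z_nonneg (l : ℕ) : 0 ≤ L.Z P l := div_nonneg (abs_nonneg _) (P.r_pos l).le

lemma B_nonneg (l : ℕ) : 0 ≤ L.B P l := add_nonneg (ok.hA l) (Z_nonneg l)

lemma chiB_nonneg (l : ℕ) : 0 ≤ L.χ l * L.B P l := mul_nonneg (ok.hχ0 l) (B_nonneg ok l)

lemma X_nonneg (l : ℕ) : 0 ≤ L.X P l := add_nonneg (chiB_nonneg ok l) (ok.hE l)

lemma chiB_le_X (l : ℕ) : L.χ l * L.B P l ≤ L.X P l := le_add_of_nonneg_right (ok.hE l)

lemma abs_δ_le {l : ℕ} (hl : 1 ≤ l) : |L.δ l| ≤ P.r l * L.X P l := by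
  rw [L.δ_eq hl, abs_mul, abs_of_nonneg (ok.hχ0 l)]
  refine le_trans (le_of_eq ?_) (mul_le_mul_of_nonneg_left
    (show L.χ l * L.Z P l ≤ L.X P l from (mul_le_mul_of_nonneg_left
      (le_add_of_nonneg_left (ok.hA l)) (ok.hχ0 l)).trans (chiB_le_X ok l)) (P.r_pos l).le)
  have := (P.r_pos l).ne'
  rw [Z]
  field_simp

lemma g_pos (l : ℕ) : 0 < L.g l := lt_of_lt_of_le (by norm_num) (ok.hg0 l)

lemma sq_g_ge (l : ℕ) : 1 / 4 ≤ L.g l ^ 2 := by
  have := ok.hg0 l; nlinarith

lemma sq_g_le (l : ℕ) : L.g l ^ 2 ≤ 1 := pow_le_one₀ (g_pos ok l).le (ok.hg1 l)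

lemma w_pos (l : ℕ) : 0 < L.w P l := prod_pos fun m _ => by
  have := g_pos ok m; positivity

omit ok in
lemma w_top {l : ℕ} (h : P.N ≤ l) : L.w P l = 1 := by
  rw [w, Finset.Icc_eq_empty (by omega), prod_empty]

lemma w_succ {l : ℕ} (h : l < P.N) : L.w P l * (2 * L.g (l + 1)) = L.w P (l + 1) := by
  rw [w, w, Icc_eq_insert (show l + 1 ≤ P.N from h), prod_insert (by simp)]
  have := (g_pos ok (l + 1)).ne'
  field_simp

lemma w_le_succ (l : ℕ) : L.w P l ≤ L.w P (l + 1) := by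
  rcases lt_or_ge l P.N with h | h
  · rw [← w_succ ok h]
    exact le_mul_of_one_le_right (w_pos ok l).le (by linarith [ok.hg0 (l + 1)])
  · rw [w_top h, w_top (h.trans (Nat.le_succ l))]

lemma w_mono {a b : ℕ} (hab : a ≤ b) : L.w P a ≤ L.w P b :=
  monotone_nat_of_le_succ (w_le_succ ok) hab

lemma w_le_one (l : ℕ) : L.w P l ≤ 1 :=
  (w_mono ok (le_max_left l P.N)).trans (le_of_eq (w_top (le_max_right l P.N)))

lemma w_succ_le (l : ℕ) : L.w P (l + 1) ≤ 2 * L.w P l := by
  rcases lt_or_ge l P.N with h | h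
  · rw [← w_succ ok h]
    have h1 := ok.hg1 (l + 1)
    have h2 := w_pos (P := P) ok l
    nlinarith
  · rw [w_top h, w_top (h.trans (Nat.le_succ l))]
    norm_num

lemma w_le_pow {a b : ℕ} (hab : a ≤ b) : L.w P b ≤ 2 ^ (b - a) * L.w P a := by
  induction b, hab using Nat.le_induction with
  | base => simp
  | succ b hab ih =>
    rw [Nat.succ_sub hab, pow_succ']
    refine (w_succ_le ok b).trans ?_
    rw [mul_assoc]
    exact mul_le_mul_of_nonneg_left ih (by norm_num)

lemma w_ge_pow {T : ℕ} (hT : ((Finset.Icc 1 P.N).filter fun l => L.g l ≠ 1 / 2).card ≤ T) (l : ℕ) :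
    1 / 2 ^ T ≤ L.w P l := by
  have key : ∀ j, 1 / 2 ^ ((Finset.Icc (j + 1) P.N).filter fun l => L.g l ≠ 1 / 2).card ≤ L.w P j := by
    intro j
    rw [w, ← prod_filter_mul_prod_filter_not (Finset.Icc (j + 1) P.N) (fun l => L.g l ≠ 1 / 2),
      one_div, ← inv_pow, ← prod_const]
    rw [prod_eq_one (s := (Finset.Icc (j + 1) P.N).filter fun l => ¬ L.g l ≠ 1 / 2), mul_one]
    · refine prod_le_prod (fun _ _ => by norm_num) fun m _ => ?_
      have := g_pos ok m
      exact inv_anti₀ (by positivity) (by linarith [ok.hg1 m])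
    · intro m hm
      rw [not_not.1 (mem_filter.1 hm).2]
      norm_num
  refine le_trans ?_ (key l)
  refine one_div_le_one_div_of_le (by positivity) (pow_le_pow_right₀ one_le_two ?_)
  exact (card_le_card (filter_subset_filter _ (Icc_subset_Icc_left (by omega)))).trans hT

lemma Xs_nonneg (l : ℕ) : 0 ≤ L.Xs P l := mul_nonneg (w_pos ok l).le (X_nonneg ok l)

lemma Xs_le_X (l : ℕ) : L.Xs P l ≤ L.X P l :=
  mul_le_of_le_one_left (X_nonneg ok l) (w_le_one ok l)

lemma U_nonneg (l : ℕ) : 0 ≤ L.U P l := tail_nonneg fun u _ => Xs_nonneg ok u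

lemma U_anti {a b : ℕ} (h : a ≤ b) : L.U P b ≤ L.U P a := tail_anti (Xs_nonneg ok) h

lemma w_mul_tail_le (l : ℕ) : L.w P l * tail (L.X P) P.N l ≤ L.U P l := by
  rw [U, tail, tail, mul_sum]
  exact sum_le_sum fun u hu =>
    mul_le_mul_of_nonneg_right (w_mono ok (mem_Icc.1 hu).1) (X_nonneg ok u)

lemma U_le_tail (l : ℕ) : L.U P l ≤ tail (L.X P) P.N l :=
  sum_le_sum (s := Finset.Icc l P.N) fun u _ => Xs_le_X ok u

lemma tail_le_pow_mul_U {T : ℕ}
    (hT : ((Finset.Icc 1 P.N).filter fun l => L.g l ≠ 1 / 2).card ≤ T) (l : ℕ) :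
    tail (L.X P) P.N l ≤ 2 ^ T * L.U P l := by
  rw [U, tail, tail, mul_sum]
  refine sum_le_sum fun u _ => ?_
  have h1 := w_ge_pow ok hT u
  rw [div_le_iff₀ (by positivity)] at h1
  rw [Xs, ← mul_assoc]
  exact le_mul_of_one_le_left (X_nonneg ok u) (by linarith)

lemma mem_nonneg (l : ℕ) : 0 ≤ L.mem P l := by
  induction l with
  | zero => exact le_rfl
  | succ l ih =>
    exact le_min P.cap_pos.le (add_nonneg (Xs_nonneg ok _) (mul_nonneg (sq_nonneg _) ih))

omit ok in
lemma mem_le_cap (l : ℕ) : L.mem P l ≤ P.cap := by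
  cases l with
  | zero => exact P.cap_pos.le
  | succ l => exact min_le_left _ _

omit ok in
lemma mem_of_pos {l : ℕ} (hl : 1 ≤ l) :
    L.mem P l = min P.cap (L.Xs P l + L.g l ^ 2 * L.mem P (l - 1)) := by
  obtain ⟨j, rfl⟩ := Nat.exists_eq_add_of_le' hl
  rfl

lemma Xs_add_nonneg (l : ℕ) : 0 ≤ L.g l ^ 2 * L.mem P (l - 1) :=
  mul_nonneg (sq_nonneg _) (mem_nonneg ok _)

lemma V_nonneg (l : ℕ) : 0 ≤ L.V P l :=
  le_min P.cap_pos.le (add_nonneg (U_nonneg ok l) (mul_nonneg P.hσ.le (Xs_add_nonneg ok l)))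

omit ok in
lemma V_le_cap (l : ℕ) : L.V P l ≤ P.cap := min_le_left _ _

lemma min_U_le_V (l : ℕ) : min P.cap (L.U P l) ≤ L.V P l :=
  min_le_min_left _ (le_add_of_nonneg_right (mul_nonneg P.hσ.le (Xs_add_nonneg ok l)))

lemma V_succ_le {l : ℕ} (h1 : 1 ≤ l) (h2 : l < P.N) : L.V P (l + 1) ≤ L.V P l := by
  refine min_le_min_left _ ?_
  rw [Nat.add_sub_cancel, U, U, tail_succ h2.le]
  have a1 : L.g (l + 1) ^ 2 * L.mem P l ≤ L.mem P l :=
    mul_le_of_le_one_left (mem_nonneg ok l) (sq_g_le ok (l + 1))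
  have a2 : L.mem P l ≤ L.Xs P l + L.g l ^ 2 * L.mem P (l - 1) := by
    rw [mem_of_pos h1]; exact min_le_right _ _
  have a3 : P.σ * L.Xs P l ≤ L.Xs P l := mul_le_of_le_one_left (Xs_nonneg ok l) P.hσ1
  have a4 := mul_le_mul_of_nonneg_left (a1.trans a2) P.hσ.le
  linarith

lemma V_anti {a b : ℕ} (h1 : 1 ≤ a) (hab : a ≤ b) (hb : b ≤ P.N) : L.V P b ≤ L.V P a := by
  induction b, hab using Nat.le_induction with
  | base => exact le_rfl
  | succ b hab ih => exact (V_succ_le ok (h1.trans hab) hb).trans (ih (by omega))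

omit ok in
lemma F_nonneg (l : ℕ) : 0 ≤ L.F P l := by
  rw [F]; linarith [Real.log_le_log P.hfl (le_max_right (L.V P l) P.fl)]

omit ok in
lemma F_le (l : ℕ) : L.F P l ≤ P.h := by
  rw [F]
  have := Real.log_le_log (lt_max_of_lt_right P.hfl) (max_le (V_le_cap (L := L) l) P.fl_le_cap)
  rw [P.log_cap] at this
  linarith

omit ok in
lemma max_V_pos (l : ℕ) : 0 < max (L.V P l) P.fl := lt_max_of_lt_right P.hfl

lemma F_anti {a b : ℕ} (h1 : 1 ≤ a) (hab : a ≤ b) (hb : b ≤ P.N) : L.F P b ≤ L.F P a := by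
  rw [F, F]
  linarith [Real.log_le_log (max_V_pos (L := L) (P := P) b)
    (max_le_max_right P.fl (V_anti ok h1 hab hb))]

omit ok in
lemma F_sub_le {L' : Line} {a b : ℕ} {C : ℝ} (hC : 1 ≤ C)
    (h : L.V P a ≤ C * max (L'.V P b) P.fl) : L.F P a - L'.F P b ≤ Real.log C := by
  rw [F, F]
  have h1 := max_V_pos (L := L') (P := P) b
  have := Real.log_le_log (max_V_pos (L := L) (P := P) a) (max_le h
    ((le_max_right (L'.V P b) P.fl).trans (le_mul_of_one_le_left h1.le hC)))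
  rw [Real.log_mul (by linarith) h1.ne'] at this
  linarith

/-- The memory keeps what a short range of slow levels contributes. -/
lemma mem_block {a j : ℕ} (ha : 1 ≤ a) (haj : a ≤ j) (hj : ∑ m ∈ Finset.Icc a j, (1 - L.g m) ≤ 3 / 8) :
    (1 - 2 * ∑ m ∈ Finset.Icc a j, (1 - L.g m)) *
      min P.cap (∑ m ∈ Finset.Icc a j, L.Xs P m + L.mem P (a - 1)) ≤ L.mem P j := by
  induction j, haj using Nat.le_induction with
  | base =>
    simp only [Icc_self, sum_singleton] at hj ⊢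
    rw [mem_of_pos ha]
    have hu : 0 ≤ 1 - 2 * (1 - L.g a) := by linarith
    have hu1 : 1 - 2 * (1 - L.g a) ≤ 1 := by linarith [ok.hg1 a]
    have hsq : 1 - 2 * (1 - L.g a) ≤ L.g a ^ 2 := by nlinarith
    refine le_min ?_ ?_
    · exact le_trans (mul_le_of_le_one_left (le_min P.cap_pos.le
        (add_nonneg (Xs_nonneg ok a) (mem_nonneg ok _))) hu1) (min_le_left _ _)
    · refine (mul_le_mul_of_nonneg_left (min_le_right _ _) hu).trans ?_
      rw [mul_add]
      exact add_le_add (mul_le_of_le_one_left (Xs_nonneg ok a) hu1)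
        (mul_le_mul_of_nonneg_right hsq (mem_nonneg ok _))
  | succ j haj ih =>
    rw [sum_Icc_succ_top (show a ≤ j + 1 by omega)] at hj ⊢
    rw [sum_Icc_succ_top (show a ≤ j + 1 by omega)]
    set S := ∑ m ∈ Finset.Icc a j, (1 - L.g m) with hS
    set Y := ∑ m ∈ Finset.Icc a j, L.Xs P m with hY
    set u := 1 - L.g (j + 1) with hu
    have hS0 : 0 ≤ S := sum_nonneg fun m _ => by linarith [ok.hg1 m]
    have hu0 : 0 ≤ u := by linarith [ok.hg1 (j + 1)]
    have hY0 : 0 ≤ Y := sum_nonneg fun m _ => Xs_nonneg ok m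
    have hX := Xs_nonneg (P := P) ok (j + 1)
    have hM0 := mem_nonneg (P := P) ok (a - 1)
    have h1 := ih (by linarith)
    rw [mem_of_pos (show 1 ≤ j + 1 by omega), Nat.add_sub_cancel]
    have hsq : 1 - 2 * u ≤ L.g (j + 1) ^ 2 := by rw [hu]; nlinarith
    have hf : (1 - 2 * (S + u)) ≤ (1 - 2 * u) * (1 - 2 * S) := by nlinarith
    have hf0 : 0 ≤ 1 - 2 * (S + u) := by linarith
    have hM := mem_nonneg (P := P) ok j
    refine le_min ?_ ?_
    · exact le_trans (mul_le_of_le_one_left (le_min P.cap_pos.le (by linarith)) (by linarith))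
        (min_le_left _ _)
    · have hmin : min P.cap (Y + L.Xs P (j + 1) + L.mem P (a - 1)) ≤
          L.Xs P (j + 1) + min P.cap (Y + L.mem P (a - 1)) := by
        rcases le_total P.cap (Y + L.mem P (a - 1)) with hc | hc
        · rw [min_eq_left hc]; linarith [min_le_left P.cap (Y + L.Xs P (j + 1) + L.mem P (a - 1))]
        · rw [min_eq_right hc]
          linarith [min_le_right P.cap (Y + L.Xs P (j + 1) + L.mem P (a - 1))]
      refine (mul_le_mul_of_nonneg_left hmin hf0).trans ?_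
      rw [mul_add]
      refine add_le_add (mul_le_of_le_one_left hX (by linarith)) ?_
      have hmin0 : 0 ≤ min P.cap (Y + L.mem P (a - 1)) := le_min P.cap_pos.le (by linarith)
      calc (1 - 2 * (S + u)) * min P.cap (Y + L.mem P (a - 1))
          ≤ (1 - 2 * u) * ((1 - 2 * S) * min P.cap (Y + L.mem P (a - 1))) := by
            rw [← mul_assoc]; exact mul_le_mul_of_nonneg_right hf hmin0
        _ ≤ L.g (j + 1) ^ 2 * L.mem P j := mul_le_mul hsq h1
            (mul_nonneg (by linarith) hmin0) (sq_nonneg _)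

/-- Over a short range of slow levels the gate drops by a bounded amount. -/
lemma F_block {a b : ℕ} (ha : 1 ≤ a) (hab : a ≤ b) (hb : b ≤ P.N)
    (hsum : ∑ m ∈ Finset.Ico a b, (1 - L.g m) ≤ 3 / 8) :
    L.F P a - L.F P b ≤ Real.log (16 / P.σ) := by
  have hσ16 : (1:ℝ) ≤ 16 / P.σ := by rw [le_div_iff₀ P.hσ]; linarith [P.hσ1]
  refine F_sub_le hσ16 ?_
  have hmax := le_max_left (L.V P b) P.fl
  rcases eq_or_lt_of_le hab with rfl | hlt
  · exact hmax.trans (le_mul_of_one_le_left (max_V_pos a).le hσ16)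
  obtain ⟨j, rfl⟩ := Nat.exists_eq_add_of_le' (show 1 ≤ b by omega)
  rw [show Finset.Ico a (j + 1) = Finset.Icc a j by ext u; simp] at hsum
  have hm := mem_block (P := P) ok ha (show a ≤ j by omega) hsum
  set Y := ∑ m ∈ Finset.Icc a j, L.Xs P m with hY
  have hY0 : 0 ≤ Y := sum_nonneg fun m _ => Xs_nonneg ok m
  have hM0 := mem_nonneg (P := P) ok (a - 1)
  have hU : L.U P a = Y + L.U P (j + 1) := by
    rw [U, U, hY, tail, tail,
      ← sum_union (disjoint_left.2 fun u h1 h2 => by simp only [mem_Icc] at h1 h2; omega)]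
    congr 1
    ext u
    simp only [mem_union, mem_Icc]
    omega
  set t := min P.cap (Y + L.mem P (a - 1)) with ht
  have ht0 : 0 ≤ t := le_min P.cap_pos.le (by linarith)
  have hquarter : t / 4 ≤ L.mem P j := by
    refine le_trans ?_ hm
    rw [div_eq_inv_mul]
    exact mul_le_mul_of_nonneg_right (by linarith) ht0
  have hU0 := U_nonneg (P := P) ok (j + 1)
  have hlow : min P.cap (L.U P (j + 1) + P.σ * (t / 16)) ≤ L.V P (j + 1) := by
    rw [V, Nat.add_sub_cancel]
    refine min_le_min_left _ (add_le_add le_rfl (mul_le_mul_of_nonneg_left ?_ P.hσ.le))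
    have h4 := sq_g_ge ok (j + 1)
    calc t / 16 = 1 / 4 * (t / 4) := by ring
      _ ≤ _ := mul_le_mul h4 hquarter (by linarith) (sq_nonneg _)
  have hup : L.V P a ≤ min P.cap (L.U P (j + 1) + t) := by
    have h1 : L.V P a ≤ L.U P (j + 1) + (Y + L.mem P (a - 1)) := by
      refine (min_le_right _ _).trans ?_
      rw [hU]
      have : P.σ * (L.g a ^ 2 * L.mem P (a - 1)) ≤ L.mem P (a - 1) :=
        (mul_le_of_le_one_left (Xs_add_nonneg ok a) P.hσ1).trans
          (mul_le_of_le_one_left hM0 (sq_g_le ok a))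
      linarith
    have h2 : L.V P a ≤ P.cap := V_le_cap a
    refine le_min h2 ?_
    rcases le_total P.cap (Y + L.mem P (a - 1)) with hc | hc
    · rw [ht, min_eq_left hc]; linarith
    · rw [ht, min_eq_right hc]; exact h1
  refine hup.trans (le_trans ?_ (mul_le_mul_of_nonneg_left (hlow.trans hmax) (by positivity)))
  have e1 : 16 / P.σ * (P.σ * (t / 16)) = t := by field_simp [P.hσ.ne']
  rw [mul_min_of_nonneg _ _ (by positivity : (0:ℝ) ≤ 16 / P.σ)]
  refine le_min ((min_le_left _ _).trans (le_mul_of_one_le_left P.cap_pos.le hσ16))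
    ((min_le_right _ _).trans ?_)
  rw [mul_add, e1]
  linarith [le_mul_of_one_le_left hU0 hσ16]

/-- One step of the gate. -/
lemma F_step {l : ℕ} (h1 : 1 ≤ l) (h2 : l < P.N) :
    L.F P l - L.F P (l + 1) ≤ Real.log (16 / P.σ) := by
  have hσ16 : (1:ℝ) ≤ 16 / P.σ := by rw [le_div_iff₀ P.hσ]; linarith [P.hσ1]
  refine F_sub_le hσ16 ?_
  refine le_trans ?_ (mul_le_mul_of_nonneg_left (le_max_left (L.V P (l + 1)) P.fl) (by positivity))
  rw [V, V, Nat.add_sub_cancel, mul_min_of_nonneg _ _ (by positivity : (0:ℝ) ≤ 16 / P.σ)]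
  refine le_min ((min_le_left _ _).trans (le_mul_of_one_le_left P.cap_pos.le hσ16)) ?_
  have hU0 := U_nonneg (P := P) ok (l + 1)
  have hM := mem_nonneg (P := P) ok l
  have hg4 : L.mem P l ≤ 4 * (L.g (l + 1) ^ 2 * L.mem P l) := by
    nlinarith [sq_g_ge ok (l + 1)]
  have e : 16 / P.σ * (P.σ * (L.g (l + 1) ^ 2 * L.mem P l)) = 16 * (L.g (l + 1) ^ 2 * L.mem P l) := by
    field_simp [P.hσ.ne']
  rw [mul_add, e]
  have h3 := le_mul_of_one_le_left hU0 hσ16
  have hP := mul_nonneg (sq_nonneg (L.g (l + 1))) hM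
  rcases le_total P.cap (L.Xs P l + L.g l ^ 2 * L.mem P (l - 1)) with hc | hc
  · refine (min_le_left _ _).trans ?_
    rw [mem_of_pos h1, min_eq_left hc] at hg4 hP ⊢
    linarith
  · refine (min_le_right _ _).trans ?_
    rw [mem_of_pos h1, min_eq_right hc] at hg4 hP ⊢
    rw [U, tail_succ h2.le]
    have := mul_le_of_le_one_left (Xs_add_nonneg (P := P) ok l) P.hσ1
    have hX := Xs_nonneg (P := P) ok l
    simp only [U] at h3 hU0 ⊢
    linarith

lemma F_sub_le_steps {l J : ℕ} (h1 : 1 ≤ l) (hlJ : l ≤ J) (hJ : J ≤ P.N) :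
    L.F P l - L.F P J ≤ ((J - l : ℕ) : ℝ) * Real.log (16 / P.σ) := by
  induction J, hlJ using Nat.le_induction with
  | base => simp
  | succ j hlj ih =>
    have h2 := F_step ok (h1.trans hlj) (show j < P.N by omega)
    have h3 := ih (by omega)
    rw [Nat.succ_sub hlj, Nat.cast_succ, add_mul, one_mul]
    linarith

end Line

end Vale.Agent.P249.Core
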