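import Vale.Agent.P249.Core.LineSums
import Mathlib.Analysis.Convex.SpecificFunctions.Basic

/-!
Two nearby lines: contraction of the differences along the levels.
-/

namespace Vale.Agent.P249.Core

open Finset

/-- Two lines of points at distance `d`, whose data are close from level `J` on. -/
structure Near (P : Scale) (a b : Line) (J : ℕ) (d κ : ℝ) (η : ℕ → ℝ) : Prop where
  hJ : 2 ≤ J
  hJN : J ≤ P.N
  hd : 0 < d
  hκ : 1 ≤ κ
  hdr : κ * d ≤ P.r J / 64
  hrd : P.r J ≤ 128 * κ * d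
  hη : ∀ l, 0 ≤ η l
  hm : ∀ l ∈ Finset.Icc J P.N, |a.m l - b.m l| ≤ κ * d * min (a.A l) (b.A l)
  hA : ∀ l ∈ Finset.Icc J P.N, P.r l * |a.A l - b.A l| ≤ κ * d * min (a.A l) (b.A l)
  hχ : ∀ l ∈ Finset.Icc J P.N, P.r l * |a.χ l - b.χ l| ≤ κ * d * min (a.χ l) (b.χ l)
  hgχ : ∀ l ∈ Finset.Icc J P.N, (a.g l < 1 → b.χ l = 1) ∧ (b.g l < 1 → a.χ l = 1)
  hg : ∀ l ∈ Finset.Icc J P.N, P.r l * |a.g l - b.g l| ≤ κ * d
  hE : ∀ l ∈ Finset.Icc J P.N, P.r l * |a.E l - b.E l| ≤ d * η l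

lemma Near.symm {P : Scale} {a b : Line} {J : ℕ} {d κ : ℝ} {η : ℕ → ℝ} (N : Near P a b J d κ η) :
    Near P b a J d κ η where
  hJ := N.hJ
  hJN := N.hJN
  hd := N.hd
  hκ := N.hκ
  hdr := N.hdr
  hrd := N.hrd
  hη := N.hη
  hm l hl := by rw [abs_sub_comm, min_comm]; exact N.hm l hl
  hA l hl := by rw [abs_sub_comm, min_comm]; exact N.hA l hl
  hχ l hl := by rw [abs_sub_comm, min_comm]; exact N.hχ l hl
  hgχ l hl := (N.hgχ l hl).symm
  hg l hl := by rw [abs_sub_comm]; exact N.hg l hl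
  hE l hl := by rw [abs_sub_comm]; exact N.hE l hl

namespace Line

/-- The contraction factor of a level. -/
noncomputable def θ (a : Line) (l : ℕ) : ℝ := if a.g l < 1 then 0 else 1 - a.χ l / 2

/-- The share of an old difference that survives to a level. -/
noncomputable def surv (a : Line) (J : ℕ) : ℕ → ℝ
  | 0 => 1
  | l + 1 => if l + 1 < J then 1 else a.θ (l + 1) * surv a J l

/-- The accumulated sizes of the levels from `J` on. -/
noncomputable def gain (a : Line) (P : Scale) (J : ℕ) : ℕ → ℝ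
  | 0 => 0
  | l + 1 => if l + 1 < J then 0 else a.θ (l + 1) * gain a P J l + a.χ (l + 1) * a.B P (l + 1)

/-- The bound on the difference of two nearby chains. -/
noncomputable def dbd (a : Line) (P : Scale) (J : ℕ) (H c : ℝ) (l : ℕ) : ℝ :=
  H * a.surv J l + c * a.gain P J l

/-- The weight of level `u` seen from level `l`. -/
noncomputable def Q (a : Line) (P : Scale) (l u : ℕ) : ℝ := P.r l * a.w P u / (P.r u * a.w P l)

variable {a b : Line} {P : Scale}

lemma surv_lt {J l : ℕ} (h : l < J) : a.surv J l = 1 := by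
  cases l with
  | zero => rfl
  | succ l => rw [surv, if_pos h]

lemma surv_of_le {J l : ℕ} (h : J ≤ l) (hl : 1 ≤ l) : a.surv J l = a.θ l * a.surv J (l - 1) := by
  obtain ⟨j, rfl⟩ := Nat.exists_eq_add_of_le' hl
  rw [surv, if_neg (by omega), Nat.add_sub_cancel]

lemma gain_lt {J l : ℕ} (h : l < J) : a.gain P J l = 0 := by
  cases l with
  | zero => rfl
  | succ l => rw [gain, if_pos h]

lemma gain_of_le {J l : ℕ} (h : J ≤ l) (hl : 1 ≤ l) :
    a.gain P J l = a.θ l * a.gain P J (l - 1) + a.χ l * a.B P l := by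
  obtain ⟨j, rfl⟩ := Nat.exists_eq_add_of_le' hl
  rw [gain, if_neg (by omega), Nat.add_sub_cancel]

lemma dbd_of_le {J l : ℕ} {H c : ℝ} (h : J ≤ l) (hl : 1 ≤ l) :
    a.dbd P J H c l = a.θ l * a.dbd P J H c (l - 1) + c * (a.χ l * a.B P l) := by
  rw [dbd, dbd, surv_of_le h hl, gain_of_le h hl]
  ring

variable (oa : a.Ok P.N)
include oa

lemma θ_bounds (l : ℕ) : 0 ≤ a.θ l ∧ a.θ l ≤ 1 ∧ a.θ l ≤ 1 - a.χ l / 2 := by
  have := oa.hχ0 l
  have := oa.hχ1 l
  rw [θ]
  split_ifs <;> refine ⟨?_, ?_, ?_⟩ <;> linarith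

lemma surv_bounds (J l : ℕ) : 0 ≤ a.surv J l ∧ a.surv J l ≤ 1 := by
  induction l with
  | zero => simp [surv]
  | succ l ih =>
    rw [surv]
    split_ifs
    · simp
    · exact ⟨mul_nonneg (θ_bounds oa _).1 ih.1, mul_le_one₀ (θ_bounds oa _).2.1 ih.1 ih.2⟩

omit oa in
lemma surv_eq_zero {J c l : ℕ} (hJc : J ≤ c) (hc : 1 ≤ c) (hg : a.g c < 1) (hcl : c ≤ l) :
    a.surv J l = 0 := by
  induction l, hcl using Nat.le_induction with
  | base => rw [surv_of_le hJc hc, θ, if_pos hg, zero_mul]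
  | succ l hcl ih => rw [surv_of_le (by omega) (by omega), Nat.add_sub_cancel, ih, mul_zero]

lemma gain_nonneg (J l : ℕ) : 0 ≤ a.gain P J l := by
  induction l with
  | zero => simp [gain]
  | succ l ih =>
    rw [gain]
    split_ifs
    · exact le_rfl
    · exact add_nonneg (mul_nonneg (θ_bounds oa _).1 ih) (chiB_nonneg oa _)

lemma dbd_nonneg {J : ℕ} {H c : ℝ} (hH : 0 ≤ H) (hc : 0 ≤ c) (l : ℕ) : 0 ≤ a.dbd P J H c l :=
  add_nonneg (mul_nonneg hH (surv_bounds oa J l).1) (mul_nonneg hc (gain_nonneg oa J l))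

lemma gain_le_tail {J c l : ℕ} (hJc : J ≤ c) (hc : 1 ≤ c) (hg : a.g c < 1) (hcl : c ≤ l)
    (hl : l ≤ P.N) : a.gain P J l ≤ tail (a.X P) P.N c := by
  suffices h : a.gain P J l ≤ ∑ u ∈ Finset.Icc c l, a.X P u from
    h.trans (sum_le_sum_of_subset_of_nonneg (Icc_subset_Icc_right hl) fun u _ _ => X_nonneg oa u)
  clear hl
  induction l, hcl using Nat.le_induction with
  | base => rw [gain_of_le hJc hc, θ, if_pos hg, zero_mul, zero_add, Icc_self, sum_singleton]
            exact chiB_le_X oa c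
  | succ l hcl ih =>
    rw [gain_of_le (by omega) (by omega), Nat.add_sub_cancel,
      sum_Icc_succ_top (show c ≤ l + 1 by omega)]
    exact add_le_add ((mul_le_of_le_one_left (gain_nonneg oa J l) (θ_bounds oa _).2.1).trans ih)
      (chiB_le_X oa _)

lemma gain_rpow_le {p : ℝ} (hp : 1 ≤ p) (J l : ℕ) :
    a.gain P J l ^ p ≤ (2:ℝ) ^ p * ∑ u ∈ Finset.Icc 1 l, a.χ u * a.B P u ^ p := by
  induction l with
  | zero => simp [gain, Real.zero_rpow (by linarith : p ≠ 0)]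
  | succ l ih =>
    have hterm : 0 ≤ a.χ (l + 1) * a.B P (l + 1) ^ p :=
      mul_nonneg (oa.hχ0 _) (Real.rpow_nonneg (B_nonneg oa _) p)
    rw [sum_Icc_succ_top (show 1 ≤ l + 1 by omega), mul_add]
    rcases lt_or_ge (l + 1) J with h | h
    · rw [gain_lt h, Real.zero_rpow (by linarith : p ≠ 0)]
      have hs : 0 ≤ ∑ u ∈ Finset.Icc 1 l, a.χ u * a.B P u ^ p := sum_nonneg fun u _ =>
        mul_nonneg (oa.hχ0 _) (Real.rpow_nonneg (B_nonneg oa _) p)
      positivity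
    rw [gain_of_le h (by omega), Nat.add_sub_cancel]
    obtain ⟨h0, -, h1⟩ := θ_bounds oa (l + 1)
    have hG := gain_nonneg (P := P) oa J l
    have hB := B_nonneg (P := P) oa (l + 1)
    have hχ := oa.hχ0 (l + 1)
    have hχ1 := oa.hχ1 (l + 1)
    set t := a.χ (l + 1) / 2 with ht
    have hconv : ((1 - t) * a.gain P J l + t * (2 * a.B P (l + 1))) ^ p ≤
        (1 - t) * a.gain P J l ^ p + t * (2 * a.B P (l + 1)) ^ p := by
      have := (convexOn_rpow hp).2 (Set.mem_Ici.2 hG)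
        (Set.mem_Ici.2 (show 0 ≤ 2 * a.B P (l + 1) by positivity))
        (show 0 ≤ 1 - t by rw [ht]; linarith) (show 0 ≤ t by positivity) (sub_add_cancel 1 t)
      simpa [smul_eq_mul] using this
    refine (Real.rpow_le_rpow (by positivity) ?_ (by linarith)).trans (hconv.trans ?_)
    · rw [ht]
      nlinarith [mul_le_mul_of_nonneg_right h1 hG]
    · refine add_le_add ?_ ?_
      · exact (mul_le_of_le_one_left (Real.rpow_nonneg hG p) (by rw [ht]; linarith)).trans ih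
      · rw [Real.mul_rpow two_pos.le hB, ht]
        have := Real.rpow_nonneg hB p
        nlinarith [mul_nonneg (mul_nonneg hχ (Real.rpow_nonneg two_pos.le p)) this]

lemma gain_le {p W K : ℝ} (hp : 1 ≤ p) (hb : a.Bounded P p W K) (J : ℕ) {l : ℕ}
    (hl : l ≤ P.N) : a.gain P J l ≤ W := by
  rw [← Real.rpow_le_rpow_iff (gain_nonneg oa J l) hb.hW.le (by linarith : 0 < p)]
  refine (gain_rpow_le oa hp J l).trans ?_
  have h1 : ∑ u ∈ Finset.Icc 1 l, a.χ u * a.B P u ^ p ≤ (W / 2) ^ p :=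
    (sum_le_sum_of_subset_of_nonneg (Icc_subset_Icc_right hl) fun u _ _ =>
      mul_nonneg (oa.hχ0 _) (Real.rpow_nonneg (B_nonneg oa _) p)).trans hb.hB
  refine (mul_le_mul_of_nonneg_left h1 (Real.rpow_nonneg two_pos.le p)).trans (le_of_eq ?_)
  rw [← Real.mul_rpow two_pos.le (by linarith [hb.hW])]
  ring_nf

lemma Q_nonneg (l u : ℕ) : 0 ≤ a.Q P l u :=
  div_nonneg (mul_nonneg (P.r_pos l).le (w_pos oa u).le)
    (mul_nonneg (P.r_pos u).le (w_pos oa l).le)

lemma Q_self (l : ℕ) : a.Q P l l = 1 :=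
  div_self (mul_pos (P.r_pos l) (w_pos oa l)).ne'

lemma Q_succ_le (l u : ℕ) : a.Q P l (u + 1) ≤ a.Q P l u := by
  have h1 := P.r_pos l
  have h2 := P.r_pos u
  have h3 := w_pos (P := P) oa l
  have h4 := w_succ_le (P := P) oa u
  rw [Q, Q, P.r_succ, div_le_div_iff₀ (by positivity) (by positivity)]
  nlinarith [mul_le_mul_of_nonneg_left h4 (mul_pos h1 (mul_pos h2 h3)).le]

lemma Q_le_one {l u : ℕ} (h : l ≤ u) : a.Q P l u ≤ 1 := by
  induction u, h using Nat.le_induction with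
  | base => rw [Q_self oa]
  | succ u _ ih => exact (Q_succ_le oa l u).trans ih

lemma r_mul_w (l u : ℕ) : P.r l * a.w P u = a.w P l * (a.Q P l u * P.r u) := by
  have := (P.r_pos u).ne'
  have := (w_pos (P := P) oa l).ne'
  rw [Q]
  field_simp

lemma pr_mul_Q_mul_X_le {l u : ℕ} (hlu : l ≤ u) (hu : u ≤ P.N) (hU : a.U P l < P.cap) :
    a.pr P l * (a.Q P l u * a.X P u) ≤ a.X P l * (1 / 2) ^ (u - l) := by
  have hmax := max_V_pos (L := a) (P := P) l
  rw [pr, div_mul_eq_mul_div, div_le_iff₀ hmax]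
  have hXu : a.Xs P u ≤ max (a.V P l) P.fl :=
    ((le_tail (Xs_nonneg oa) hlu hu).trans (U_le_V oa hU)).trans (le_max_left _ _)
  have hr : P.r u = 2 ^ (u - l) * P.r l := by rw [← P.r_add, Nat.add_sub_cancel' hlu]
  have e : a.Xs P l * (a.Q P l u * a.X P u) = a.X P l * (1 / 2) ^ (u - l) * a.Xs P u := by
    have := (w_pos (P := P) oa l).ne'
    have := (P.r_pos l).ne'
    rw [Q, hr, Xs, Xs, one_div, inv_pow]
    field_simp
  rw [e]
  exact mul_le_mul_of_nonneg_left hXu (mul_nonneg (X_nonneg oa l) (by positivity))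

end Line

namespace Near

variable {P : Scale} {a b : Line} {J : ℕ} {d κ : ℝ} {η : ℕ → ℝ} (N : Near P a b J d κ η)
  (oa : a.Ok P.N) (ob : b.Ok P.N)
include N

lemma small {l : ℕ} (hl : J ≤ l) : κ * d ≤ P.r l / 64 :=
  N.hdr.trans (div_le_div_of_nonneg_right (P.r_mono hl) (by norm_num))

lemma κd_pos : 0 < κ * d := mul_pos (lt_of_lt_of_le one_pos N.hκ) N.hd

include oa ob

omit oa ob in
lemma sum_abs_dg_le {l : ℕ} (hl : J ≤ l + 1) (n : ℕ) (hn : n ≤ P.N) :
    ∑ m ∈ Finset.Icc (l + 1) n, |a.g m - b.g m| ≤ κ * d / P.r l := by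
  have h1 : ∀ n, l ≤ n → ∑ m ∈ Finset.Icc (l + 1) n, (P.r m)⁻¹ + (P.r n)⁻¹ = (P.r l)⁻¹ := by
    intro n hn
    induction n, hn using Nat.le_induction with
    | base => simp
    | succ n hn ih =>
      rw [sum_Icc_succ_top (show l + 1 ≤ n + 1 by omega), ← ih, P.r_succ, mul_inv]
      ring
  rcases lt_or_ge n (l + 1) with h | h
  · rw [Icc_eq_empty (by omega), sum_empty]
    exact (div_pos N.κd_pos (P.r_pos l)).le
  refine (sum_le_sum fun m hm => ?_).trans ?_ (b := ∑ m ∈ Finset.Icc (l + 1) n, κ * d * (P.r m)⁻¹)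
  · obtain ⟨h2, h3⟩ := mem_Icc.1 hm
    rw [← div_eq_mul_inv, le_div_iff₀ (P.r_pos m), mul_comm]
    exact N.hg m (mem_Icc.2 ⟨by omega, by omega⟩)
  · rw [← mul_sum, div_eq_mul_inv]
    refine mul_le_mul_of_nonneg_left ?_ N.κd_pos.le
    have := h1 n (by omega)
    have := inv_nonneg.2 (P.r_pos n).le
    linarith

lemma abs_dw_le {l : ℕ} (hl : J ≤ l + 1) :
    |b.w P l - a.w P l| ≤ 4 * (κ * d / P.r l) * a.w P l := by
  suffices h : |b.w P l - a.w P l| ≤
      4 * (∑ m ∈ Finset.Icc (l + 1) P.N, |a.g m - b.g m|) * a.w P l from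
    h.trans (mul_le_mul_of_nonneg_right (mul_le_mul_of_nonneg_left
      (N.sum_abs_dg_le hl P.N le_rfl) (by norm_num)) (Line.w_pos oa l).le)
  induction hm : P.N - l generalizing l with
  | zero =>
    rw [Line.w_top (by omega), Line.w_top (by omega), Icc_eq_empty (by omega)]
    simp
  | succ j ih =>
    have hlN : l < P.N := by omega
    have h1 := ih (l := l + 1) (by omega) (by omega)
    have hS := N.sum_abs_dg_le hl P.N le_rfl
    rw [Icc_eq_insert (show l + 1 ≤ P.N from hlN), sum_insert (by simp)] at hS ⊢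
    set u := |a.g (l + 1) - b.g (l + 1)| with hu
    set s := ∑ m ∈ Finset.Icc (l + 1 + 1) P.N, |a.g m - b.g m| with hs
    have hs0 : 0 ≤ s := sum_nonneg fun _ _ => abs_nonneg _
    have hu0 : 0 ≤ u := abs_nonneg _
    have hsmall : κ * d / P.r l ≤ 1 / 32 := by
      rw [div_le_iff₀ (P.r_pos l)]
      have h2 : P.r J ≤ 2 * P.r l := (P.r_mono hl).trans (P.r_succ l).le
      linarith [N.hdr]
    have ea := Line.w_succ oa hlN (P := P)
    have eb := Line.w_succ ob hlN (P := P)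
    have hga := oa.hg0 (l + 1)
    have hgb := ob.hg0 (l + 1)
    have hwa := Line.w_pos (P := P) oa l
    have h4 : (b.w P l - a.w P l) * (2 * b.g (l + 1)) =
        (b.w P (l + 1) - a.w P (l + 1)) + a.w P l * (2 * (a.g (l + 1) - b.g (l + 1))) := by
      rw [← ea, ← eb]; ring
    have h5 : |b.w P l - a.w P l| * (2 * b.g (l + 1)) ≤
        4 * s * (a.w P l * (2 * a.g (l + 1))) + a.w P l * (2 * u) := by
      have := abs_add_le (b.w P (l + 1) - a.w P (l + 1))
        (a.w P l * (2 * (a.g (l + 1) - b.g (l + 1))))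
      rw [← h4, abs_mul, abs_mul, abs_mul, abs_mul, abs_two,
        abs_of_nonneg (by linarith : 0 ≤ b.g (l + 1)), abs_of_pos hwa, ← hu] at this
      rw [← ea] at h1 this
      linarith
    have h6 : a.g (l + 1) ≤ b.g (l + 1) + u := by
      have := le_abs_self (a.g (l + 1) - b.g (l + 1))
      linarith
    refine le_of_mul_le_mul_right (h5.trans ?_) (show 0 < 2 * b.g (l + 1) by linarith)
    nlinarith [mul_nonneg (mul_nonneg hs0 hwa.le) (sub_nonneg.2 h6),
      mul_nonneg (mul_nonneg hu0 hwa.le) (by linarith : (0:ℝ) ≤ 2 * b.g (l + 1) - 1),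
      mul_nonneg (mul_nonneg hu0 hwa.le) (by linarith : (0:ℝ) ≤ 1 / 32 - s)]

lemma w_le_two {l : ℕ} (hl : J ≤ l + 1) : b.w P l ≤ 2 * a.w P l := by
  have h1 := (abs_le.1 (N.abs_dw_le oa ob hl)).2
  have h2 : κ * d / P.r l ≤ 1 / 32 := by
    rw [div_le_iff₀ (P.r_pos l)]
    have := (P.r_mono hl).trans (P.r_succ l).le
    linarith [N.hdr]
  nlinarith [Line.w_pos (P := P) oa l]

omit ob in
lemma chi_le_two {l : ℕ} (hl : l ∈ Finset.Icc J P.N) : b.χ l ≤ 2 * a.χ l := by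
  have h1 := (N.hχ l hl).trans (mul_le_mul_of_nonneg_left (min_le_left _ _) N.κd_pos.le)
  have h2 := N.small (mem_Icc.1 hl).1
  have h3 := P.r_pos l
  have h4 := (abs_le.1 (le_refl |a.χ l - b.χ l|)).1
  have h5 := oa.hχ0 l
  nlinarith

lemma abs_dq_succ_le {l : ℕ} (hl : l ∈ Finset.Icc J P.N) :
    |a.q l - b.q l| ≤ a.θ l * |a.q (l - 1) - b.q (l - 1)| + 3 * κ * d * (a.χ l * a.B P l) := by
  obtain ⟨h1, h2⟩ := mem_Icc.1 hl
  have hl1 : 1 ≤ l := by linarith [N.hJ]
  have hκd := N.κd_pos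
  have hm := (N.hm l hl).trans (mul_le_mul_of_nonneg_left (min_le_left _ _) hκd.le)
  have hAB : a.A l ≤ a.B P l := le_add_of_nonneg_right (Line.Z_nonneg l)
  by_cases hg : a.g l < 1
  · rw [Line.θ, if_pos hg, zero_mul, zero_add, a.q_eq_m hl1 (oa.hgχ l hg),
      b.q_eq_m hl1 ((N.hgχ l hl).1 hg), oa.hgχ l hg, one_mul]
    have := mul_le_mul_of_nonneg_left hAB hκd.le
    nlinarith [Line.B_nonneg (P := P) oa l]
  rw [Line.θ, if_neg hg, a.q_of_pos hl1, b.q_of_pos hl1]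
  set qa := a.q (l - 1) with hqa
  set qb := b.q (l - 1) with hqb
  have e : qa + a.χ l * (a.m l - qa) - (qb + b.χ l * (b.m l - qb)) =
      (1 - b.χ l) * (qa - qb) + b.χ l * (a.m l - b.m l) + (a.χ l - b.χ l) * (a.m l - qa) := by ring
  rw [e]
  refine (abs_add_three _ _ _).trans ?_
  rw [abs_mul, abs_mul, abs_mul, abs_of_nonneg (by linarith [ob.hχ1 l] : 0 ≤ 1 - b.χ l),
    abs_of_nonneg (ob.hχ0 l), abs_sub_comm (a.m l) qa]
  have hχ := (N.hχ l hl).trans (mul_le_mul_of_nonneg_left (min_le_left _ _) hκd.le)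
  have hr := P.r_pos l
  have hsm := N.small h1
  have hχd : |a.χ l - b.χ l| ≤ a.χ l / 64 := by
    have := oa.hχ0 l
    nlinarith
  have h3 : (1 - b.χ l) * |qa - qb| ≤ (1 - a.χ l / 2) * |qa - qb| := by
    refine mul_le_mul_of_nonneg_right ?_ (abs_nonneg _)
    have := le_abs_self (a.χ l - b.χ l)
    have := oa.hχ0 l
    linarith
  have h4 : b.χ l * |a.m l - b.m l| ≤ 2 * κ * d * (a.χ l * a.A l) := by
    refine (mul_le_mul (N.chi_le_two oa hl) hm (abs_nonneg _)
      (by linarith [oa.hχ0 l])).trans (le_of_eq (by ring))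
  have h5 : |a.χ l - b.χ l| * |qa - a.m l| ≤ κ * d * (a.χ l * a.Z P l) := by
    have e2 : |qa - a.m l| = P.r l * a.Z P l := by
      have := hr.ne'
      rw [Line.Z, ← hqa]; field_simp
    rw [e2, ← mul_assoc, mul_comm (|a.χ l - b.χ l|)]
    exact (mul_le_mul_of_nonneg_right hχ (Line.Z_nonneg l)).trans (le_of_eq (by ring))
  have h6 := mul_nonneg (mul_nonneg hκd.le (oa.hχ0 l)) (oa.hA l)
  have h7 := mul_nonneg (mul_nonneg hκd.le (oa.hχ0 l)) (Line.Z_nonneg (L := a) (P := P) l)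
  rw [Line.B]
  linarith

lemma abs_dq_le {l : ℕ} (h1 : J ≤ l + 1) (h2 : l ≤ P.N) :
    |a.q l - b.q l| ≤ a.dbd P J |a.q (J - 1) - b.q (J - 1)| (3 * κ * d) l := by
  induction l with
  | zero => exact absurd h1 (by have := N.hJ; omega)
  | succ l ih =>
    rcases eq_or_lt_of_le h1 with h3 | h3
    · rw [Line.dbd, Line.surv_lt (by omega), Line.gain_lt (by omega),
        show J - 1 = l + 1 by omega]
      simp
    · have hl : l + 1 ∈ Finset.Icc J P.N := mem_Icc.2 ⟨by omega, h2⟩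
      refine (N.abs_dq_succ_le oa ob hl).trans ?_
      rw [Line.dbd_of_le (by omega) (by omega), Nat.add_sub_cancel]
      have := mul_le_mul_of_nonneg_left (ih (by omega) (by omega)) (Line.θ_bounds oa (l + 1)).1
      linarith

lemma r_mul_abs_dX_le {l : ℕ} (hl : l ∈ Finset.Icc J P.N) :
    P.r l * |b.X P l - a.X P l| ≤ 2 * a.χ l * |a.q (l - 1) - b.q (l - 1)| +
      5 * κ * d * (a.χ l * a.B P l) + d * η l := by
  have hκd := N.κd_pos
  have hr := P.r_pos l
  have hm := (N.hm l hl).trans (mul_le_mul_of_nonneg_left (min_le_left _ _) hκd.le)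
  have hA := (N.hA l hl).trans (mul_le_mul_of_nonneg_left (min_le_left _ _) hκd.le)
  have hχ := (N.hχ l hl).trans (mul_le_mul_of_nonneg_left (min_le_left _ _) hκd.le)
  set D := |a.q (l - 1) - b.q (l - 1)| with hD
  have hZ : P.r l * |b.Z P l - a.Z P l| ≤ D + κ * d * a.A l := by
    rw [Line.Z, Line.Z, ← sub_div, abs_div, abs_of_pos hr, mul_div_cancel₀ _ hr.ne']
    refine (abs_abs_sub_abs_le_abs_sub _ _).trans ?_
    refine le_trans ?_ (add_le_add le_rfl hm)
    rw [hD, show b.q (l - 1) - b.m l - (a.q (l - 1) - a.m l) =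
      (b.q (l - 1) - a.q (l - 1)) + (a.m l - b.m l) by ring, abs_sub_comm (a.q _)]
    exact abs_add_le _ _
  have hB : P.r l * |b.B P l - a.B P l| ≤ D + 2 * κ * d * a.A l := by
    rw [Line.B, Line.B, show b.A l + b.Z P l - (a.A l + a.Z P l) =
      (b.A l - a.A l) + (b.Z P l - a.Z P l) by ring]
    have h1 := mul_le_mul_of_nonneg_left (abs_add_le (b.A l - a.A l) (b.Z P l - a.Z P l)) hr.le
    rw [abs_sub_comm (b.A l)] at h1
    linarith
  have h2 : |b.X P l - a.X P l| ≤ b.χ l * |b.B P l - a.B P l| + |a.χ l - b.χ l| * a.B P l +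
      |a.E l - b.E l| := by
    rw [Line.X, Line.X, show b.χ l * b.B P l + b.E l - (a.χ l * a.B P l + a.E l) =
      b.χ l * (b.B P l - a.B P l) + (b.χ l - a.χ l) * a.B P l + (b.E l - a.E l) by ring]
    refine (abs_add_three _ _ _).trans (le_of_eq ?_)
    rw [abs_mul, abs_mul, abs_of_nonneg (ob.hχ0 l), abs_of_nonneg (Line.B_nonneg oa l),
      abs_sub_comm (b.χ l), abs_sub_comm (b.E l)]
  have h3 : b.χ l * (P.r l * |b.B P l - a.B P l|) ≤ 2 * a.χ l * (D + 2 * κ * d * a.A l) :=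
    mul_le_mul (N.chi_le_two oa hl) hB (by positivity) (by linarith [oa.hχ0 l])
  have h4 := mul_le_mul_of_nonneg_right hχ (Line.B_nonneg (P := P) oa l)
  have h5 : a.χ l * a.A l ≤ a.χ l * a.B P l :=
    mul_le_mul_of_nonneg_left (le_add_of_nonneg_right (Line.Z_nonneg l)) (oa.hχ0 l)
  have h6 := mul_le_mul_of_nonneg_left h5 (by linarith : (0:ℝ) ≤ 4 * (κ * d))
  have h7 := mul_le_mul_of_nonneg_left h2 hr.le
  linarith [N.hE l hl]

end Near

end Vale.Agent.P249.Core
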