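import Vale.Agent.P249.Core.LineSums
import Vale.Agent.P249.Core.Part
import Mathlib.Analysis.Complex.ExponentialBounds

/-!
Above the levels where the smoothed values have settled, the gate is at its bottom.
-/

namespace Vale.Agent.P249.Core.Line

open Finset

variable {L : Line} {P : Scale}

lemma mem_le_decay (ok : L.Ok P.N) {a l : ℕ} (hal : a ≤ l) :
    L.mem P l ≤ P.cap * ∏ m ∈ Finset.Icc (a + 1) l, L.g m ^ 2
      + ∑ m ∈ Finset.Icc (a + 1) l, L.Xs P m := by
  induction l, hal using Nat.le_induction with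
  | base =>
    rw [Finset.Icc_eq_empty (by omega), prod_empty, sum_empty, mul_one, add_zero]
    exact mem_le_cap a
  | succ l hal ih =>
    rw [mem_of_pos (show 1 ≤ l + 1 by omega), Nat.add_sub_cancel,
      prod_Icc_succ_top (show a + 1 ≤ l + 1 by omega),
      sum_Icc_succ_top (show a + 1 ≤ l + 1 by omega)]
    refine (min_le_right _ _).trans ?_
    have h1 := mul_le_mul_of_nonneg_left ih (sq_nonneg (L.g (l + 1)))
    have h2 : L.g (l + 1) ^ 2 * ∑ m ∈ Finset.Icc (a + 1) l, L.Xs P m ≤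
        ∑ m ∈ Finset.Icc (a + 1) l, L.Xs P m :=
      mul_le_of_le_one_left (sum_nonneg fun m _ => Xs_nonneg ok m) (sq_g_le ok _)
    have e : L.g (l + 1) ^ 2 * (P.cap * ∏ m ∈ Finset.Icc (a + 1) l, L.g m ^ 2) =
        P.cap * ((∏ m ∈ Finset.Icc (a + 1) l, L.g m ^ 2) * L.g (l + 1) ^ 2) := by ring
    rw [mul_add, e] at h1
    linarith

lemma prod_sq_g_le (ok : L.Ok P.N) {T : ℕ}
    (hT : ((Finset.Icc 1 P.N).filter fun l => L.g l ≠ 1 / 2).card ≤ T) {a b : ℕ} (hb : b ≤ P.N) :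
    ∏ m ∈ Finset.Icc (a + 1) b, L.g m ^ 2 ≤ (1 / 4) ^ (b - a - T) := by
  rw [← prod_filter_mul_prod_filter_not (Finset.Icc (a + 1) b) (fun m => L.g m ≠ 1 / 2)]
  have e : ∏ m ∈ (Finset.Icc (a + 1) b).filter (fun m => ¬ L.g m ≠ 1 / 2), L.g m ^ 2 =
      (1 / 4) ^ ((Finset.Icc (a + 1) b).filter fun m => ¬ L.g m ≠ 1 / 2).card := by
    rw [← prod_const]
    exact prod_congr rfl fun m hm => by rw [not_not.1 (mem_filter.1 hm).2]; norm_num
  rw [e]
  refine (mul_le_of_le_one_left (by positivity)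
    (prod_le_one (fun m _ => sq_nonneg _) fun m _ => sq_g_le ok m)).trans ?_
  refine pow_le_pow_of_le_one (by norm_num) (by norm_num) ?_
  have h := card_filter_add_card_filter_not (s := Finset.Icc (a + 1) b)
    (fun m => L.g m ≠ 1 / 2)
  have h' : ((Finset.Icc (a + 1) b).filter fun m => L.g m ≠ 1 / 2).card ≤ T :=
    (card_le_card (filter_subset_filter _ (Icc_subset_Icc (by omega) hb))).trans hT
  rw [Nat.card_Icc] at h
  omega

lemma exists_half {T : ℕ}
    (hT : ((Finset.Icc 1 P.N).filter fun l => L.g l ≠ 1 / 2).card ≤ T) {s : ℕ} (hs : 1 ≤ s)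
    (hN : s + T ≤ P.N) : ∃ a, s ≤ a ∧ a ≤ s + T ∧ L.g a = 1 / 2 := by
  by_contra hne
  push Not at hne
  have h : Finset.Icc s (s + T) ⊆ (Finset.Icc 1 P.N).filter fun l => L.g l ≠ 1 / 2 := by
    intro a ha
    obtain ⟨h2, h3⟩ := mem_Icc.1 ha
    exact mem_filter.2 ⟨mem_Icc.2 ⟨hs.trans h2, h3.trans hN⟩, hne a h2 h3⟩
  have := (card_le_card h).trans hT
  rw [Nat.card_Icc] at this
  omega

lemma cap_mul_pow_le (P : Scale) {n : ℕ} (hn : P.h ≤ n) : P.cap * (1 / 4) ^ n ≤ P.fl := by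
  have h1 : Real.exp P.h ≤ 4 ^ n := by
    refine (Real.exp_le_exp.2 hn).trans ?_
    rw [← mul_one (n : ℝ), Real.exp_nat_mul]
    exact pow_le_pow_left₀ (Real.exp_pos _).le (by linarith [Real.exp_one_lt_d9]) n
  rw [Scale.cap, one_div_pow, ← div_eq_mul_one_div, div_le_iff₀ (by positivity)]
  exact mul_le_mul_of_nonneg_left h1 P.hfl.le

/-- Levels far above a level from which the values are settled are not selected. -/
theorem part_upper (ok : L.Ok P.N) {Φ : ℝ → ℝ} (h1 : ∀ x, |Φ x| ≤ 1)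
    (h0 : ∀ x, x ≤ 1 → Φ x = 0) {T : ℕ}
    (hT : ((Finset.Icc 1 P.N).filter fun l => L.g l ≠ 1 / 2).card ≤ T) {a0 : ℕ} (ha0 : 1 ≤ a0)
    (Y : ℕ → ℝ) (hY : ∀ l, 0 ≤ Y l)
    (hpairs : ∀ j l, a0 ≤ j → j ≤ l → l ≤ P.N → |L.m j - L.m l| ≤ P.r l * Y l)
    (hA : ∀ l ∈ Finset.Icc a0 P.N, L.A l ≤ Y l)
    (hE : ∀ l ∈ Finset.Icc (a0 + (T + 2)) P.N, L.E l ≤ Y l)
    (hsum : ∑ l ∈ Finset.Icc 1 P.N, Y l ≤ P.fl / 16) :
    |L.part P Φ| ≤
      ∑ l ∈ Finset.Icc 1 (min P.N (a0 + 4 * (T + 3) + ⌈P.h⌉₊)), P.r l * L.X P l := by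
  set J := a0 + 4 * (T + 3) + ⌈P.h⌉₊ with hJ
  have hzero : ∀ l ∈ Finset.Icc 1 P.N, J < l → Φ (L.F P l) = 0 := by
    intro l hl hJl
    obtain ⟨-, hlN⟩ := mem_Icc.1 hl
    refine h0 _ ?_
    obtain ⟨a, ha1, ha2, hga⟩ := exists_half (L := L) hT (show 1 ≤ a0 + (T + 2) by omega)
      (show a0 + (T + 2) + T ≤ P.N by omega)
    have hqa : L.q a = L.m a := L.q_eq_m (by omega) (ok.hgχ a (by rw [hga]; norm_num))
    -- the chain stays among the settled values
    have hq : ∀ u, a ≤ u → ∀ v, u ≤ v → v ≤ P.N → |L.q u - L.m v| ≤ P.r v * Y v := by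
      intro u hu
      induction u, hu using Nat.le_induction with
      | base =>
        intro v hv hvN
        rw [hqa]
        exact hpairs a v (by omega) hv hvN
      | succ u hu ih =>
        intro v hv hvN
        have e : L.q (u + 1) - L.m v = (1 - L.χ (u + 1)) * (L.q u - L.m v)
            + L.χ (u + 1) * (L.m (u + 1) - L.m v) := by rw [q_succ]; ring
        have hc0 := ok.hχ0 (u + 1)
        have hc1 : 0 ≤ 1 - L.χ (u + 1) := by linarith [ok.hχ1 (u + 1)]
        rw [e]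
        refine (abs_add_le _ _).trans ?_
        rw [abs_mul, abs_mul, abs_of_nonneg hc1, abs_of_nonneg hc0]
        have h2 := mul_le_mul_of_nonneg_left (ih v (by omega) hvN) hc1
        have h3 := mul_le_mul_of_nonneg_left (hpairs (u + 1) v (by omega) hv hvN) hc0
        linarith
    have hX : ∀ u ∈ Finset.Icc (a + 1) P.N, L.Xs P u ≤ 3 * Y u := by
      intro u hu
      obtain ⟨hu1, hu2⟩ := mem_Icc.1 hu
      have hZ : L.Z P u ≤ Y u := by
        rw [Z, div_le_iff₀ (P.r_pos u), mul_comm]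
        exact hq (u - 1) (by omega) u (by omega) hu2
      have hA' := hA u (mem_Icc.2 ⟨by omega, hu2⟩)
      have hE' := hE u (mem_Icc.2 ⟨by omega, hu2⟩)
      have hB : L.χ u * L.B P u ≤ L.B P u := mul_le_of_le_one_left (B_nonneg ok u) (ok.hχ1 u)
      refine (Xs_le_X ok u).trans ?_
      rw [X]
      rw [B] at hB ⊢
      linarith
    have hS : ∑ u ∈ Finset.Icc (a + 1) P.N, L.Xs P u ≤ 3 * P.fl / 16 := by
      refine (sum_le_sum hX).trans ?_
      rw [← mul_sum]
      have := sum_le_sum_of_subset_of_nonneg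
        (Icc_subset_Icc_left (show 1 ≤ a + 1 by omega) : Finset.Icc (a + 1) P.N ⊆ Finset.Icc 1 P.N)
        fun u _ _ => hY u
      linarith
    obtain ⟨j, rfl⟩ := Nat.exists_eq_add_of_le' (show 1 ≤ l by omega)
    have hmem := mem_le_decay (P := P) ok (show a ≤ j by omega)
    have hprod := prod_sq_g_le ok hT (a := a) (show j ≤ P.N by omega)
    have hcap : P.cap * ∏ m ∈ Finset.Icc (a + 1) j, L.g m ^ 2 ≤ P.fl := by
      refine le_trans (mul_le_mul_of_nonneg_left hprod P.cap_pos.le) (cap_mul_pow_le P ?_)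
      exact (Nat.le_ceil P.h).trans (by exact_mod_cast (show ⌈P.h⌉₊ ≤ j - a - T by omega))
    have hsplit : ∑ u ∈ Finset.Icc (a + 1) j, L.Xs P u + L.U P (j + 1) =
        ∑ u ∈ Finset.Icc (a + 1) P.N, L.Xs P u := by
      rw [U, tail,
        ← sum_union (disjoint_left.2 fun u h4 h5 => by simp only [mem_Icc] at h4 h5; omega)]
      congr 1
      ext u
      simp only [mem_union, mem_Icc]
      omega
    have hV : L.V P (j + 1) ≤ 2 * P.fl := by
      rw [V, Nat.add_sub_cancel]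
      refine (min_le_right _ _).trans ?_
      have hM := mem_nonneg (P := P) ok j
      have : P.σ * (L.g (j + 1) ^ 2 * L.mem P j) ≤ L.mem P j :=
        (mul_le_of_le_one_left (mul_nonneg (sq_nonneg _) hM) P.hσ1).trans
          (mul_le_of_le_one_left hM (sq_g_le ok _))
      linarith [P.hfl]
    rw [F]
    have hfl := P.hfl
    have hlog := Real.log_le_log (max_V_pos (L := L) (P := P) (j + 1))
      (max_le hV (by linarith : P.fl ≤ 2 * P.fl))
    rw [Real.log_mul two_ne_zero hfl.ne'] at hlog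
    linarith [Real.log_le_sub_one_of_pos (show (0 : ℝ) < 2 by norm_num)]
  calc |L.part P Φ| ≤ ∑ l ∈ Finset.Icc 1 P.N, |Φ (L.F P l) * L.δ l| := abs_sum_le_sum_abs _ _
    _ = ∑ l ∈ Finset.Icc 1 (min P.N J), |Φ (L.F P l) * L.δ l| :=
      (sum_subset (Icc_subset_Icc_right (min_le_left _ _)) fun l hl hl' => by
        rw [hzero l hl (by simp only [mem_Icc] at hl hl'; omega), zero_mul, abs_zero]).symm
    _ ≤ _ := sum_le_sum fun l hl => by
      rw [abs_mul]
      exact (mul_le_of_le_one_left (abs_nonneg _) (h1 _)).trans (abs_δ_le ok (mem_Icc.1 hl).1)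

end Vale.Agent.P249.Core.Line
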