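import Vale.Agent.P249.Core.Config
import Vale.Agent.P249.Core.Coarse
import Vale.Agent.P249.Core.Upper
import Vale.Agent.P249.Core.Pair

/-!
The lines of a configuration satisfy the hypotheses of the abstract estimates.
-/

namespace Vale.Agent.P249.Core.Config

open Finset

variable {ι κ : Type*} [Fintype ι] [Fintype κ] {S : Geo ι κ} (C : Config S)

lemma lineOk (i : ι) (c : κ) : (C.line i c).Ok C.N where
  hA l := S.spread_nonneg l i c
  hE l := mul_nonneg C.he.le (S.window_nonneg C.W l i c)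
  hχ0 _ := chiOf_nonneg C.hK
  hχ1 _ := chiOf_le_one S.hp.le C.hK
  hg0 _ := gOf_ge
  hg1 _ := gOf_le_one
  hgχ _ h := chiOf_eq_one_of_gOf_lt C.hK h
  hgN := gOf_lt_one_of_lt C.hK (by
    have h1 : (1 : ℝ) ≤ S.k := by exact_mod_cast S.hk
    have h2 := C.hK
    have h3 : 1 / (S.k : ℝ) ≤ 1 := (div_le_one (by linarith)).2 h1
    linarith [C.hN i])

lemma card_slow (i : ι) (c : κ) :
    ((Finset.Icc 1 C.N).filter fun l => (C.line i c).g l ≠ 1 / 2).card ≤ C.T := by
  set F := (Finset.Icc 1 C.N).filter fun l => (C.line i c).g l ≠ 1 / 2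
  have hK0 : 0 < C.K := by linarith [C.hK]
  have h1 : ∀ l ∈ F, C.K / Real.exp 1 ≤ S.growth l i := by
    intro l hl
    by_contra h
    exact (mem_filter.1 hl).2 (gOf_eq_half C.hK (not_le.1 h).le)
  have h2 : F ⊆ Finset.range (C.N + 1) := fun l hl =>
    mem_range.2 (Nat.lt_succ_of_le (mem_Icc.1 (mem_filter.1 hl).1).2)
  have h3 : (F.card : ℝ) * (C.K / Real.exp 1) ≤ 4000 * (S.k : ℝ) := by
    rw [← nsmul_eq_mul, ← sum_const]
    exact ((sum_le_sum h1).trans (sum_le_sum_of_subset_of_nonneg h2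
      fun l _ _ => S.growth_nonneg l i)).trans (S.sum_growth_le _ i)
  rw [← le_div_iff₀ (div_pos hK0 (Real.exp_pos 1)), div_div_eq_mul_div] at h3
  exact_mod_cast h3.trans C.hT

lemma kap_ge : 256 ≤ C.kap := by
  rw [kap]; linarith [S.hp]

include C in
lemma dist_pos {i j : ι} (hij : i ≠ j) : 0 < S.dist i j :=
  (S.rad_pos 1).trans_le (C.hr1 i j hij)

/-- Every pair of points has a level just above its distance. -/
lemma exists_level {i j : ι} (hij : i ≠ j) :
    ∃ J, 2 ≤ J ∧ J ≤ C.N ∧ C.kap * S.dist i j ≤ S.rad J / 64 ∧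
      S.rad J ≤ 128 * C.kap * S.dist i j := by
  classical
  have hd := C.dist_pos hij
  have hk : 256 * S.dist i j ≤ C.kap * S.dist i j := mul_le_mul_of_nonneg_right C.kap_ge hd.le
  have h1 := C.hr1 i j hij
  have hex : ∃ J, 64 * C.kap * S.dist i j ≤ S.rad J := ⟨C.N, C.hNd i j⟩
  have hJ2 : 2 ≤ Nat.find hex := by
    by_contra h
    have := (Nat.find_spec hex).trans (S.rad_mono (show Nat.find hex ≤ 1 by omega))
    linarith
  refine ⟨Nat.find hex, hJ2, Nat.find_min' hex (C.hNd i j),
    by linarith [Nat.find_spec hex], ?_⟩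
  obtain ⟨m, hm⟩ := Nat.exists_eq_add_of_le' (show 1 ≤ Nat.find hex by omega)
  have h2 := not_le.1 (Nat.find_min hex (show m < Nat.find hex by omega))
  rw [hm, S.rad_succ]
  linarith

/-- The lines of two points are near from the level just above their distance on. -/
lemma near {i j : ι} {J : ℕ} (hJ : 2 ≤ J) (hJN : J ≤ C.N)
    (hdr : C.kap * S.dist i j ≤ S.rad J / 64) (hrd : S.rad J ≤ 128 * C.kap * S.dist i j)
    (hij : i ≠ j) (c : κ) :
    Near (C.scale c) (C.line i c) (C.line j c) J (S.dist i j) C.kap (C.eta i j c) := by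
  have hd := C.dist_pos hij
  have hk256 := C.kap_ge
  have hsmall : ∀ l, J ≤ l → C.kap * (S.dist i j / S.rad l) ≤ 1 / 64 := fun l hl => by
    rw [mul_div_assoc', div_le_iff₀ (S.rad_pos l)]
    linarith [S.rad_mono hl]
  have hsmall8 : ∀ l, J ≤ l → S.dist i j ≤ S.rad l / 8 := fun l hl => by
    have := mul_le_mul_of_nonneg_right hk256 hd.le
    linarith [S.rad_mono hl]
  have hgrow : ∀ l, J ≤ l → |S.growth l i - S.growth l j| ≤
      32 * (S.dist i j / S.rad l) * (min (S.growth l i) (S.growth l j) + 1) := fun l hl => by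
    have h1 := S.growth_lip (hsmall8 l hl)
    have h2 := S.growth_lip (i := j) (j := i) (by rw [S.dist_comm]; exact hsmall8 l hl)
    rw [S.dist_comm j i, abs_sub_comm] at h2
    rcases le_total (S.growth l i) (S.growth l j) with h | h
    · rw [min_eq_left h]; exact h1
    · rw [min_eq_right h]; exact h2
  have hv0 : ∀ l, 0 ≤ 32 * (S.dist i j / S.rad l) := fun l =>
    mul_nonneg (by norm_num) (div_nonneg hd.le (S.rad_pos l).le)
  have hv : ∀ l, J ≤ l → S.p * (32 * (S.dist i j / S.rad l)) ≤ 1 / 64 := fun l hl => by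
    have := hsmall l hl
    rw [kap] at this
    linarith [mul_nonneg S.p_pos.le (hv0 l)]
  have hcancel : ∀ l, S.rad l * (S.dist i j / S.rad l) = S.dist i j := fun l =>
    mul_div_cancel₀ _ (S.rad_pos l).ne'
  refine
    { hJ := hJ
      hJN := hJN
      hd := hd
      hκ := by linarith
      hdr := hdr
      hrd := hrd
      hη := fun l => mul_nonneg (mul_nonneg (by positivity) C.he.le)
        (add_nonneg (S.window_nonneg C.W l i c) (S.window_nonneg C.W l j c))
      hm := fun l hl => ?_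
      hA := fun l hl => ?_
      hχ := fun l hl => ?_
      hgχ := fun l hl => ?_
      hg := fun l hl => ?_
      hE := fun l hl => ?_ }
  · have hl' := (mem_Icc.1 hl).1
    have h1 := S.mean_lip (hsmall8 l hl') c
    have h2 := S.mean_lip (i := j) (j := i) (by rw [S.dist_comm]; exact hsmall8 l hl') c
    rw [S.dist_comm j i, abs_sub_comm] at h2
    have hle : ∀ t, 0 ≤ t → 8 * S.dist i j * t ≤ C.kap * S.dist i j * t := fun t ht =>
      mul_le_mul_of_nonneg_right (mul_le_mul_of_nonneg_right (by linarith) hd.le) ht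
    rw [mul_min_of_nonneg _ _ (by positivity)]
    exact le_min (h1.trans (hle _ (S.spread_nonneg l i c)))
      (h2.trans (hle _ (S.spread_nonneg l j c)))
  · have hl' := (mem_Icc.1 hl).1
    have h1 := S.spread_lip (hsmall8 l hl') c
    have h2 := S.spread_lip (i := j) (j := i) (by rw [S.dist_comm]; exact hsmall8 l hl') c
    rw [S.dist_comm j i, abs_sub_comm] at h2
    have hle : ∀ s t, 0 ≤ t → s ≤ 32 * (S.dist i j / S.rad l) * t →
        S.rad l * s ≤ C.kap * S.dist i j * t := fun s t ht hs => by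
      refine (mul_le_mul_of_nonneg_left hs (S.rad_pos l).le).trans ?_
      rw [← mul_assoc, mul_left_comm, hcancel]
      exact mul_le_mul_of_nonneg_right (mul_le_mul_of_nonneg_right (by linarith) hd.le) ht
    rw [mul_min_of_nonneg _ _ (by positivity)]
    exact le_min (hle _ _ (S.spread_nonneg l i c) h1) (hle _ _ (S.spread_nonneg l j c) h2)
  · have hl' := (mem_Icc.1 hl).1
    refine (mul_le_mul_of_nonneg_left (chiOf_lip S.hp.le C.hK (hv0 l) (hv l hl') (hgrow l hl'))
      (S.rad_pos l).le).trans (le_of_eq ?_)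
    rw [← mul_assoc, kap]
    congr 1
    calc _ = 256 * S.p * (S.rad l * (S.dist i j / S.rad l)) := by ring
      _ = _ := by rw [hcancel]
  · have hl' := (mem_Icc.1 hl).1
    have hgi := S.growth_nonneg l i
    have hgj := S.growth_nonneg l j
    exact ⟨chiOf_eq_one_of_near S.hp.le C.hK hgi hgj (hv0 l) (hv l hl') (hgrow l hl'),
      chiOf_eq_one_of_near S.hp.le C.hK hgj hgi (hv0 l) (hv l hl')
        (by rw [abs_sub_comm, min_comm]; exact hgrow l hl')⟩
  · have hl' := (mem_Icc.1 hl).1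
    refine (mul_le_mul_of_nonneg_left (gOf_lip C.hK (hv0 l) (hgrow l hl'))
      (S.rad_pos l).le).trans ?_
    calc S.rad l * (4 * (32 * (S.dist i j / S.rad l)))
        = 128 * (S.rad l * (S.dist i j / S.rad l)) := by ring
      _ = 128 * S.dist i j := by rw [hcancel]
      _ ≤ _ := mul_le_mul_of_nonneg_right (by linarith) hd.le
  · have hwi := S.window_nonneg C.W l i c
    have hwj := S.window_nonneg C.W l j c
    have hr := S.rad_pos l
    have h2W : (0 : ℝ) < 2 ^ C.W := by positivity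
    have he := C.he
    have key : S.rad l * |S.window C.W l i c - S.window C.W l j c| ≤
        S.dist i j * (32 * 2 ^ C.W * (S.window C.W l i c + S.window C.W l j c)) := by
      rcases le_or_gt (S.dist i j) (S.rad (l - C.W) / 8) with h | h
      · refine (mul_le_mul_of_nonneg_left (S.window_lip h c) hr.le).trans ?_
        calc S.rad l * (32 * 2 ^ C.W * (S.dist i j / S.rad l) * S.window C.W l i c)
            = 32 * 2 ^ C.W * (S.rad l * (S.dist i j / S.rad l)) * S.window C.W l i c := by ring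
          _ = S.dist i j * (32 * 2 ^ C.W * S.window C.W l i c) := by rw [hcancel]; ring
          _ ≤ _ := mul_le_mul_of_nonneg_left
              (mul_le_mul_of_nonneg_left (le_add_of_nonneg_right hwj) (by positivity)) hd.le
      · have h1 : S.rad l ≤ 2 ^ C.W * (8 * S.dist i j) :=
          (S.rad_le_pow_mul C.W l).trans (mul_le_mul_of_nonneg_left (by linarith) h2W.le)
        have h3 : |S.window C.W l i c - S.window C.W l j c| ≤
            S.window C.W l i c + S.window C.W l j c := by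
          rw [abs_le]; constructor <;> linarith
        refine (mul_le_mul h1 h3 (abs_nonneg _) (by positivity)).trans ?_
        have : 0 ≤ 2 ^ C.W * S.dist i j * (S.window C.W l i c + S.window C.W l j c) := by
          positivity
        linarith
    calc S.rad l * |C.e * S.window C.W l i c - C.e * S.window C.W l j c|
        = C.e * (S.rad l * |S.window C.W l i c - S.window C.W l j c|) := by
          rw [← mul_sub, abs_mul, abs_of_pos he]; ring
      _ ≤ C.e * _ := mul_le_mul_of_nonneg_left key he.le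
      _ = _ := by rw [eta]; ring

/-- The smoothed values move little over a window. -/
lemma amp_window (i : ι) (c : κ) {u : ℕ} :
    ∀ i' ∈ Finset.Icc (u - (C.T + 2)) u, ∀ j' ∈ Finset.Icc (u - (C.T + 2)) u,
      |(C.line i c).m i' - (C.line i c).m j'| ≤ (C.scale c).r u * (C.line i c).E u / C.e ∧
        (C.scale c).r j' * (C.line i c).A j' ≤ (C.scale c).r u * (C.line i c).E u / C.e := by
  intro i' hi' j' hj'
  have e : (C.scale c).r u * (C.line i c).E u / C.e = S.rad u * S.window C.W u i c := by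
    show S.rad u * (C.e * S.window C.W u i c) / C.e = _
    have := C.he.ne'
    field_simp
  rw [e]
  refine ⟨(S.abs_mean_sub_le_pairs i' j' i c).trans (S.pairs_le_window hi' hj' i c), ?_⟩
  show S.rad j' * (S.pairs j' j' i c / S.rad j') ≤ _
  rw [mul_div_cancel₀ _ (S.rad_pos j').ne']
  exact S.pairs_le_window hj' hj' i c

/-- The small terms of two points differ little high above their distance. -/
lemma amp_dE {i j : ι} {J : ℕ} (hdr : C.kap * S.dist i j ≤ S.rad J / 64) (c : κ) :
    ∀ u ∈ Finset.Icc (J + (C.T + 2)) C.N,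
      (C.scale c).r u * |(C.line i c).E u - (C.line j c).E u| ≤
        C.kap * 2 ^ (C.T + 2) * S.dist i j * min ((C.line i c).E u) ((C.line j c).E u) := by
  intro u hu
  have hd0 := S.dist_nonneg i j
  have hk := C.kap_ge
  have h8 : S.dist i j ≤ S.rad (u - C.W) / 8 := by
    have h1 : J ≤ u - C.W := by
      have := (mem_Icc.1 hu).1
      simp only [W]
      omega
    have := mul_le_mul_of_nonneg_right hk hd0
    linarith [S.rad_mono h1]
  have key : ∀ a b : ι, S.dist a b = S.dist i j →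
      S.rad u * |C.e * S.window C.W u a c - C.e * S.window C.W u b c| ≤
        C.kap * 2 ^ (C.T + 2) * S.dist i j * (C.e * S.window C.W u a c) := by
    intro a b hab
    have h1 := S.window_lip (W := C.W) (l := u) (i := a) (j := b) (by rw [hab]; exact h8) c
    rw [← mul_sub, abs_mul, abs_of_pos C.he, hab] at *
    calc S.rad u * (C.e * |S.window C.W u a c - S.window C.W u b c|)
        ≤ S.rad u * (C.e * (32 * 2 ^ C.W * (S.dist i j / S.rad u) * S.window C.W u a c)) :=
          mul_le_mul_of_nonneg_left (mul_le_mul_of_nonneg_left h1 C.he.le) (S.rad_pos u).le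
      _ = 32 * 2 ^ C.W * (S.rad u * (S.dist i j / S.rad u)) * (C.e * S.window C.W u a c) := by ring
      _ ≤ _ := by
          rw [mul_div_cancel₀ _ (S.rad_pos u).ne']
          exact mul_le_mul_of_nonneg_right (mul_le_mul_of_nonneg_right
            (mul_le_mul_of_nonneg_right (by linarith) (by positivity)) hd0)
            (mul_nonneg C.he.le (S.window_nonneg _ _ _ _))
  have hk0 : 0 ≤ C.kap * 2 ^ (C.T + 2) * S.dist i j :=
    mul_nonneg (mul_nonneg (by linarith) (by positivity)) hd0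
  rw [mul_min_of_nonneg _ _ hk0]
  refine le_min (key i j rfl) ?_
  rw [abs_sub_comm]
  exact key j i (S.dist_comm j i)

/-- A level from which the neighbourhood of a point is rounded. -/
lemma upper_level (hN1 : 1 ≤ C.N) (i : ι) :
    ∃ a0, 1 ≤ a0 ∧ a0 ≤ C.N ∧ S.rM i ≤ 8 * (S.k : ℝ) * S.rad a0 ∧ S.rad a0 ≤ S.rM i := by
  classical
  have hk : (1 : ℝ) ≤ S.k := by exact_mod_cast S.hk
  have hex : ∃ a, 1 ≤ a ∧ S.rM i ≤ 8 * (S.k : ℝ) * S.rad a := ⟨C.N, hN1, C.hNM i⟩
  obtain ⟨h1, h2⟩ := Nat.find_spec hex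
  refine ⟨Nat.find hex, h1, Nat.find_min' hex ⟨hN1, C.hNM i⟩, h2, ?_⟩
  rcases eq_or_lt_of_le h1 with h | h
  · rw [← h]; exact C.hrM i
  · obtain ⟨m, hm⟩ := Nat.exists_eq_add_of_le' h1
    have h3 := Nat.find_min hex (show m < Nat.find hex by omega)
    rw [not_and, not_le] at h3
    have h4 := h3 (by omega)
    rw [hm, S.rad_succ]
    linarith [mul_le_mul_of_nonneg_right hk (S.rad_pos m).le, S.rad_pos m]

/-- The bound on the sizes of the rounded levels. -/
noncomputable def upperY (i : ι) (c : κ) (l : ℕ) : ℝ :=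
  90 * C.τ c * ((C.T : ℝ) + 3) ^ 2 * (S.growth l i + S.far l i)

lemma upperY_nonneg (i : ι) (c : κ) (l : ℕ) : 0 ≤ C.upperY i c l :=
  mul_nonneg (mul_nonneg (mul_nonneg (by norm_num) (C.hτ c).le) (sq_nonneg _))
    (add_nonneg (S.growth_nonneg l i) (S.far_nonneg l i))

lemma pairs_le_top {i : ι} {a0 : ℕ} (ha : S.rM i ≤ 8 * (S.k : ℝ) * S.rad a0) (c : κ) {a b l : ℕ}
    (ha1 : a0 ≤ a) (hb1 : a0 ≤ b) (ha2 : a ≤ l) (hb2 : b ≤ l) :
    S.pairs a b i c ≤ S.rad l * (80 * C.τ c * (S.growth l i + S.far l i)) := by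
  have hk : (0 : ℝ) ≤ 8 * (S.k : ℝ) := by positivity
  refine (S.pairs_le_of_coarse (fun c => (C.hτ c).le) C.hτctr C.hτall
    (ha.trans (mul_le_mul_of_nonneg_left (S.rad_mono ha1) hk))
    (ha.trans (mul_le_mul_of_nonneg_left (S.rad_mono hb1) hk)) c).trans ?_
  have h1 : ∀ a, a ≤ l → S.rad a * (S.growth a i + S.far a i) ≤
      S.rad l * (S.growth l i + S.far l i) := fun a h => by
    rw [mul_add, mul_add]
    exact add_le_add (S.rad_mul_growth_mono h i) (S.rad_mul_far_mono h i)
  refine (mul_le_mul_of_nonneg_left (add_le_add (h1 a ha2) (h1 b hb2))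
    (mul_nonneg (by norm_num) (C.hτ c).le)).trans (le_of_eq (by ring))

lemma le_upperY (i : ι) (c : κ) (l : ℕ) :
    80 * C.τ c * (S.growth l i + S.far l i) * ((C.T : ℝ) + 3) ^ 2 ≤ C.upperY i c l := by
  have := C.upperY_nonneg i c l
  rw [upperY] at this ⊢
  linarith

lemma upperY_pairs {i : ι} {a0 : ℕ} (ha : S.rM i ≤ 8 * (S.k : ℝ) * S.rad a0) (c : κ) :
    ∀ j l, a0 ≤ j → j ≤ l → l ≤ C.N →
      |(C.line i c).m j - (C.line i c).m l| ≤ (C.scale c).r l * C.upperY i c l := by
  intro j l hj hjl _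
  refine (S.abs_mean_sub_le_pairs j l i c).trans
    ((C.pairs_le_top ha c hj (hj.trans hjl) hjl le_rfl).trans ?_)
  refine mul_le_mul_of_nonneg_left (le_trans ?_ (C.le_upperY i c l)) (S.rad_pos l).le
  exact le_mul_of_one_le_right (mul_nonneg (mul_nonneg (by norm_num) (C.hτ c).le)
    (add_nonneg (S.growth_nonneg l i) (S.far_nonneg l i)))
    (one_le_pow₀ (by linarith [Nat.cast_nonneg (α := ℝ) C.T]))

lemma upperY_A {i : ι} {a0 : ℕ} (ha : S.rM i ≤ 8 * (S.k : ℝ) * S.rad a0) (c : κ) :
    ∀ l ∈ Finset.Icc a0 C.N, (C.line i c).A l ≤ C.upperY i c l := by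
  intro l hl
  obtain ⟨h1, -⟩ := mem_Icc.1 hl
  show S.pairs l l i c / S.rad l ≤ _
  rw [div_le_iff₀ (S.rad_pos l), mul_comm]
  refine (C.pairs_le_top ha c h1 h1 le_rfl le_rfl).trans ?_
  refine mul_le_mul_of_nonneg_left (le_trans ?_ (C.le_upperY i c l)) (S.rad_pos l).le
  exact le_mul_of_one_le_right (mul_nonneg (mul_nonneg (by norm_num) (C.hτ c).le)
    (add_nonneg (S.growth_nonneg l i) (S.far_nonneg l i)))
    (one_le_pow₀ (by linarith [Nat.cast_nonneg (α := ℝ) C.T]))

include C in
lemma e_le_one : C.e ≤ 1 := by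
  refine le_trans ?_ C.he1
  rw [mul_assoc, mul_assoc]
  refine le_mul_of_one_le_right C.he.le (one_le_mul_of_one_le_of_one_le
    (one_le_pow₀ one_le_two) (one_le_mul_of_one_le_of_one_le ?_ ?_))
  · exact one_le_pow₀ (by linarith [Nat.cast_nonneg (α := ℝ) C.T])
  · exact one_le_pow₀ (by exact_mod_cast S.hk)

lemma upperY_E {i : ι} {a0 : ℕ} (ha : S.rM i ≤ 8 * (S.k : ℝ) * S.rad a0) (c : κ) :
    ∀ l ∈ Finset.Icc (a0 + (C.T + 2)) C.N, (C.line i c).E l ≤ C.upperY i c l := by
  intro l hl
  obtain ⟨h1, -⟩ := mem_Icc.1 hl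
  show C.e * S.window C.W l i c ≤ _
  refine (mul_le_of_le_one_left (S.window_nonneg _ _ _ _) C.e_le_one).trans ?_
  rw [Geo.window, div_le_iff₀ (S.rad_pos l)]
  refine le_trans (sum_le_sum fun a ha' => sum_le_sum fun b hb' =>
    C.pairs_le_top ha c (show a0 ≤ a by have := mem_Icc.1 ha'; simp only [W] at this; omega)
      (show a0 ≤ b by have := mem_Icc.1 hb'; simp only [W] at this; omega)
      (mem_Icc.1 ha').2 (mem_Icc.1 hb').2) ?_
  have hcard : ((Finset.Icc (l - C.W) l).card : ℝ) = (C.T : ℝ) + 3 := by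
    rw [Nat.card_Icc, show l + 1 - (l - C.W) = C.T + 3 by simp only [W]; omega]
    push_cast
    ring
  simp only [sum_const, nsmul_eq_mul, hcard]
  have := mul_le_mul_of_nonneg_right (C.le_upperY i c l) (S.rad_pos l).le
  linarith

lemma upperY_sum (i : ι) (c : κ) :
    ∑ l ∈ Finset.Icc 1 C.N, C.upperY i c l ≤ (C.scale c).fl / 16 := by
  show _ ≤ C.Λ0 * C.τ c / 16
  have hk : (1 : ℝ) ≤ S.k := by exact_mod_cast S.hk
  have hsum : ∑ l ∈ Finset.Icc 1 C.N, (S.growth l i + S.far l i) ≤ 4001 * (S.k : ℝ) := by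
    refine (sum_le_sum_of_subset_of_nonneg (t := Finset.range (C.N + 1))
      (fun l hl => mem_range.2 (Nat.lt_succ_of_le (mem_Icc.1 hl).2))
      fun l _ _ => add_nonneg (S.growth_nonneg l i) (S.far_nonneg l i)).trans ?_
    rw [sum_add_distrib]
    linarith [S.sum_growth_le (C.N + 1) i, S.sum_far_le (C.N + 1) i]
  simp only [upperY, ← mul_sum]
  have h1 := mul_le_mul_of_nonneg_right C.hΛ0' (C.hτ c).le
  refine (mul_le_mul_of_nonneg_left hsum
    (mul_nonneg (mul_nonneg (by norm_num) (C.hτ c).le) (sq_nonneg _))).trans ?_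
  linarith

/-- Levels far above the rounding radius of a point are not selected. -/
lemma part_le_upper {i : ι} {a0 : ℕ} (ha0 : 1 ≤ a0)
    (ha : S.rM i ≤ 8 * (S.k : ℝ) * S.rad a0) (c : κ) {Φ : ℝ → ℝ} (h1 : ∀ x, |Φ x| ≤ 1)
    (h0 : ∀ x, x ≤ 1 → Φ x = 0) :
    |(C.line i c).part (C.scale c) Φ| ≤
      ∑ l ∈ Finset.Icc 1 (min C.N (a0 + 4 * (C.T + 3) + ⌈C.h⌉₊)),
        S.rad l * (C.line i c).X (C.scale c) l :=
  Line.part_upper (P := C.scale c) (C.lineOk i c) h1 h0 (C.card_slow i c) ha0 (C.upperY i c)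
    (C.upperY_nonneg i c) (C.upperY_pairs ha c) (C.upperY_A ha c) (C.upperY_E ha c)
    (C.upperY_sum i c)

end Vale.Agent.P249.Core.Config
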