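import Vale.Agent.P249.Core.Pair

/-!
The three estimates for two nearby lines: varying gates at equal level, telescoping weights,
and the levels below the distance.
-/

namespace Vale.Agent.P249.Core

open Finset

/-- The numerical budget of the estimates. -/
structure Budget (P : Scale) (K Λ : ℝ) (w0 : ℕ) : Prop where
  hK : 3 ≤ K
  hh : P.h + 2 ≤ K
  hσK : P.σ * K ^ 2 ≤ 1
  hw0 : K ≤ 2 ^ w0
  hΛ0 : (w0:ℝ) + 1 ≤ Λ
  hΛσ : Real.log (16 / P.σ) + 4 ≤ Λ
  hΛK : Real.log (16 * K ^ 3) + 3 ≤ Λ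

lemma Budget.one_le {P : Scale} {K Λ : ℝ} {w0 : ℕ} (B : Budget P K Λ w0) : 1 ≤ Λ := by
  linarith [B.hΛ0, Nat.cast_nonneg (α := ℝ) w0]

lemma Budget.log_σ {P : Scale} {K Λ : ℝ} {w0 : ℕ} (_B : Budget P K Λ w0) :
    Real.log (1 / P.σ) ≤ Real.log (16 / P.σ) :=
  Real.log_le_log (one_div_pos.2 P.hσ) (div_le_div_of_nonneg_right (by norm_num) P.hσ.le)

lemma geom_tail_le (a n : ℕ) : ∑ u ∈ Finset.Icc (a + 1) n, (1 / 2 : ℝ) ^ u ≤ (1 / 2) ^ a := by
  rcases lt_or_ge n a with h | h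
  · rw [Icc_eq_empty (by omega), sum_empty]
    positivity
  suffices h2 : ∑ u ∈ Finset.Icc (a + 1) n, (1 / 2 : ℝ) ^ u + (1 / 2) ^ n = (1 / 2) ^ a by
    have : (0:ℝ) ≤ (1 / 2) ^ n := by positivity
    linarith
  induction n, h using Nat.le_induction with
  | base => simp
  | succ n hn ih =>
    rw [sum_Icc_succ_top (show a + 1 ≤ n + 1 by omega), ← ih, pow_succ]
    ring

lemma sum_Ico_drop (f : ℕ → ℝ) {a b : ℕ} (h : a ≤ b) :
    ∑ l ∈ Finset.Ico a b, (f l - f (l + 1)) = f a - f b := by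
  have := Finset.sum_Ico_sub f h
  rw [← neg_inj, ← sum_neg_distrib]
  simp only [neg_sub]
  linarith

namespace Near

variable {P : Scale} {a b : Line} {J : ℕ} {d κ : ℝ} {η : ℕ → ℝ} (N : Near P a b J d κ η)
  (oa : a.Ok P.N) (ob : b.Ok P.N)
include N oa ob

lemma sum_weighted_dX_le {l : ℕ} (hl : J ≤ l) (hlN : l ≤ P.N) (Qf : ℕ → ℝ)
    (hQ : ∀ u, l ≤ u → 0 ≤ Qf u ∧ Qf u ≤ 1 ∧ Qf (u + 1) ≤ Qf u) :
    ∑ u ∈ Finset.Icc l P.N, Qf u * (P.r u * |b.X P u - a.X P u|) ≤
      4 * a.dbd P J |a.q (J - 1) - b.q (J - 1)| (3 * κ * d) (l - 1) +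
      17 * κ * d * ∑ u ∈ Finset.Icc l P.N, Qf u * a.X P u + d * ∑ u ∈ Finset.Icc 1 P.N, η u := by
  set H := |a.q (J - 1) - b.q (J - 1)| with hH
  set D := a.dbd P J H (3 * κ * d) with hD
  have hκd := N.κd_pos
  have hD0 : ∀ u, 0 ≤ D u := fun u =>
    Line.dbd_nonneg oa (abs_nonneg _) (by linarith) u
  have hJ := N.hJ
  have htel := sum_telescope (N := P.N) (Q := Qf) (χ := a.χ) (θ := a.θ) (G := D)
    (X := fun u => 3 * κ * d * (a.χ u * a.B P u)) (l := l) (by omega) (by omega)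
    (fun u hu => by
      obtain ⟨h1, h2⟩ := mem_Icc.1 hu
      obtain ⟨t0, -, t2⟩ := Line.θ_bounds oa u
      exact ⟨(hQ u h1).1, t0, t2, hD0 _,
        mul_nonneg (by linarith) (Line.chiB_nonneg oa u),
        Line.dbd_of_le (by omega) (by omega), fun _ => (hQ u h1).2.2⟩)
    (mul_nonneg (hQ l le_rfl).1 (hD0 _))
  have h1 : ∑ u ∈ Finset.Icc l P.N, Qf u * (P.r u * |b.X P u - a.X P u|) ≤
      2 * ∑ u ∈ Finset.Icc l P.N, Qf u * (a.χ u * D (u - 1)) +
      5 * κ * d * ∑ u ∈ Finset.Icc l P.N, Qf u * a.X P u + d * ∑ u ∈ Finset.Icc l P.N, η u := by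
    simp only [mul_sum, ← sum_add_distrib]
    refine sum_le_sum fun u hu => ?_
    obtain ⟨h2, h3⟩ := mem_Icc.1 hu
    obtain ⟨q0, q1, -⟩ := hQ u h2
    have hu' : u ∈ Finset.Icc J P.N := mem_Icc.2 ⟨by omega, h3⟩
    have h4 := N.r_mul_abs_dX_le oa ob hu'
    have h5 := mul_le_mul_of_nonneg_left (N.abs_dq_le oa ob (l := u - 1) (by omega) (by omega))
      (mul_nonneg two_pos.le (oa.hχ0 u))
    have h6 : κ * d * (a.χ u * a.B P u) ≤ κ * d * a.X P u :=
      mul_le_mul_of_nonneg_left (Line.chiB_le_X oa u) hκd.le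
    have h7 : Qf u * (d * η u) ≤ d * η u :=
      mul_le_of_le_one_left (mul_nonneg N.hd.le (N.hη u)) q1
    have h8 := mul_le_mul_of_nonneg_left
      (show P.r u * |b.X P u - a.X P u| - d * η u ≤ 2 * a.χ u * D (u - 1) + 5 * κ * d * a.X P u by
        linarith) q0
    rw [mul_sub, mul_add] at h8
    linarith
  have h2 : ∑ u ∈ Finset.Icc l P.N, Qf u * (3 * κ * d * (a.χ u * a.B P u)) ≤
      3 * κ * d * ∑ u ∈ Finset.Icc l P.N, Qf u * a.X P u := by
    rw [mul_sum]
    refine sum_le_sum fun u hu => ?_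
    have := mul_le_mul_of_nonneg_left (Line.chiB_le_X (P := P) oa u)
      (mul_nonneg (mul_nonneg (by linarith : (0:ℝ) ≤ 3 * (κ * d)) (hQ u (mem_Icc.1 hu).1).1)
        zero_le_one)
    linarith
  have h3 : d * ∑ u ∈ Finset.Icc l P.N, η u ≤ d * ∑ u ∈ Finset.Icc 1 P.N, η u :=
    mul_le_mul_of_nonneg_left (sum_le_sum_of_subset_of_nonneg
      (Icc_subset_Icc_left (by omega)) fun u _ _ => N.hη u) N.hd.le
  have h4 : Qf l * D (l - 1) ≤ D (l - 1) := mul_le_of_le_one_left (hD0 _) (hQ l le_rfl).2.1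
  linarith

lemma r_mul_abs_dXs_le {u : ℕ} (hu : J ≤ u) :
    P.r u * |b.Xs P u - a.Xs P u| ≤
      a.w P u * (2 * (P.r u * |b.X P u - a.X P u|) + 4 * κ * d * a.X P u) := by
  have hr := P.r_pos u
  rw [Line.Xs, Line.Xs, show b.w P u * b.X P u - a.w P u * a.X P u =
    b.w P u * (b.X P u - a.X P u) + (b.w P u - a.w P u) * a.X P u by ring]
  refine (mul_le_mul_of_nonneg_left (abs_add_le _ _) hr.le).trans ?_
  rw [abs_mul, abs_mul, abs_of_pos (Line.w_pos ob u), abs_of_nonneg (Line.X_nonneg oa u)]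
  have h1 := mul_le_mul_of_nonneg_right (N.w_le_two oa ob (l := u) (by omega))
    (mul_nonneg hr.le (abs_nonneg (b.X P u - a.X P u)))
  have h2 := mul_le_mul_of_nonneg_right (N.abs_dw_le oa ob (l := u) (by omega))
    (mul_nonneg hr.le (Line.X_nonneg (P := P) oa u))
  have e : 4 * (κ * d / P.r u) * a.w P u * (P.r u * a.X P u) = 4 * κ * d * a.X P u * a.w P u := by
    field_simp [hr.ne']
  rw [e] at h2
  linarith

lemma r_mul_abs_dU_le {l : ℕ} (hl : J ≤ l) (hlN : l ≤ P.N) :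
    P.r l * |b.U P l - a.U P l| ≤ a.w P l *
      (8 * a.dbd P J |a.q (J - 1) - b.q (J - 1)| (3 * κ * d) (l - 1) +
        38 * κ * d * ∑ u ∈ Finset.Icc l P.N, a.Q P l u * a.X P u +
        2 * d * ∑ u ∈ Finset.Icc 1 P.N, η u) := by
  have hκd := N.κd_pos
  have h1 := N.sum_weighted_dX_le oa ob hl hlN (a.Q P l) fun u hu =>
    ⟨Line.Q_nonneg oa l u, Line.Q_le_one oa hu, Line.Q_succ_le oa l u⟩
  have h2 : P.r l * |b.U P l - a.U P l| ≤ a.w P l * (2 * ∑ u ∈ Finset.Icc l P.N,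
      a.Q P l u * (P.r u * |b.X P u - a.X P u|) +
      4 * κ * d * ∑ u ∈ Finset.Icc l P.N, a.Q P l u * a.X P u) := by
    rw [Line.U, Line.U, tail, tail, ← sum_sub_distrib]
    refine (mul_le_mul_of_nonneg_left (abs_sum_le_sum_abs _ _) (P.r_pos l).le).trans ?_
    rw [mul_sum, mul_sum, mul_sum, ← sum_add_distrib, mul_sum]
    refine sum_le_sum fun u hu => ?_
    obtain ⟨hu1, -⟩ := mem_Icc.1 hu
    have hr := P.r_pos u
    have h3 := mul_le_mul_of_nonneg_left (N.r_mul_abs_dXs_le oa ob (hl.trans hu1))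
      (div_pos (P.r_pos l) hr).le
    rw [← mul_assoc, div_mul_cancel₀ _ hr.ne'] at h3
    refine h3.trans (le_of_eq ?_)
    rw [Line.Q]
    field_simp [hr.ne', (Line.w_pos (P := P) oa l).ne']
  refine h2.trans (mul_le_mul_of_nonneg_left ?_ (Line.w_pos oa l).le)
  linarith

lemma r_mul_abs_dgmem_le {p W K : ℝ} (hba : a.Bounded P p W K) (hbb : b.Bounded P p W K)
    (hK : 1 ≤ K) {l : ℕ} (hl : J ≤ l) (hlN : l ≤ P.N) :
    P.r l * |b.g l ^ 2 * b.mem P (l - 1) - a.g l ^ 2 * a.mem P (l - 1)| ≤ a.w P l *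
      (8 * |a.q (J - 1) - b.q (J - 1)| + 430 * κ * d * (K * W) +
        2 * d * ∑ u ∈ Finset.Icc 1 P.N, η u) := by
  have hκd := N.κd_pos
  have hJ := N.hJ
  set H := |a.q (J - 1) - b.q (J - 1)| with hH
  set cst : ℕ → ℝ := fun t => 8 * κ * d * (b.low P (t - 1) / P.r t) +
    (2 * (P.r t * |b.X P t - a.X P t|) + 4 * κ * d * a.X P t) with hcst
  set base := a.low P (J - 1) + 2 * b.low P (J - 1) with hbase
  have hc0 : ∀ t, 0 ≤ cst t := fun t => by
    have := Line.low_nonneg (P := P) ob (t - 1)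
    have := P.r_pos t
    have := Line.X_nonneg (P := P) oa t
    have := N.hd
    have := N.hκ
    positivity
  -- the step from `n` to the next level
  have hstep : ∀ n, J ≤ n + 1 → n + 1 ≤ P.N → ∀ M, 0 ≤ M →
      P.r n * |b.mem P n - a.mem P n| ≤ a.w P n * M →
      P.r (n + 1) * |b.g (n + 1) ^ 2 * b.mem P n - a.g (n + 1) ^ 2 * a.mem P n| ≤
        a.w P (n + 1) * (M + 8 * κ * d * (b.low P n / P.r (n + 1))) := by
    intro n hn1 hn2 M hM hmem
    have hga := oa.hg1 (n + 1)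
    have hga0 := Line.g_pos oa (n + 1)
    have hw := Line.w_succ (P := P) oa (show n < P.N by omega)
    have hwn := Line.w_pos (P := P) oa n
    have hwn1 := Line.w_pos (P := P) oa (n + 1)
    have hr := P.r_pos n
    have hMb := Line.mem_nonneg (P := P) ob n
    rw [show b.g (n + 1) ^ 2 * b.mem P n - a.g (n + 1) ^ 2 * a.mem P n =
      a.g (n + 1) ^ 2 * (b.mem P n - a.mem P n) +
        (b.g (n + 1) - a.g (n + 1)) * (b.g (n + 1) + a.g (n + 1)) * b.mem P n by ring]
    refine (mul_le_mul_of_nonneg_left (abs_add_le _ _) (P.r_pos _).le).trans ?_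
    rw [abs_mul, abs_mul, abs_mul, abs_of_nonneg (sq_nonneg _), abs_of_nonneg hMb,
      abs_of_pos (add_pos (Line.g_pos ob (n + 1)) hga0), abs_sub_comm (b.g (n + 1))]
    rw [mul_add (P.r (n + 1)), mul_add (a.w P (n + 1))]
    refine add_le_add ?_ ?_
    · rw [P.r_succ, ← hw]
      have h1 := mul_le_mul_of_nonneg_left hmem (mul_pos hga0 hga0).le
      have h2 : a.g (n + 1) * (a.g (n + 1) * (a.w P n * M)) ≤ a.g (n + 1) * (a.w P n * M) :=
        mul_le_of_le_one_left (by positivity) hga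
      linarith
    · have h1 : P.r (n + 1) * |a.g (n + 1) - b.g (n + 1)| ≤ κ * d :=
        N.hg (n + 1) (mem_Icc.2 ⟨hn1, hn2⟩)
      have h2 : b.mem P n ≤ b.w P n * b.low P n / P.r n := by
        rw [le_div_iff₀ hr, mul_comm]; exact Line.r_mul_mem_le ob (by omega)
      have h3 : b.w P n ≤ 2 * a.w P (n + 1) :=
        (N.w_le_two oa ob (l := n) hn1).trans
          (mul_le_mul_of_nonneg_left (Line.w_le_succ oa n) two_pos.le)
      have h4 := Line.low_nonneg (P := P) ob n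
      calc P.r (n + 1) * (|a.g (n + 1) - b.g (n + 1)| * (b.g (n + 1) + a.g (n + 1)) * b.mem P n)
          = (P.r (n + 1) * |a.g (n + 1) - b.g (n + 1)|) * (b.g (n + 1) + a.g (n + 1)) *
              b.mem P n := by ring
        _ ≤ (κ * d) * 2 * (2 * a.w P (n + 1) * b.low P n / P.r n) := by
            refine mul_le_mul (mul_le_mul h1 (by linarith [ob.hg1 (n + 1)])
              (by linarith [Line.g_pos ob (n + 1)]) hκd.le) ?_ hMb (by linarith)
            exact h2.trans (div_le_div_of_nonneg_right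
              (mul_le_mul_of_nonneg_right h3 h4) hr.le)
        _ = _ := by
            rw [P.r_succ]
            field_simp [hr.ne']
            ring
  have key : ∀ n, J ≤ n + 1 → n ≤ P.N → P.r n * |b.mem P n - a.mem P n| ≤
      a.w P n * (base + ∑ t ∈ Finset.Icc J n, cst t) := by
    intro n
    induction n with
    | zero => intro h; omega
    | succ n ih =>
      intro h1 h2
      rcases eq_or_lt_of_le h1 with h3 | h3
      · rw [Icc_eq_empty (by omega), sum_empty, add_zero, hbase, show J - 1 = n + 1 by omega]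
        have ha := Line.r_mul_mem_le oa h2
        have hb := Line.r_mul_mem_le ob h2
        have hw := mul_le_mul_of_nonneg_right (N.w_le_two oa ob (l := n + 1) (by omega))
          (Line.low_nonneg (P := P) ob (n + 1))
        have hma := Line.mem_nonneg (P := P) oa (n + 1)
        have hmb := Line.mem_nonneg (P := P) ob (n + 1)
        have habs : |b.mem P (n + 1) - a.mem P (n + 1)| ≤ b.mem P (n + 1) + a.mem P (n + 1) :=
          abs_le.2 ⟨by linarith, by linarith⟩
        have := mul_le_mul_of_nonneg_left habs (P.r_pos (n + 1)).le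
        linarith
      · have h4 := hstep n (by omega) h2 _ (add_nonneg (add_nonneg (Line.low_nonneg oa _)
          (mul_nonneg two_pos.le (Line.low_nonneg ob _))) (sum_nonneg fun t _ => hc0 t))
          (ih (by omega) (by omega))
        rw [Line.mem_of_pos (L := b) (show 1 ≤ n + 1 by omega),
          Line.mem_of_pos (L := a) (show 1 ≤ n + 1 by omega), Nat.add_sub_cancel,
          sum_Icc_succ_top (show J ≤ n + 1 by omega)]
        have hlip : |min P.cap (b.Xs P (n + 1) + b.g (n + 1) ^ 2 * b.mem P n) -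
            min P.cap (a.Xs P (n + 1) + a.g (n + 1) ^ 2 * a.mem P n)| ≤
            |b.Xs P (n + 1) - a.Xs P (n + 1)| +
              |b.g (n + 1) ^ 2 * b.mem P n - a.g (n + 1) ^ 2 * a.mem P n| := by
          refine (abs_min_sub_min_le_max _ _ _ _).trans ?_
          rw [sub_self, abs_zero, max_eq_right (abs_nonneg _)]
          refine le_trans (le_of_eq (congrArg abs ?_)) (abs_add_le _ _)
          ring
        refine (mul_le_mul_of_nonneg_left hlip (P.r_pos _).le).trans ?_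
        have h5 := N.r_mul_abs_dXs_le oa ob (u := n + 1) (by omega)
        simp only [hcst, Nat.add_sub_cancel]
        linarith
  have hsum_low : ∀ n ≤ P.N, ∑ t ∈ Finset.Icc 1 n, b.low P (t - 1) / P.r t + b.low P n / P.r n ≤
      ∑ t ∈ Finset.Icc 1 n, b.X P t := by
    intro n hn
    induction n with
    | zero => simp [Line.low]
    | succ n ih =>
      have h6 := ih (by omega)
      rw [sum_Icc_succ_top (show 1 ≤ n + 1 by omega), sum_Icc_succ_top (show 1 ≤ n + 1 by omega),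
        Nat.add_sub_cancel]
      have e1 : b.low P (n + 1) = b.low P n + P.r (n + 1) * b.X P (n + 1) := by
        rw [Line.low, sum_Icc_succ_top (show 1 ≤ n + 1 by omega), ← Line.low]
      have e2 : b.low P n / P.r (n + 1) + b.low P (n + 1) / P.r (n + 1) =
          b.low P n / P.r n + b.X P (n + 1) := by
        rw [e1, P.r_succ]
        field_simp [(P.r_pos n).ne']
        ring
      linarith
  obtain ⟨n, rfl⟩ := Nat.exists_eq_add_of_le' (show 1 ≤ l by omega)
  rw [Nat.add_sub_cancel]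
  have hW := hba.hW
  refine (hstep n hl hlN _ (add_nonneg (add_nonneg (Line.low_nonneg oa _)
    (mul_nonneg two_pos.le (Line.low_nonneg ob _))) (sum_nonneg fun t _ => hc0 t))
    (key n hl (by omega))).trans (mul_le_mul_of_nonneg_left ?_ (Line.w_pos oa _).le)
  have hbase_le : base ≤ 384 * κ * d * (K * W) := by
    have h1 := Line.low_le oa hba (show 1 ≤ J by omega) N.hJN
    have h2 := Line.low_le ob hbb (show 1 ≤ J by omega) N.hJN
    have h3 := mul_le_mul_of_nonneg_right N.hrd hW.le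
    have h4 := mul_le_mul_of_nonneg_left (le_mul_of_one_le_left hW.le hK)
      (by linarith : (0:ℝ) ≤ 384 * (κ * d))
    rw [hbase]
    linarith
  have hlast : ∑ t ∈ Finset.Icc J n, cst t + 8 * κ * d * (b.low P n / P.r (n + 1)) ≤
      ∑ t ∈ Finset.Icc J P.N, cst t := by
    refine le_trans ?_ (sum_le_sum_of_subset_of_nonneg (Icc_subset_Icc_right hlN) fun t _ _ => hc0 t)
    rw [sum_Icc_succ_top hl]
    refine add_le_add le_rfl ?_
    simp only [hcst, Nat.add_sub_cancel]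
    have := mul_nonneg hκd.le (Line.X_nonneg (P := P) oa (n + 1))
    have := mul_nonneg (P.r_pos (n + 1)).le (abs_nonneg (b.X P (n + 1) - a.X P (n + 1)))
    linarith
  have hall : ∑ t ∈ Finset.Icc J P.N, cst t ≤
      8 * H + 46 * κ * d * (K * W) + 2 * d * ∑ u ∈ Finset.Icc 1 P.N, η u := by
    simp only [hcst, sum_add_distrib, ← mul_sum]
    have h1 := N.sum_weighted_dX_le oa ob le_rfl N.hJN (fun _ => 1)
      fun u _ => ⟨zero_le_one, le_rfl, le_rfl⟩
    simp only [one_mul] at h1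
    rw [Line.dbd, Line.surv_lt (by omega), Line.gain_lt (by omega), mul_one, mul_zero,
      add_zero] at h1
    have h2 : ∑ t ∈ Finset.Icc J P.N, a.X P t ≤ K * W :=
      (tail_anti (Line.X_nonneg oa (P := P)) (show 1 ≤ J by omega)).trans hba.hU
    have h3 : ∑ t ∈ Finset.Icc J P.N, b.low P (t - 1) / P.r t ≤ K * W := by
      refine le_trans ?_ ((le_add_of_nonneg_right (div_nonneg (Line.low_nonneg ob P.N)
        (P.r_pos P.N).le)).trans ((hsum_low P.N le_rfl).trans hbb.hU))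
      exact sum_le_sum_of_subset_of_nonneg (Icc_subset_Icc_left (by omega)) fun t _ _ =>
        div_nonneg (Line.low_nonneg ob _) (P.r_pos t).le
    have h4 := mul_le_mul_of_nonneg_left h2 (by linarith : (0:ℝ) ≤ 38 * (κ * d))
    have h5 := mul_le_mul_of_nonneg_left h3 (by linarith : (0:ℝ) ≤ 8 * (κ * d))
    linarith
  linarith

lemma r_mul_abs_dV_le {p W K : ℝ} (hba : a.Bounded P p W K) (hbb : b.Bounded P p W K)
    (hK : 1 ≤ K) {l : ℕ} (hl : J ≤ l) (hlN : l ≤ P.N) :
    P.r l * |b.V P l - a.V P l| ≤ a.w P l *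
      (8 * a.dbd P J |a.q (J - 1) - b.q (J - 1)| (3 * κ * d) (l - 1) +
        38 * κ * d * ∑ u ∈ Finset.Icc l P.N, a.Q P l u * a.X P u +
        2 * d * ∑ u ∈ Finset.Icc 1 P.N, η u +
        P.σ * (8 * |a.q (J - 1) - b.q (J - 1)| + 430 * κ * d * (K * W) +
          2 * d * ∑ u ∈ Finset.Icc 1 P.N, η u)) := by
  have h1 := N.r_mul_abs_dU_le oa ob hl hlN
  have h2 := mul_le_mul_of_nonneg_left (N.r_mul_abs_dgmem_le oa ob hba hbb hK hl hlN) P.hσ.le
  have hlip : |b.V P l - a.V P l| ≤ |b.U P l - a.U P l| +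
      P.σ * |b.g l ^ 2 * b.mem P (l - 1) - a.g l ^ 2 * a.mem P (l - 1)| := by
    rw [Line.V, Line.V]
    refine (abs_min_sub_min_le_max _ _ _ _).trans ?_
    rw [sub_self, abs_zero, max_eq_right (abs_nonneg _)]
    refine (le_of_eq (congrArg abs (show _ = (b.U P l - a.U P l) +
      P.σ * (b.g l ^ 2 * b.mem P (l - 1) - a.g l ^ 2 * a.mem P (l - 1)) by ring))).trans
      ((abs_add_le _ _).trans (le_of_eq ?_))
    rw [abs_mul P.σ, abs_of_pos P.hσ]
  have := mul_le_mul_of_nonneg_left hlip (P.r_pos l).le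
  linarith

end Near

/-- The first term above a level whose gate is not stuck. -/
lemma exists_reset {L : Line} {n : ℕ} (ok : L.Ok n) {a : ℕ} (ha : a ≤ n) :
    ∃ c, a ≤ c ∧ c ≤ n ∧ L.g c < 1 ∧ ∀ m ∈ Finset.Ico a c, L.g m = 1 := by
  classical
  have h : ∃ c, a ≤ c ∧ L.g c < 1 := ⟨n, ha, ok.hgN⟩
  refine ⟨Nat.find h, (Nat.find_spec h).1, Nat.find_min' h ⟨ha, ok.hgN⟩, (Nat.find_spec h).2,
    fun m hm => ?_⟩
  obtain ⟨h1, h2⟩ := mem_Ico.1 hm
  have := Nat.find_min h h2
  push Not at this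
  exact le_antisymm (ok.hg1 m) (this h1)

end Vale.Agent.P249.Core
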