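import Mathlib.Analysis.SpecialFunctions.Pow.Real
import Mathlib.Analysis.SpecialFunctions.Log.Basic
import Mathlib.Analysis.Complex.ExponentialBounds
import Mathlib.Algebra.Order.Floor.Semiring
import Mathlib.Topology.Algebra.Order.Floor
import Mathlib.Order.Filter.AtTopBot.Archimedean
import Mathlib.Analysis.SpecialFunctions.Pow.Asymptotics

/-!
The numerical parameters as functions of `k`.
-/

namespace Vale.Agent.P249.Core

open Filter Topology

/-- The bound on the number of slow levels. -/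
noncomputable def slowN (k : ℕ) : ℕ := ⌈4000 * (k : ℝ) * Real.exp 1 / Real.sqrt k⌉₊

/-- The weight of the windows. -/
noncomputable def winW (k : ℕ) : ℝ := 1 / (2 ^ (slowN k + 2) * ((slowN k : ℝ) + 3) ^ 2 * (k : ℝ) ^ 2)

/-- The height of the bottom of the gate. -/
noncomputable def floorH (k : ℕ) : ℝ :=
  16 * 90 * ((slowN k : ℝ) + 3) ^ 2 * (4001 * (k : ℝ))

/-- The logarithmic budget. -/
noncomputable def budL (k : ℕ) : ℝ := 8 + 4 * Real.log ((k : ℝ) + 4)

/-- The width of the window sums. -/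
noncomputable def budW (k : ℕ) : ℕ := ⌈Real.log ((k : ℝ) + 4) / Real.log 2⌉₊

lemma winW_pos {k : ℕ} (hk : 1 ≤ k) : 0 < winW k := by
  have : (0:ℝ) < k := by exact_mod_cast hk
  rw [winW]; positivity

lemma winW_spec {k : ℕ} (hk : 1 ≤ k) :
    winW k * 2 ^ (slowN k + 2) * ((slowN k : ℝ) + 3) ^ 2 * (k : ℝ) ^ 2 = 1 := by
  have : (0:ℝ) < k := by exact_mod_cast hk
  rw [winW]
  field_simp

lemma slowN_le (k : ℕ) : (slowN k : ℝ) ≤ 12000 * Real.sqrt k + 1 := by
  refine (Nat.ceil_lt_add_one (by positivity)).le.trans (add_le_add ?_ le_rfl)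
  rcases eq_or_lt_of_le (Real.sqrt_nonneg (k:ℝ)) with h | h
  · rw [← h, div_zero, mul_zero]
  rw [div_le_iff₀ h]
  have e := Real.mul_self_sqrt (Nat.cast_nonneg (α := ℝ) k)
  have := Real.exp_one_lt_d9
  nlinarith [mul_pos h h]

lemma budget_facts (k : ℕ) :
    (1:ℝ) / ((k:ℝ) + 4) ^ 2 * ((k:ℝ) + 4) ^ 2 ≤ 1 ∧
    (k:ℝ) + 4 ≤ 2 ^ budW k ∧
    (budW k : ℝ) + 1 ≤ budL k ∧
    Real.log (16 / (1 / ((k:ℝ) + 4) ^ 2)) + 4 ≤ budL k ∧
    Real.log (16 * ((k:ℝ) + 4) ^ 3) + 3 ≤ budL k := by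
  set Y : ℝ := (k:ℝ) + 4 with hY
  have hY0 : 0 < Y := by positivity
  have hlY : 0 ≤ Real.log Y := Real.log_nonneg (by rw [hY]; linarith [Nat.cast_nonneg (α := ℝ) k])
  have h2 := Real.log_two_gt_d9
  have h16 : Real.log 16 ≤ 3 := by
    rw [show (16:ℝ) = 2 ^ 4 by norm_num, Real.log_pow]
    have := Real.log_two_lt_d9
    push_cast
    linarith
  refine ⟨le_of_eq (one_div_mul_cancel (by positivity)), ?_, ?_, ?_, ?_⟩
  · rw [← Real.log_le_log_iff hY0 (by positivity), Real.log_pow, budW]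
    have := Nat.le_ceil (Real.log Y / Real.log 2)
    rw [div_le_iff₀ (by linarith)] at this
    exact this
  · have h3 := (Nat.ceil_lt_add_one (show 0 ≤ Real.log Y / Real.log 2 by positivity)).le
    have h4 : Real.log Y / Real.log 2 ≤ 2 * Real.log Y := by
      rw [div_le_iff₀ (by linarith)]; nlinarith
    rw [budW, budL, ← hY]
    linarith
  · rw [one_div, div_inv_eq_mul, Real.log_mul (by norm_num) (by positivity), Real.log_pow, budL,
      ← hY]
    push_cast
    linarith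
  · rw [Real.log_mul (by norm_num) (by positivity), Real.log_pow, budL, ← hY]
    push_cast
    linarith

lemma eventually_sqrt_le {a b : ℝ} (ha : 0 < a) :
    ∀ᶠ k : ℕ in atTop, b * Real.sqrt k ≤ a * k := by
  obtain ⟨n, hn⟩ := exists_nat_ge ((b / a) ^ 2)
  filter_upwards [eventually_ge_atTop n] with k hk
  have h1 : b / a ≤ Real.sqrt k :=
    (le_abs_self _).trans ((Real.sqrt_sq_eq_abs _).symm.le.trans
      (Real.sqrt_le_sqrt (hn.trans (by exact_mod_cast hk))))
  rw [div_le_iff₀ ha] at h1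
  have h2 := mul_le_mul_of_nonneg_right h1 (Real.sqrt_nonneg (k:ℝ))
  have e := Real.mul_self_sqrt (Nat.cast_nonneg (α := ℝ) k)
  nlinarith

/-- Everything subexponential fits under an exponential. -/
lemma eventually_growth_le (C : ℝ) (n m : ℕ) {a γ : ℝ} (h : a < γ * Real.log 2) :
    ∀ᶠ k : ℕ in atTop, C * (k:ℝ) ^ n * 2 ^ (m * slowN k) * Real.exp (a * k) ≤ (2:ℝ) ^ (γ * k) := by
  have hl2 := Real.log_two_gt_d9
  filter_upwards [eventually_sqrt_le (b := |C| + (n:ℝ) * 2 + (m:ℝ) * 12001)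
    (sub_pos.2 h), eventually_ge_atTop 1] with k hk hk1
  have hk1' : (1:ℝ) ≤ k := by exact_mod_cast hk1
  have hs : 1 ≤ Real.sqrt k := Real.one_le_sqrt.2 hk1'
  rw [Real.rpow_def_of_pos two_pos]
  have e1 : C ≤ Real.exp |C| := (le_abs_self C).trans (by linarith [Real.add_one_le_exp |C|])
  have e2 : (k:ℝ) ^ n ≤ Real.exp ((n:ℝ) * (2 * Real.sqrt k)) := by
    rw [Real.exp_nat_mul]
    refine pow_le_pow_left₀ (by positivity) ?_ n
    have h1 := Real.add_one_le_exp (Real.sqrt k)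
    have h2 : Real.sqrt k * Real.sqrt k ≤ Real.exp (Real.sqrt k) * Real.exp (Real.sqrt k) :=
      mul_self_le_mul_self (Real.sqrt_nonneg _) (by linarith)
    rw [Real.mul_self_sqrt (by linarith), ← Real.exp_add, ← two_mul] at h2
    exact h2
  have e3 : (2:ℝ) ^ (m * slowN k) ≤ Real.exp ((m:ℝ) * (12001 * Real.sqrt k)) := by
    rw [pow_mul, ← pow_mul, ← Real.rpow_natCast, Real.rpow_def_of_pos two_pos]
    refine Real.exp_le_exp.2 ?_
    push_cast
    have h3 : (slowN k : ℝ) ≤ 12001 * Real.sqrt k := (slowN_le k).trans (by linarith)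
    have h4 : 0 ≤ (m:ℝ) * (slowN k : ℝ) := by positivity
    have h5 := mul_le_mul_of_nonneg_left h3 (Nat.cast_nonneg (α := ℝ) m)
    nlinarith [Real.log_two_lt_d9]
  calc C * (k:ℝ) ^ n * 2 ^ (m * slowN k) * Real.exp (a * k)
      ≤ Real.exp |C| * Real.exp ((n:ℝ) * (2 * Real.sqrt k)) *
          Real.exp ((m:ℝ) * (12001 * Real.sqrt k)) * Real.exp (a * k) := by
        gcongr
    _ = Real.exp (|C| + (n:ℝ) * (2 * Real.sqrt k) + (m:ℝ) * (12001 * Real.sqrt k) + a * k) := by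
        simp only [← Real.exp_add]
    _ ≤ _ := Real.exp_le_exp.2 (by nlinarith [abs_nonneg C])

/-- The error of the pair estimates is negligible against the width of the gate. -/
lemma eventually_error_le {p : ℝ} (hp : 1 < p) (A : ℝ) {γ δ : ℝ} (hγ : 0 < γ) (hδ : 0 < δ) :
    ∀ᶠ k : ℕ in atTop, A * budL k ^ 2 *
      (((Real.sqrt k) ^ (p - 1) * (k:ℝ)) ^ (1 / p) + 1) / (γ * k) + A / k ≤ δ := by
  set t := (1 - 1 / p) / 2 with ht
  have ht0 : 0 < t := by
    have : 1 / p < 1 := by rw [div_lt_one (by linarith)]; exact hp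
    rw [ht]; linarith
  set θ := 1 - t with hθ
  set s := t / 4 with hs
  have hs0 : 0 < s := by positivity
  have hlim : Tendsto (fun x : ℝ => 2 * |A| * (8 + 4 * (5 ^ s / s)) ^ 2 / γ * x ^ (-(t / 2)) +
      |A| * x⁻¹) atTop (𝓝 0) := by
    simpa using ((tendsto_rpow_neg_atTop (show 0 < t / 2 by positivity)).const_mul
      (2 * |A| * (8 + 4 * (5 ^ s / s)) ^ 2 / γ)).add (tendsto_inv_atTop_zero.const_mul |A|)
  filter_upwards [(hlim.comp tendsto_natCast_atTop_atTop).eventually (eventually_le_nhds hδ),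
    eventually_ge_atTop 1] with k hk hk1
  refine le_trans (add_le_add ?_ ?_) hk
  · have hk1' : (1:ℝ) ≤ k := by exact_mod_cast hk1
    have hk0 : (0:ℝ) < k := by linarith
    have hks : 1 ≤ (k:ℝ) ^ s := Real.one_le_rpow hk1' hs0.le
    have hL : budL k ≤ (8 + 4 * (5 ^ s / s)) * (k:ℝ) ^ s := by
      have h1 := Real.log_le_rpow_div (show 0 ≤ (k:ℝ) + 4 by positivity) hs0
      have h2 : ((k:ℝ) + 4) ^ s ≤ 5 ^ s * (k:ℝ) ^ s := by
        rw [← Real.mul_rpow (by norm_num) hk0.le]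
        exact Real.rpow_le_rpow (by positivity) (by linarith) hs0.le
      have h3 := h1.trans (div_le_div_of_nonneg_right h2 hs0.le)
      rw [mul_div_right_comm] at h3
      rw [budL]
      nlinarith
    have hL0 : 0 ≤ budL k := by
      rw [budL]; linarith [Real.log_nonneg (show (1:ℝ) ≤ (k:ℝ) + 4 by linarith)]
    have hmid : ((Real.sqrt k) ^ (p - 1) * (k:ℝ)) ^ (1 / p) = (k:ℝ) ^ θ := by
      rw [Real.sqrt_eq_rpow, ← Real.rpow_mul hk0.le, ← Real.rpow_add_one hk0.ne',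
        ← Real.rpow_mul hk0.le]
      congr 1
      rw [hθ, ht]
      field_simp
      ring
    have hθ1 : 1 ≤ (k:ℝ) ^ θ := Real.one_le_rpow hk1' (by
      rw [hθ, ht]; linarith [div_nonneg zero_le_one (by linarith : (0:ℝ) ≤ p)])
    have hnum : A * budL k ^ 2 * (((Real.sqrt k) ^ (p - 1) * (k:ℝ)) ^ (1 / p) + 1) ≤
        2 * |A| * (8 + 4 * (5 ^ s / s)) ^ 2 * ((k:ℝ) ^ s) ^ 2 * (k:ℝ) ^ θ := by
      rw [hmid]
      calc A * budL k ^ 2 * ((k:ℝ) ^ θ + 1) ≤ |A| * budL k ^ 2 * (2 * (k:ℝ) ^ θ) := by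
            refine mul_le_mul (mul_le_mul_of_nonneg_right (le_abs_self A) (sq_nonneg _))
              (by linarith) (by linarith) (by positivity)
        _ ≤ |A| * ((8 + 4 * (5 ^ s / s)) * (k:ℝ) ^ s) ^ 2 * (2 * (k:ℝ) ^ θ) := by gcongr
        _ = _ := by ring
    refine (div_le_div_of_nonneg_right hnum (by positivity)).trans (le_of_eq ?_)
    have e : ((k:ℝ) ^ s) ^ 2 * (k:ℝ) ^ θ = (k:ℝ) ^ (-(t / 2)) * k := by
      rw [← Real.rpow_natCast, ← Real.rpow_mul hk0.le, ← Real.rpow_add hk0,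
        ← Real.rpow_add_one hk0.ne']
      congr 1
      rw [hθ, hs]
      push_cast
      ring
    rw [mul_assoc, e]
    field_simp
  · rw [div_eq_mul_inv]
    exact mul_le_mul_of_nonneg_right (le_abs_self A) (by positivity)

end Vale.Agent.P249.Core
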