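import Vale.Agent.P249.Core.Config
import Vale.Agent.P249.Core.Centres
import Vale.Agent.P249.Core.Params

/-!
Every finite point set admits a configuration with the standard parameters.
-/

namespace Vale.Agent.P249.Core

open Finset
open Vale.Agent.P249.Dim (nm cnt)

/-- A configuration whose local scale is the radius of balls with `M` points. -/
theorem exists_config {p : ℝ} (hp : 1 < p) {ι κ : Type*} [Fintype ι] [Fintype κ] (x : ι → κ → ℝ)
    (hx : Function.Injective x) {k M : ℕ} (hk : 16 ≤ k) (hn : Fintype.card ι < 2 ^ k) (hM : 2 ≤ M)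
    (hMn : M ≤ Fintype.card ι) {h : ℝ} (hh : 0 < h) :
    ∃ (S : Geo ι κ) (C : Config S), S.p = p ∧ S.x = x ∧ S.k = k ∧
      (∀ a, M ≤ cnt p x a (S.rM a)) ∧ (∀ a r, r < S.rM a → cnt p x a r < M) ∧
      C.T = slowN k ∧ C.K = Real.sqrt k ∧ C.e = winW k ∧ C.σ = 1 / ((k : ℝ) + 4) ^ 2 ∧ C.h = h ∧
      C.Λ0 = floorH k ∧
      ∑ c, C.τ c ^ p ≤
        6 * (2 * ((k : ℝ) + 1)) ^ p * (k : ℝ) ^ 2 * ((Fintype.card ι : ℝ) / M) + 1 := by
  classical
  have hp1 : 1 ≤ p := hp.le
  have hk1 : 1 ≤ k := by omega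
  have hkR : (16 : ℝ) ≤ k := by exact_mod_cast hk
  obtain ⟨rM, ctr, tau, h0, h1, h2, h3, h4, h5, h6, h7, h8⟩ :=
    exists_centres hp1 x hx hk1 hn hM hMn
  -- the least distance
  have hne : ((univ : Finset ι).offDiag).Nonempty := by
    obtain ⟨a, b, hab⟩ := Fintype.exists_pair_of_one_lt_card (α := ι) (by omega)
    exact ⟨(a, b), by simp [hab]⟩
  set δ := ((univ : Finset ι).offDiag).inf' hne (fun q => nm p (x q.1 - x q.2)) with hδdef
  have hδle : ∀ i j, i ≠ j → δ ≤ nm p (x i - x j) := fun i j hij =>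
    inf'_le (b := (i, j)) _ (by simp [hij])
  have hδ : 0 < δ := by
    rw [hδdef, lt_inf'_iff]
    intro q hq
    obtain ⟨-, -, hq⟩ := mem_offDiag.1 hq
    refine (Dim.nm_nonneg _).lt_of_ne fun he => hq (hx (funext fun c => ?_))
    have hpw : Dim.pw p (x q.1 - x q.2) = 0 := by
      rw [← Dim.nm_rpow (by linarith), ← he, Real.zero_rpow (by linarith)]
    rw [Dim.pw, sum_eq_zero_iff_of_nonneg fun c _ => Real.rpow_nonneg (abs_nonneg _) _] at hpw
    have := (Real.rpow_eq_zero (abs_nonneg _) (by linarith)).1 (hpw c (mem_univ c))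
    simpa [sub_eq_zero] using this
  have hδrM : ∀ i, δ ≤ rM i := by
    intro i
    by_contra hlt
    have hs : (univ.filter fun z => nm p (x i - x z) ≤ rM i) ⊆ {i} := fun z hz => by
      rw [mem_filter] at hz
      rw [mem_singleton]
      by_contra hzi
      linarith [hδle i z (Ne.symm hzi), hz.2, not_le.1 hlt]
    have hc : cnt p x i (rM i) ≤ 1 := (card_le_card hs).trans (le_of_eq (card_singleton i))
    have := h3 i
    omega
  -- an upper bound on all lengths
  set D := ∑ i, ∑ j, nm p (x i - x j) + ∑ i, rM i with hDdef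
  have hsum0 : 0 ≤ ∑ i, ∑ j, nm p (x i - x j) :=
    sum_nonneg fun i _ => sum_nonneg fun j _ => Dim.nm_nonneg _
  have hD0 : 0 ≤ D := add_nonneg hsum0 (sum_nonneg fun i _ => h0 i)
  have hDd : ∀ i j, nm p (x i - x j) ≤ D := fun i j => le_trans
    ((single_le_sum (f := fun j => nm p (x i - x j)) (fun _ _ => Dim.nm_nonneg _) (mem_univ j)).trans
      (single_le_sum (f := fun i => ∑ j, nm p (x i - x j))
        (fun _ _ => sum_nonneg fun _ _ => Dim.nm_nonneg _) (mem_univ i)))
    (le_add_of_nonneg_right (sum_nonneg fun i _ => h0 i))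
  have hDM : ∀ i, rM i ≤ D := fun i => (single_le_sum (f := rM) (fun i _ => h0 i)
    (mem_univ i)).trans (le_add_of_nonneg_left hsum0)
  obtain ⟨N, hN⟩ := pow_unbounded_of_one_lt
    ((64 * (256 * p) + 12 * k + 1) * D / (δ / 4)) (one_lt_two : (1 : ℝ) < 2)
  let S : Geo ι κ :=
    { p := p, hp := hp, x := x, k := k, hk := hk1, hn := hn, r0 := δ / 4, hr0 := by positivity,
      rM := rM, rM_nonneg := h0, rM_lip := h1, ctr := ctr, ctr_near := h2 }
  have hradN : (64 * (256 * p) + 12 * k + 1) * D ≤ S.rad N := by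
    rw [div_lt_iff₀ (by positivity)] at hN
    show _ ≤ δ / 4 * 2 ^ N
    linarith
  have hpD : 0 ≤ p * D := by positivity
  have hkD : 0 ≤ (k : ℝ) * D := by positivity
  let C : Config S :=
    { N := N, T := slowN k, K := Real.sqrt k, e := winW k, σ := 1 / ((k : ℝ) + 4) ^ 2, h := h,
      Λ0 := floorH k, τ := tau
      hK := (Real.le_sqrt (by norm_num) (by positivity)).2 (by linarith)
      he := winW_pos hk1
      he1 := (winW_spec hk1).le
      hσ := by positivity
      hσ1 := by
        rw [div_le_one (by positivity)]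
        exact one_le_pow₀ (by linarith)
      hh := hh
      hΛ0 := by
        rw [floorH]
        refine one_le_mul_of_one_le_of_one_le (one_le_mul_of_one_le_of_one_le (by norm_num) ?_)
          (by linarith)
        exact one_le_pow₀ (by linarith [Nat.cast_nonneg (α := ℝ) (slowN k)])
      hΛ0' := le_refl _
      hτ := h5
      hτctr := h6
      hτall := h7
      hT := Nat.le_ceil _
      hN := fun i => by
        refine (S.growth_le_top (D := D) (fun z => hDd i z) (hDM i)).trans ?_
        show 12 * D / S.rad N ≤ 1 / (k : ℝ)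
        rw [div_le_div_iff₀ (S.rad_pos N) (by linarith)]
        linarith
      hNd := fun i j => by
        show 64 * (256 * p) * nm p (x i - x j) ≤ S.rad N
        refine (mul_le_mul_of_nonneg_left (hDd i j) (by positivity)).trans ?_
        linarith
      hNM := fun i => by
        show rM i ≤ 8 * (k : ℝ) * S.rad N
        refine (hDM i).trans (le_trans ?_ (le_mul_of_one_le_left (S.rad_pos N).le (by linarith)))
        linarith
      hr1 := fun i j hij => by
        show δ / 4 * 2 ^ 1 ≤ nm p (x i - x j)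
        linarith [hδle i j hij]
      hrM := fun i => by
        show δ / 4 * 2 ^ 1 ≤ rM i
        linarith [hδrM i] }
  exact ⟨S, C, rfl, rfl, rfl, h3, h4, rfl, rfl, rfl, rfl, rfl, rfl, h8⟩

end Vale.Agent.P249.Core
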