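import Vale.Agent.P249.Core.Close
import Vale.Agent.P249.Core.Combination
import Vale.Agent.P249.Core.MakeConfig
import Vale.Agent.P249.Core.Amplitude
import Vale.Agent.P249.Core.SplitDef

/-!
Every finite subset of `ℓ_p`, `p > 1`, splits into a sparse part and a light part.
-/

namespace Vale.Agent.P249.Core

open Finset Filter
open Vale.Agent.P249.Dim (pw nm cnt)
open Vale.Agent.P249.Core.NormsAux

theorem split_exists {p : ℝ} (hp : 1 < p) : SplitExists p := by
  intro ε hε γ hγ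
  classical
  have hp0 : 0 < p := by linarith
  have hp1 : 1 ≤ p := hp.le
  obtain ⟨φ, ψ, Lf, η, hη0, hη4, hLf, hbd, hlip, hφ0, hψ0, hsum⟩ :=
    exists_ramp hp1 (half_pos hε)
  obtain ⟨Ca, a1, a2, hamp⟩ := exists_amplitude_const
  set γ' := min γ 1 / (8 * p) with hγ'
  have hγ'0 : 0 < γ' := by
    have : 0 < min γ 1 := lt_min hγ one_pos
    rw [hγ']; positivity
  have hγ'1 : γ' ≤ 1 := by
    rw [hγ', div_le_one (by positivity)]
    linarith [min_le_right γ 1]
  have hγ'γ : γ' ≤ γ / (8 * p) := by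
    rw [hγ']
    exact div_le_div_of_nonneg_right (min_le_left _ _) (by positivity)
  set δ := min 1 (ε / 2 / (2 * p * (2:ℝ) ^ (p - 1))) with hδ
  have hδ0 : 0 < δ := lt_min one_pos (by positivity)
  set A := Lf * (65 + 48000 * (256 * p) * 48000 + 16 * 5 * 512000) + 256 * p with hA
  have hA0 : 0 ≤ A := by positivity
  set Pn := ⌈p⌉₊ with hPn
  set cin := |Ca| * (256 * p) ^ 4 * (12005:ℝ) ^ (a1 + 4) * (1 + Lf) * 4 * (16 * 90 * 4001) with hcin
  have hl2 := Real.log_two_gt_d9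
  have hexp : 2 * γ' < γ / p * Real.log 2 := by
    have h1 : 2 * γ' ≤ γ / p * (1 / 4) := by
      refine le_trans (mul_le_mul_of_nonneg_left hγ'γ two_pos.le) (le_of_eq ?_)
      field_simp
      ring
    exact h1.trans_lt (mul_lt_mul_of_pos_left (by linarith) (by positivity))
  have hexp1 : γ' < γ * Real.log 2 := by
    have h1 : γ / p ≤ γ := div_le_self hγ.le hp1
    have := mul_le_mul_of_nonneg_right h1 (show 0 ≤ Real.log 2 by linarith)
    linarith
  obtain ⟨k0, hk0⟩ := eventually_atTop.1 ((eventually_error_le hp A hγ'0 hδ0).and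
    ((eventually_growth_le (16 * 2 ^ 13) 1 4 hexp1).and
    ((eventually_growth_le cin (a1 + 7) (a2 + 1) hexp).and
    ((eventually_growth_le (6 * 4 ^ Pn) (Pn + 2) 0
      (show (0:ℝ) < γ * Real.log 2 by positivity)).and
    ((eventually_ge_atTop 16).and (eventually_ge_atTop ⌈1 / (η * γ')⌉₊))))))
  refine ⟨k0, ?_⟩
  intro ι κ _ _ x hx k M hk hn hM hMn
  obtain ⟨herr, hgy, hgu, hgν, hk16, hkη⟩ := hk0 k hk
  have hk1 : (1:ℝ) ≤ k := by exact_mod_cast (show 1 ≤ k by omega)
  have hkη' : 1 / (η * γ') ≤ k := (Nat.le_ceil _).trans (by exact_mod_cast hkη)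
  set h := γ' * (k:ℝ) with hh
  have hh0 : 0 < h := by positivity
  have hhη : 1 ≤ η * h := by
    rw [div_le_iff₀ (by positivity)] at hkη'
    rw [hh]; linarith
  have hh1 : 1 ≤ h := hhη.trans (mul_le_of_le_one_left hh0.le (by linarith))
  have hhk : h ≤ k := mul_le_of_le_one_left (by linarith) hγ'1
  obtain ⟨S, C, hSp, hSx, hSk, hcM, hcm, hT, hK, he, hσ, hCh, hΛ0, hτ⟩ :=
    exists_config hp x hx hk16 hn hM hMn hh0
  subst hSp hSx hSk
  set G := (2:ℝ) ^ (γ * S.k) with hG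
  have hG1 : 1 ≤ G := Real.one_le_rpow one_le_two (by positivity)
  -- the budget
  obtain ⟨b1, b2, b3, b4, b5⟩ := budget_facts S.k
  have hB : ∀ c, Budget (C.scale c) ((S.k:ℝ) + 4) (budL S.k) (budW S.k) := fun c => by
    refine ⟨by linarith, ?_, ?_, b2, b3, ?_, b5⟩
    · show C.h + 2 ≤ _; rw [hCh]; linarith
    · show C.σ * _ ≤ 1; rw [hσ]; exact b1
    · show Real.log (16 / C.σ) + 4 ≤ _; rw [hσ]; exact b4
  -- the two selections
  set Φu : ℝ → ℝ := fun t => φ (1 - t / h) with hΦu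
  set Φy : ℝ → ℝ := fun t => ψ (1 - t / h) with hΦy
  have hu1 : ∀ t, |Φu t| ≤ 1 := fun t => (hbd _).1
  have hy1 : ∀ t, |Φy t| ≤ 1 := fun t => (hbd _).2
  have harg : ∀ s t, Lf * |(1 - s / h) - (1 - t / h)| = Lf / h * |s - t| := fun s t => by
    rw [show (1 - s / h) - (1 - t / h) = -((s - t) / h) by ring, abs_neg, abs_div, abs_of_pos hh0]
    ring
  have huL : ∀ s t, |Φu s - Φu t| ≤ Lf / h * |s - t| := fun s t =>
    ((hlip _ _).1).trans_eq (harg s t)
  have hyL : ∀ s t, |Φy s - Φy t| ≤ Lf / h * |s - t| := fun s t =>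
    ((hlip _ _).2).trans_eq (harg s t)
  have hu0 : ∀ t, C.h ≤ t → Φu t = 0 := fun t ht => hφ0 _ (by
    rw [hCh] at ht
    have : 1 ≤ t / h := (one_le_div hh0).2 ht
    linarith)
  have hy0 : ∀ t, t ≤ 1 → Φy t = 0 := fun t ht => hψ0 _ (by
    have : t / h ≤ η := by rw [div_le_iff₀ hh0]; linarith
    linarith)
  set u := C.select Φu with hu
  set y := C.select Φy with hy
  refine ⟨u, y, fun c => C.τ c ^ S.p, G, hG1, le_rfl, ?_, ?_,
    fun c => Real.rpow_pos_of_pos (C.hτ c) _, ?_, ?_⟩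
  · -- the norms add up
    intro i j
    by_cases hij : i = j
    · subst hij
      simp [pw, Real.zero_rpow hp0.ne']
    obtain ⟨J, hJ, hJN, hdr, hrd⟩ := C.exists_level hij
    have hd := C.dist_pos hij
    have hclose : ∀ Φ : ℝ → ℝ, (∀ t, |Φ t| ≤ 1) → (∀ s t, |Φ s - Φ t| ≤ Lf / h * |s - t|) →
        nm S.p (fun c => C.select Φ i c - C.select Φ j c -
          Φ (topF (C.scale c) (C.line i c) (C.line j c) J) * (S.x i c - S.x j c)) ≤
          δ * S.dist i j := by
      intro Φ h1 hL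
      refine (C.select_close hB (by linarith) (by positivity) h1 hL hJ hJN hdr hrd hij).trans
        (mul_le_mul_of_nonneg_right (le_trans ?_ herr) hd.le)
      rw [Config.kap, hK]
      set R := (Real.sqrt S.k ^ (S.p - 1) * (S.k:ℝ)) ^ (1 / S.p) with hR
      have hR0 : 0 ≤ R := Real.rpow_nonneg (mul_nonneg (Real.rpow_nonneg (Real.sqrt_nonneg _) _)
        (by linarith)) _
      have hL0 : 0 ≤ budL S.k := by linarith [b3, Nat.cast_nonneg (α := ℝ) (budW S.k)]
      have hL1 : 1 ≤ budL S.k := by linarith [b3, Nat.cast_nonneg (α := ℝ) (budW S.k)]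
      have hsq : 1 ≤ budL S.k ^ 2 := one_le_pow₀ hL1
      set Q := budL S.k ^ 2 * (R + 1) with hQ
      have c1 : budL S.k ≤ Q := (le_self_pow₀ hL1 two_ne_zero).trans
        (le_mul_of_one_le_right (by positivity) (by linarith))
      have c2 : 16 * ((S.k:ℝ) + 4) * (512000 / (S.k:ℝ)) ≤ 16 * 5 * 512000 * Q := by
        have h2 : ((S.k:ℝ) + 4) / (S.k:ℝ) ≤ 5 := by
          rw [div_le_iff₀ (by linarith)]; linarith
        have h3 : 1 ≤ Q := hL1.trans c1
        calc 16 * ((S.k:ℝ) + 4) * (512000 / (S.k:ℝ)) = 16 * 512000 * (((S.k:ℝ) + 4) / (S.k:ℝ)) := by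
              ring
          _ ≤ 16 * 512000 * 5 := by linarith
          _ ≤ _ := by linarith
      have c3 : budL S.k ^ 2 * (48000 * R + 20000) ≤ 48000 * Q := by
        rw [hQ]
        have := mul_nonneg (sq_nonneg (budL S.k)) hR0
        linarith
      have c4 := mul_le_mul_of_nonneg_left c3 (show (0:ℝ) ≤ 48000 * (256 * S.p) by positivity)
      have c5 : 65 * budL S.k + 48000 * (256 * S.p) * budL S.k ^ 2 * (48000 * R + 20000) +
          16 * ((S.k:ℝ) + 4) * (512000 / (S.k:ℝ)) ≤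
          (65 + 48000 * (256 * S.p) * 48000 + 16 * 5 * 512000) * Q := by linarith
      have c6 := mul_le_mul_of_nonneg_left c5 (div_nonneg hLf hh0.le)
      refine le_trans (add_le_add c6 le_rfl) (add_le_add ?_ ?_)
      · rw [hQ, mul_assoc A, div_mul_eq_mul_div, ← mul_assoc Lf]
        refine div_le_div_of_nonneg_right (mul_le_mul_of_nonneg_right ?_ (by positivity)) hh0.le
        rw [hA]; linarith
      · refine div_le_div_of_nonneg_right ?_ (by linarith)
        have : 0 ≤ Lf * (65 + 48000 * (256 * S.p) * 48000 + 16 * 5 * 512000) := by positivity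
        rw [hA]; linarith
    have h2p : 0 < 2 * S.p * (2:ℝ) ^ (S.p - 1) := by positivity
    refine (combination_pw hp1 (v := fun c => S.x i c - S.x j c) (d := S.dist i j) rfl
      (fun c => hu1 _) (fun c => hy1 _)
      (θ := fun c => Φu (topF (C.scale c) (C.line i c) (C.line j c) J))
      (θ' := fun c => Φy (topF (C.scale c) (C.line i c) (C.line j c) J))
      (fun c => hsum _) hδ0.le (min_le_left _ _) (hclose Φu hu1 huL) (hclose Φy hy1 hyL)).trans ?_
    refine mul_le_mul_of_nonneg_right ?_ (Dim.pw_nonneg _)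
    have := mul_le_mul_of_nonneg_left (min_le_right 1 (ε / 2 / (2 * S.p * (2:ℝ) ^ (S.p - 1)))) h2p.le
    rw [mul_div_cancel₀ _ h2p.ne'] at this
    rw [hδ]
    linarith
  · -- the sensitivity of the sparse part
    intro i j c
    by_cases hij : i = j
    · subst hij
      rw [sub_self, abs_zero, Real.zero_rpow hp0.ne']
      have := Real.rpow_nonneg (C.hτ c).le S.p
      have := Dim.pw_nonneg (p := S.p) (S.x i - S.x i)
      positivity
    obtain ⟨J, hJ, hJN, hdr, hrd⟩ := C.exists_level hij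
    have hd := C.dist_pos hij
    have h := hamp (C.near hJ hJN hdr hrd hij c) (C.lineOk i c) (C.lineOk j c) Φu (Lf / h)
      (by positivity) hu1 huL hu0 C.T (C.card_slow i c) (C.card_slow j c) C.e C.he C.e_le_one
      (fun u _ => C.amp_window i c) (fun u _ => C.amp_window j c) (C.amp_dE hdr c)
    have hscale : (C.scale c).fl = floorH S.k * C.τ c := by
      show C.Λ0 * C.τ c = _
      rw [hΛ0]
    have hh' : (C.scale c).h = γ' * (S.k:ℝ) := hCh
    rw [hscale, hh', Config.kap, hT, he, winW] at h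
    set n := slowN S.k with hn'
    have hn4 : (n:ℝ) + 4 ≤ 12005 * (S.k:ℝ) := by
      have h1 := slowN_le S.k
      have h2 : Real.sqrt S.k ≤ S.k := Real.sqrt_le_self_iff.2 (Or.inr hk1)
      rw [hn']
      linarith
    have hn0 : (0:ℝ) ≤ n := Nat.cast_nonneg n
    have hinner : Ca * (256 * S.p) ^ 4 * ((n:ℝ) + 4) ^ a1 * 2 ^ (a2 * n) *
        (1 + Lf / (γ' * (S.k:ℝ))) * Real.exp (2 * (γ' * (S.k:ℝ))) * (floorH S.k * C.τ c) * S.dist i j /
        (1 / (2 ^ (n + 2) * ((n:ℝ) + 3) ^ 2 * (S.k:ℝ) ^ 2)) ≤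
        (2:ℝ) ^ (γ / S.p * S.k) * (C.τ c * S.dist i j) := by
      have hL : 1 + Lf / (γ' * (S.k:ℝ)) ≤ 1 + Lf := by
        have := div_le_self hLf hh1
        rw [hh] at this
        linarith
      have hn3 : ((n:ℝ) + 3) ^ 2 ≤ (12005 * (S.k:ℝ)) ^ 2 :=
        pow_le_pow_left₀ (by linarith) (by linarith) 2
      have h3 := C.hτ c
      rw [div_div_eq_mul_div, div_one, floorH, ← hn']
      calc Ca * (256 * S.p) ^ 4 * ((n:ℝ) + 4) ^ a1 * 2 ^ (a2 * n) * (1 + Lf / (γ' * (S.k:ℝ))) *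
            Real.exp (2 * (γ' * (S.k:ℝ))) *
            (16 * 90 * ((n:ℝ) + 3) ^ 2 * (4001 * (S.k:ℝ)) * C.τ c) * S.dist i j *
            (2 ^ (n + 2) * ((n:ℝ) + 3) ^ 2 * (S.k:ℝ) ^ 2)
          ≤ |Ca| * (256 * S.p) ^ 4 * (12005 * (S.k:ℝ)) ^ a1 * 2 ^ (a2 * n) * (1 + Lf) *
            Real.exp (2 * (γ' * (S.k:ℝ))) *
            (16 * 90 * (12005 * (S.k:ℝ)) ^ 2 * (4001 * (S.k:ℝ)) * C.τ c) * S.dist i j *
            (2 ^ (n + 2) * (12005 * (S.k:ℝ)) ^ 2 * (S.k:ℝ) ^ 2) := by
            gcongr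
            exact le_abs_self Ca
        _ = (cin * (S.k:ℝ) ^ (a1 + 7) * 2 ^ ((a2 + 1) * n) * Real.exp (2 * γ' * (S.k:ℝ))) *
            (C.τ c * S.dist i j) := by
            rw [hcin]
            ring_nf
        _ ≤ _ := mul_le_mul_of_nonneg_right hgu (mul_nonneg h3.le hd.le)
    refine (Real.rpow_le_rpow (abs_nonneg _) (h.trans hinner) hp0.le).trans (le_of_eq ?_)
    rw [Real.mul_rpow (by positivity) (mul_nonneg (C.hτ c).le hd.le),
      Real.mul_rpow (C.hτ c).le hd.le, ← Real.rpow_mul two_pos.le]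
    have e1 : γ / S.p * (S.k:ℝ) * S.p = γ * S.k := by field_simp
    have e2 : S.dist i j ^ S.p = pw S.p (S.x i - S.x j) := Dim.nm_rpow hp0 _
    rw [e1, e2, ← hG]
    ring
  · -- the total weight
    refine hτ.trans ?_
    rw [mul_add G, mul_one]
    refine add_le_add (mul_le_mul_of_nonneg_right ?_ (by positivity)) hG1
    have h1 : (2 * ((S.k:ℝ) + 1)) ^ S.p ≤ (4 * (S.k:ℝ)) ^ Pn :=
      calc (2 * ((S.k:ℝ) + 1)) ^ S.p ≤ (4 * (S.k:ℝ)) ^ S.p :=
            Real.rpow_le_rpow (by positivity) (by linarith) hp0.le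
        _ ≤ (4 * (S.k:ℝ)) ^ (Pn : ℝ) :=
            Real.rpow_le_rpow_of_exponent_le (by linarith) (Nat.le_ceil _)
        _ = _ := Real.rpow_natCast _ _
    simp only [zero_mul, pow_zero, mul_one, Real.exp_zero] at hgν
    refine le_trans (le_trans (mul_le_mul_of_nonneg_right
      (mul_le_mul_of_nonneg_left h1 (by norm_num)) (by positivity)) (le_of_eq ?_)) hgν
    rw [mul_pow, pow_add]
    ring
  · -- the light part
    intro i r hr hcnt
    have hMr : S.rM i ≤ r := by
      by_contra hlt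
      have := hcm i r (not_le.1 hlt)
      omega
    rcases Nat.lt_or_ge C.N 1 with hN | hN
    · have : y i = fun _ => (0:ℝ) := funext fun c => by
        rw [hy, Config.select, Line.part,
          show Finset.Icc 1 (C.scale c).N = ∅ from Finset.Icc_eq_empty (show ¬ 1 ≤ C.N by omega),
          sum_empty]
      rw [this, Dim.nm_zero hp0]
      positivity
    obtain ⟨a0, ha1, -, ha3, ha4⟩ := C.upper_level hN i
    set b := min C.N (a0 + 4 * (C.T + 3) + ⌈C.h⌉₊) with hb
    rw [← nm_abs]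
    refine (nm_mono hp0 (fun c => abs_nonneg _)
      (fun c => C.part_le_upper ha1 ha3 c hy1 hy0)).trans ((C.nm_low_le i b).trans ?_)
    have hrad : S.rad b ≤ 2 ^ (4 * (slowN S.k + 3)) * (2 * Real.exp h) * r := by
      refine (S.rad_mono (min_le_right _ _)).trans ?_
      rw [hT, hCh, show a0 + 4 * (slowN S.k + 3) + ⌈h⌉₊ = a0 + (4 * (slowN S.k + 3) + ⌈h⌉₊) by ring]
      have e : S.rad (a0 + (4 * (slowN S.k + 3) + ⌈h⌉₊)) =
          2 ^ (4 * (slowN S.k + 3) + ⌈h⌉₊) * S.rad a0 := by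
        rw [Geo.rad, Geo.rad, pow_add 2 a0]; ring
      rw [e, pow_add]
      refine mul_le_mul (mul_le_mul_of_nonneg_left ?_ (by positivity)) (ha4.trans hMr)
        (S.rad_pos a0).le (by positivity)
      have h1 : (2:ℝ) ^ ⌈h⌉₊ ≤ (2:ℝ) ^ (h + 1) := by
        rw [← Real.rpow_natCast]
        exact Real.rpow_le_rpow_of_exponent_le one_le_two (Nat.ceil_lt_add_one hh0.le).le
      refine h1.trans ?_
      rw [Real.rpow_add_one two_ne_zero, mul_comm, Real.rpow_def_of_pos two_pos]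
      refine mul_le_mul_of_nonneg_left (Real.exp_le_exp.2 ?_) two_pos.le
      exact mul_le_of_le_one_left hh0.le (by linarith [Real.log_two_lt_d9])
    have hKk : C.K ≤ S.k := by
      rw [hK]; exact Real.sqrt_le_self_iff.2 (Or.inr hk1)
    have hK0 : 0 ≤ C.K := by linarith [C.hK]
    calc 2 * S.rad b * (8 * C.K)
        ≤ 2 * (2 ^ (4 * (slowN S.k + 3)) * (2 * Real.exp h) * r) * (8 * (S.k:ℝ)) := by gcongr
      _ = (16 * 2 ^ 13 * (S.k:ℝ) ^ 1 * 2 ^ (4 * slowN S.k) * Real.exp (γ' * (S.k:ℝ))) * r := by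
          rw [hh, Nat.mul_add, pow_add]; ring
      _ ≤ G * r := mul_le_mul_of_nonneg_right hgy hr

end Vale.Agent.P249.Core
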