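import Mathlib.Analysis.SpecialFunctions.Log.Basic
import Mathlib.Algebra.BigOperators.Intervals
import Mathlib.Algebra.BigOperators.Field
import Mathlib.Algebra.Order.BigOperators.Group.Finset
import Mathlib.Order.Interval.Finset.Nat

/-!
Summation lemmas for nonnegative sequences with suffix sums.
-/

namespace Vale.Agent.P249.Core

open Finset

variable {a : ℕ → ℝ}

lemma Icc_eq_insert {N l : ℕ} (h : l ≤ N) : Finset.Icc l N = insert l (Finset.Icc (l + 1) N) := by
  ext u
  simp only [mem_Icc, mem_insert]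
  omega

/-- The sum from `l` to `N`. -/
def tail (a : ℕ → ℝ) (N l : ℕ) : ℝ := ∑ u ∈ Finset.Icc l N, a u

lemma tail_of_gt {N l : ℕ} (h : N < l) : tail a N l = 0 := by
  rw [tail, Finset.Icc_eq_empty (by omega), sum_empty]

lemma tail_succ {N l : ℕ} (h : l ≤ N) : tail a N l = a l + tail a N (l + 1) := by
  rw [tail, tail, Icc_eq_insert h, sum_insert (by simp)]

lemma tail_nonneg {N l : ℕ} (ha : ∀ u ∈ Finset.Icc l N, 0 ≤ a u) : 0 ≤ tail a N l :=
  sum_nonneg ha

lemma tail_anti (ha : ∀ u, 0 ≤ a u) {N l l' : ℕ} (h : l ≤ l') : tail a N l' ≤ tail a N l :=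
  sum_le_sum_of_subset_of_nonneg (Icc_subset_Icc_left h) fun u _ _ => ha u

lemma le_tail (ha : ∀ u, 0 ≤ a u) {N l u : ℕ} (h1 : l ≤ u) (h2 : u ≤ N) : a u ≤ tail a N l :=
  single_le_sum (f := a) (fun v _ => ha v) (mem_Icc.2 ⟨h1, h2⟩)

/-- The terms of small suffix sum have small total. -/
lemma sum_small_tail (ha : ∀ u, 0 ≤ a u) (N s : ℕ) {τ : ℝ} (hτ : 0 ≤ τ) :
    ∑ l ∈ (Finset.Icc s N).filter (fun l => tail a N l < τ), a l ≤ τ := by
  classical
  rcases ((Finset.Icc s N).filter (fun l => tail a N l < τ)).eq_empty_or_nonempty with h | h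
  · rw [h, sum_empty]; exact hτ
  · set m := ((Finset.Icc s N).filter (fun l => tail a N l < τ)).min' h
    obtain ⟨hm1, hm2⟩ := mem_filter.1 (min'_mem _ h)
    refine le_trans (sum_le_sum_of_subset_of_nonneg (fun l hl => ?_) fun l _ _ => ha l) hm2.le
    exact mem_Icc.2 ⟨min'_le _ l hl, (mem_Icc.1 (mem_filter.1 hl).1).2⟩

lemma one_sub_inv_le_log {x y : ℝ} (hx : 0 < x) (hxy : x ≤ y) :
    (y - x) / y ≤ Real.log y - Real.log x := by
  have hy : 0 < y := hx.trans_le hxy
  have := Real.log_le_sub_one_of_pos (div_pos hx hy)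
  rw [Real.log_div hx.ne' hy.ne'] at this
  rw [sub_div, div_self hy.ne']
  linarith

/-- A logarithmic bound for the sum of the ratios to the suffix sums. -/
lemma sum_div_tail_le (ha : ∀ u, 0 ≤ a u) (N : ℕ) {τ : ℝ} (hτ : 0 < τ) (s : ℕ) :
    ∑ l ∈ (Finset.Icc s N).filter (fun l => τ ≤ tail a N l), a l / tail a N l ≤
      if τ ≤ tail a N s then 1 + (Real.log (tail a N s) - Real.log τ) else 0 := by
  classical
  induction hm : N + 1 - s generalizing s with
  | zero =>
    rw [Finset.Icc_eq_empty (by omega), filter_empty, sum_empty]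
    rw [tail_of_gt (by omega), if_neg (by linarith)]
  | succ m ih =>
    have hs : s ≤ N := by omega
    have h1 := ih (s + 1) (by omega)
    have hanti := tail_anti ha (N := N) (Nat.le_succ s)
    by_cases hc : τ ≤ tail a N s
    · rw [if_pos hc, Icc_eq_insert hs, filter_insert,
        if_pos hc, sum_insert (by simp)]
      have hpos : 0 < tail a N s := hτ.trans_le hc
      have hlog := Real.log_le_log hτ hc
      by_cases hc' : τ ≤ tail a N (s + 1)
      · rw [if_pos hc'] at h1
        have h2 := one_sub_inv_le_log (hτ.trans_le hc') hanti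
        have h3 : tail a N s - tail a N (s + 1) = a s := by rw [tail_succ hs]; ring
        rw [h3] at h2
        exact le_trans (add_le_add le_rfl h1) (by linarith)
      · rw [if_neg hc'] at h1
        have h2 : a s / tail a N s ≤ 1 := div_le_one_of_le₀ (le_tail ha le_rfl hs) hpos.le
        exact le_trans (add_le_add le_rfl h1) (by linarith)
    · rw [if_neg hc]
      refine le_of_eq ?_
      rw [filter_false_of_mem fun l hl => ?_, sum_empty]
      intro h
      exact hc (h.trans (tail_anti ha (mem_Icc.1 hl).1))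

/-- The ratios to `max (suffix sum) τ` have logarithmic total. -/
lemma sum_div_max_le (ha : ∀ u, 0 ≤ a u) (N s : ℕ) {τ C : ℝ} (hτ : 0 < τ) (hC : τ ≤ C) :
    ∑ l ∈ (Finset.Icc s N).filter (fun l => tail a N l ≤ C), a l / max (tail a N l) τ ≤
      2 + (Real.log C - Real.log τ) := by
  classical
  set I := (Finset.Icc s N).filter (fun l => tail a N l ≤ C)
  rcases I.eq_empty_or_nonempty with h | h
  · rw [h, sum_empty]; linarith [Real.log_le_log hτ hC]
  obtain ⟨hm1, hm2⟩ := mem_filter.1 (min'_mem I h)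
  set m := I.min' h with hm
  have hI : I ⊆ Finset.Icc m N := fun l hl =>
    mem_Icc.2 ⟨min'_le _ l hl, (mem_Icc.1 (mem_filter.1 hl).1).2⟩
  refine le_trans (sum_le_sum_of_subset_of_nonneg hI fun l _ _ =>
    div_nonneg (ha l) (le_trans hτ.le (le_max_right _ _))) ?_
  rw [← sum_filter_add_sum_filter_not (Finset.Icc m N) (fun l => τ ≤ tail a N l)]
  have h1 : ∑ l ∈ (Finset.Icc m N).filter (fun l => τ ≤ tail a N l), a l / max (tail a N l) τ ≤
      1 + (Real.log C - Real.log τ) := by
    refine le_trans (le_of_eq (sum_congr rfl fun l hl => by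
      rw [max_eq_left (mem_filter.1 hl).2])) ((sum_div_tail_le ha N hτ m).trans ?_)
    split_ifs with h2
    · linarith [Real.log_le_log (hτ.trans_le h2) hm2]
    · linarith [Real.log_le_log hτ hC]
  have h2 : ∑ l ∈ (Finset.Icc m N).filter (fun l => ¬ τ ≤ tail a N l), a l / max (tail a N l) τ ≤
      1 := by
    refine le_trans (le_of_eq (sum_congr rfl fun l hl => by
      rw [max_eq_right (not_le.1 (mem_filter.1 hl).2).le])) ?_
    rw [← sum_div, div_le_one hτ]
    have := sum_small_tail ha N m hτ.le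
    simp only [not_le]
    exact this
  linarith

/-- Weighted telescoping of a contracting recursion. -/
lemma sum_telescope {N : ℕ} {Q χ θ G X : ℕ → ℝ} :
    ∀ {l : ℕ}, 1 ≤ l → l ≤ N + 1 →
    (∀ u ∈ Finset.Icc l N, 0 ≤ Q u ∧ 0 ≤ θ u ∧ θ u ≤ 1 - χ u / 2 ∧ 0 ≤ G (u - 1) ∧ 0 ≤ X u ∧
      G u = θ u * G (u - 1) + X u ∧ (u < N → Q (u + 1) ≤ Q u)) →
    (0 ≤ Q l * G (l - 1)) →
    ∑ u ∈ Finset.Icc l N, Q u * (χ u * G (u - 1)) ≤
      2 * (Q l * G (l - 1) + ∑ u ∈ Finset.Icc l N, Q u * X u) := by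
  intro l hl1 hlN h h0
  induction hm : N + 1 - l generalizing l with
  | zero =>
    rw [Finset.Icc_eq_empty (by omega), sum_empty, sum_empty]
    linarith
  | succ m ih =>
    have hl : l ≤ N := by omega
    obtain ⟨hQ, hθ0, hθ, hG, hX, hrec, hQa⟩ := h l (mem_Icc.2 ⟨le_rfl, hl⟩)
    have hGl : 0 ≤ G l := by rw [hrec]; positivity
    rw [Icc_eq_insert hl, sum_insert (by simp),
      sum_insert (by simp)]
    rcases Nat.lt_or_ge l N with hlN' | hlN'
    · have hnext := h (l + 1) (mem_Icc.2 ⟨by omega, by omega⟩)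
      have h1 := ih (l := l + 1) (by omega) (by omega)
        (fun u hu => h u (mem_Icc.2 ⟨by have := mem_Icc.1 hu; omega, (mem_Icc.1 hu).2⟩))
        (by rw [Nat.add_sub_cancel]; exact mul_nonneg hnext.1 hGl) (by omega)
      rw [Nat.add_sub_cancel] at h1
      have h2 : Q (l + 1) * G l ≤ Q l * G l := mul_le_mul_of_nonneg_right (hQa hlN') hGl
      have h3 : Q l * (θ l * G (l - 1)) ≤ Q l * ((1 - χ l / 2) * G (l - 1)) :=
        mul_le_mul_of_nonneg_left (mul_le_mul_of_nonneg_right hθ hG) hQ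
      rw [hrec] at h2 h1
      linarith
    · obtain rfl : l = N := by omega
      rw [Finset.Icc_eq_empty (by omega), sum_empty, sum_empty]
      have hχ : χ l ≤ 2 := by linarith
      nlinarith [mul_nonneg (mul_nonneg hQ hG) (sub_nonneg.2 hχ), mul_nonneg hQ hX]

/-- A linear bound for `log (1 + t)`. -/
lemma log_one_add_le {t m : ℝ} (ht : 0 ≤ t) (hm : 0 ≤ m) :
    Real.log (1 + t) ≤ m + t * Real.exp (-m) := by
  have h1 := Real.log_le_sub_one_of_pos (show 0 < (1 + t) * Real.exp (-m) by positivity)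
  rw [Real.log_mul (by linarith) (Real.exp_pos _).ne', Real.log_exp, add_mul, one_mul] at h1
  have h2 : Real.exp (-m) ≤ 1 := Real.exp_le_one_iff.2 (by linarith)
  linarith

end Vale.Agent.P249.Core
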